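import Mathlib.NumberTheory.NumberField.InfinitePlace.Embeddings
import Mathlib.RingTheory.Trace.Basic
import Mathlib.RingTheory.Norm.Transitivity
import Mathlib.NumberTheory.NumberField.Norm
import Mathlib.LinearAlgebra.Complex.FiniteDimensional
import Mathlib.Analysis.SpecialFunctions.Complex.Circle
import Mathlib.RingTheory.RootsOfUnity.Complex
import Mathlib.Tactic

/-!
P016, block THETA: a choice of one embedding in each pair of conjugate embeddings of a totally
complex number field, the trace pairing, and real bases of `ι → ℂ` coming from bases of the field.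
-/

namespace Vale.Agent.P016Z.TH

open NumberField Complex Finset Module
open scoped ComplexConjugate

/-- one embedding in each conjugate pair -/
structure CM (K : Type) [Field K] (ι : Type) where
  sig : ι → (K →+* ℂ)
  bij : Function.Bijective (Sum.elim sig (fun j => ComplexEmbedding.conjugate (sig j)))

/-- `e(t) = exp(2 π i t)` -/
noncomputable def ee (t : ℝ) : ℂ := Complex.exp (2 * Real.pi * I * t)

theorem ee_add (s t : ℝ) : ee (s + t) = ee s * ee t := by
  unfold ee; rw [← Complex.exp_add]; congr 1; push_cast; ring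

theorem ee_zero : ee 0 = 1 := by simp [ee]

theorem norm_ee (t : ℝ) : ‖ee t‖ = 1 := by
  unfold ee
  have : (2 * Real.pi * I * t : ℂ) = ((2 * Real.pi * t : ℝ) : ℂ) * I := by push_cast; ring
  rw [this, Complex.norm_exp_ofReal_mul_I]

theorem ee_neg (t : ℝ) : ee (-t) = conj (ee t) := by
  unfold ee
  rw [← Complex.exp_conj]
  congr 1
  simp [map_ofNat]

theorem ee_int (n : ℤ) : ee n = 1 := by
  unfold ee
  have := Complex.exp_int_mul_two_pi_mul_I n
  rw [← this]; congr 1; push_cast; ring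

theorem ee_ne (t : ℝ) : ee t ≠ 0 := Complex.exp_ne_zero _

theorem ee_sum {α : Type*} (s : Finset α) (f : α → ℝ) : ee (∑ i ∈ s, f i) = ∏ i ∈ s, ee (f i) := by
  unfold ee
  rw [← Complex.exp_sum]; congr 1; push_cast; rw [mul_sum]

@[fun_prop] theorem continuous_ee : Continuous ee := by unfold ee; fun_prop

variable {ι : Type} [Fintype ι]

/-- the pairing `∑ 2 Re (a_j z_j)` -/
noncomputable def pr (a z : ι → ℂ) : ℝ := ∑ j, 2 * (a j * z j).re

theorem pr_add_right (a z z' : ι → ℂ) : pr a (z + z') = pr a z + pr a z' := by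
  simp only [pr, Pi.add_apply, mul_add, add_re, sum_add_distrib]

theorem pr_add_left (a a' z : ι → ℂ) : pr (a + a') z = pr a z + pr a' z := by
  simp only [pr, Pi.add_apply, add_mul, add_re, mul_add, sum_add_distrib]

theorem pr_neg_left (a z : ι → ℂ) : pr (-a) z = -pr a z := by
  simp only [pr, Pi.neg_apply, neg_mul, neg_re, mul_neg, sum_neg_distrib]

theorem pr_neg_right (a z : ι → ℂ) : pr a (-z) = -pr a z := by
  simp only [pr, Pi.neg_apply, mul_neg, neg_re, sum_neg_distrib]

theorem pr_sub_right (a z z' : ι → ℂ) : pr a (z - z') = pr a z - pr a z' := by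
  rw [sub_eq_add_neg, pr_add_right, pr_neg_right, sub_eq_add_neg]

theorem pr_smul_right (a z : ι → ℂ) (r : ℝ) : pr a (r • z) = r * pr a z := by
  simp only [pr, Pi.smul_apply, real_smul, mul_sum]
  refine sum_congr rfl fun j _ => ?_
  rw [mul_left_comm (a j), re_ofReal_mul]; ring

theorem pr_comm (a z : ι → ℂ) : pr a z = pr z a := by
  simp only [pr, mul_comm (a _)]

theorem pr_mul (a b z : ι → ℂ) : pr (a * b) z = pr a (b * z) := by
  simp only [pr, Pi.mul_apply, mul_assoc]

theorem pr_zero_left (z : ι → ℂ) : pr 0 z = 0 := by simp [pr]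

theorem pr_zero_right (z : ι → ℂ) : pr z 0 = 0 := by simp [pr]

@[fun_prop] theorem continuous_pr (a : ι → ℂ) : Continuous (pr a) := by unfold pr; fun_prop

/-- the pairing as a linear form -/
noncomputable def prL (a : ι → ℂ) : (ι → ℂ) →ₗ[ℝ] ℝ where
  toFun := pr a
  map_add' := pr_add_right a
  map_smul' r z := by rw [pr_smul_right]; rfl

namespace CM

variable {K : Type} [Field K] (C : CM K ι)

/-- the embedding of the field in `ι → ℂ` -/
def em : K →+* (ι → ℂ) := RingHom.pi C.sig

omit [Fintype ι] in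
@[simp] theorem em_apply (x : K) (j : ι) : C.em x j = C.sig j x := rfl

/-- the absolute norm -/
noncomputable def nm (x : K) : ℝ := ∏ j, normSq (C.sig j x)

theorem nm_mul (x y : K) : C.nm (x * y) = C.nm x * C.nm y := by
  simp only [nm, map_mul, prod_mul_distrib]

theorem nm_one : C.nm 1 = 1 := by simp [nm]

theorem nm_nonneg (x : K) : 0 ≤ C.nm x := prod_nonneg fun _ _ => normSq_nonneg _

theorem nm_pos {x : K} (hx : x ≠ 0) : 0 < C.nm x :=
  prod_pos fun j _ => normSq_pos.2 ((map_ne_zero (C.sig j)).2 hx)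

theorem nm_inv (x : K) : C.nm x⁻¹ = (C.nm x)⁻¹ := by
  simp only [nm, map_inv₀, prod_inv_distrib]

theorem nm_pow (x : K) (n : ℕ) : C.nm (x ^ n) = C.nm x ^ n := by
  simp only [nm, map_pow, prod_pow]

theorem nm_neg (x : K) : C.nm (-x) = C.nm x := by
  simp only [nm, map_neg, normSq_neg]

theorem nm_div (x y : K) : C.nm (x / y) = C.nm x / C.nm y := by
  rw [div_eq_mul_inv, nm_mul, nm_inv, div_eq_mul_inv]

/-- the character `z ↦ e(Tr(ν z))` -/
noncomputable def ch (ν : K) (z : ι → ℂ) : ℂ := ee (pr (C.em ν) z)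

theorem norm_ch (ν : K) (z : ι → ℂ) : ‖C.ch ν z‖ = 1 := norm_ee _

theorem ch_add (ν : K) (z z' : ι → ℂ) : C.ch ν (z + z') = C.ch ν z * C.ch ν z' := by
  rw [ch, pr_add_right, ee_add]; rfl

theorem ch_add_left (ν ν' : K) (z : ι → ℂ) : C.ch (ν + ν') z = C.ch ν z * C.ch ν' z := by
  rw [ch, map_add, pr_add_left, ee_add]; rfl

theorem ch_neg_left (ν : K) (z : ι → ℂ) : C.ch (-ν) z = conj (C.ch ν z) := by
  rw [ch, map_neg, pr_neg_left, ee_neg]; rfl

theorem ch_neg (ν : K) (z : ι → ℂ) : C.ch ν (-z) = conj (C.ch ν z) := by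
  rw [ch, pr_neg_right, ee_neg]; rfl

theorem ch_zero_left (z : ι → ℂ) : C.ch 0 z = 1 := by rw [ch, map_zero, pr_zero_left, ee_zero]

theorem ch_zero (ν : K) : C.ch ν 0 = 1 := by rw [ch, pr_zero_right, ee_zero]

theorem ch_mul (ν x : K) (z : ι → ℂ) : C.ch (ν * x) z = C.ch ν (C.em x * z) := by
  rw [ch, map_mul, pr_mul]; rfl

theorem ch_eq_prod (ν : K) (z : ι → ℂ) :
    C.ch ν z = ∏ j, ee (2 * (C.sig j ν * z j).re) := by
  rw [ch, pr, ee_sum]; rfl

@[fun_prop] theorem continuous_ch (ν : K) : Continuous (C.ch ν) :=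
  continuous_ee.comp (continuous_pr _)

variable [NumberField K]

theorem sum_emb {M : Type*} [AddCommMonoid M] (f : (K →+* ℂ) → M) :
    ∑ φ : K →+* ℂ, f φ = ∑ j, (f (C.sig j) + f (ComplexEmbedding.conjugate (C.sig j))) := by
  rw [← (Equiv.ofBijective _ C.bij).sum_comp f, Fintype.sum_sum_type, sum_add_distrib]
  rfl

theorem prod_emb {M : Type*} [CommMonoid M] (f : (K →+* ℂ) → M) :
    ∏ φ : K →+* ℂ, f φ = ∏ j, (f (C.sig j) * f (ComplexEmbedding.conjugate (C.sig j))) := by
  rw [← (Equiv.ofBijective _ C.bij).prod_comp f, Fintype.prod_sum_type, prod_mul_distrib]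
  rfl

include C in
theorem card_eq : 2 * Fintype.card ι = finrank ℚ K := by
  have h := Fintype.card_of_bijective C.bij
  rw [Fintype.card_sum, Embeddings.card K ℂ] at h
  omega

include C in
theorem nonempty : Nonempty ι := by
  have h := C.card_eq
  have h2 : 0 < finrank ℚ K := finrank_pos
  exact Fintype.card_pos_iff.1 (by omega)

theorem trace_eq (x : K) : ((Algebra.trace ℚ K x : ℚ) : ℝ) = ∑ j, 2 * (C.sig j x).re := by
  have h := trace_eq_sum_embeddings ℂ (K := ℚ) (L := K) (x := x)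
  rw [← (RingHom.equivRatAlgHom K ℂ).sum_comp (fun φ => φ x)] at h
  have h2 : ∑ φ : K →+* ℂ, (RingHom.equivRatAlgHom K ℂ φ) x = ∑ φ : K →+* ℂ, φ x := rfl
  rw [h2, C.sum_emb (fun φ => φ x)] at h
  have h3 : ((((Algebra.trace ℚ K x : ℚ) : ℝ)) : ℂ) = ((∑ j, 2 * (C.sig j x).re : ℝ) : ℂ) := by
    rw [ofReal_ratCast, ← eq_ratCast (algebraMap ℚ ℂ), h, ofReal_sum]
    refine sum_congr rfl fun j _ => ?_
    rw [ComplexEmbedding.conjugate_coe_eq, add_conj]
  exact_mod_cast h3

theorem pr_em (x y : K) : pr (C.em x) (C.em y) = ((Algebra.trace ℚ K (x * y) : ℚ) : ℝ) := by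
  rw [C.trace_eq]; simp only [pr, em_apply, map_mul]

theorem nm_eq (x : K) : C.nm x = ((Algebra.norm ℚ x : ℚ) : ℝ) := by
  have h := Algebra.norm_eq_prod_embeddings ℚ ℂ x
  rw [← (RingHom.equivRatAlgHom K ℂ).prod_comp (fun φ => φ x)] at h
  have h2 : ∏ φ : K →+* ℂ, (RingHom.equivRatAlgHom K ℂ φ) x = ∏ φ : K →+* ℂ, φ x := rfl
  rw [h2, C.prod_emb (fun φ => φ x)] at h
  have h3 : ((((Algebra.norm ℚ x : ℚ) : ℝ)) : ℂ) = ((C.nm x : ℝ) : ℂ) := by
    rw [ofReal_ratCast, ← eq_ratCast (algebraMap ℚ ℂ), h, nm, ofReal_prod]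
    refine prod_congr rfl fun j _ => ?_
    rw [ComplexEmbedding.conjugate_coe_eq, mul_conj]
  exact_mod_cast h3.symm

theorem one_le_nm {x : 𝓞 K} (hx : x ≠ 0) : 1 ≤ C.nm (x : K) := by
  have h0 : 0 < C.nm (x : K) := C.nm_pos (by exact_mod_cast hx)
  rw [C.nm_eq, ← Algebra.coe_norm_int] at h0 ⊢
  have h1 : (0 : ℤ) < Algebra.norm ℤ x := by exact_mod_cast h0
  exact_mod_cast h1

theorem ch_em (ν x : K) : C.ch ν (C.em x) = ee ((Algebra.trace ℚ K (ν * x) : ℚ) : ℝ) := by
  rw [ch, pr_em]

section basis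

variable {κ : Type} [Fintype κ] [DecidableEq κ] (b : Basis κ ℚ K)

theorem pr_dual (i k : κ) : pr (C.em (b.traceDual i)) (C.em (b k)) = if k = i then 1 else 0 := by
  rw [pr_em, Basis.trace_traceDual_mul]
  split_ifs <;> simp

theorem linInd : LinearIndependent ℝ (fun i => C.em (b i)) := by
  rw [Fintype.linearIndependent_iff]
  intro g hg i
  have h := congrArg (prL (C.em (b.traceDual i))) hg
  rw [map_sum, map_zero] at h
  simp only [map_smul, smul_eq_mul] at h
  have h2 : ∀ k, prL (C.em (b.traceDual i)) (C.em (b k)) = if k = i then 1 else 0 :=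
    fun k => C.pr_dual b i k
  simpa [h2] using h

/-- the real basis of `ι → ℂ` given by a rational basis of the field -/
noncomputable def bas : Basis κ ℝ (ι → ℂ) :=
  haveI : Nonempty κ := b.index_nonempty
  basisOfLinearIndependentOfCardEqFinrank (C.linInd b) (by
    rw [finrank_pi_fintype, ← finrank_eq_card_basis b, ← C.card_eq]
    simp [finrank_real_complex, mul_comm])

@[simp] theorem bas_apply (i : κ) : C.bas b i = C.em (b i) := by
  simp [bas]

theorem bas_repr (z : ι → ℂ) (i : κ) : (C.bas b).repr z i = pr (C.em (b.traceDual i)) z := by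
  have h : ((C.bas b).coord i) = prL (C.em (b.traceDual i)) := by
    refine (C.bas b).ext fun k => ?_
    rw [Basis.coord_apply, Basis.repr_self, bas_apply, Finsupp.single_apply]
    exact (C.pr_dual b i k).symm
  exact LinearMap.congr_fun h z

end basis

end CM

/-- existence of a choice of embeddings that agree at a primitive cube root of unity -/
theorem exists_CM {K : Type} [Field K] [NumberField K] {z : K} (hz : IsPrimitiveRoot z 3)
    {ζ : ℂ} (hζ : IsPrimitiveRoot ζ 3) :
    ∃ C : CM K {φ : K →+* ℂ // φ z = ζ}, ∀ j, C.sig j z = ζ := by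
  have h1 : ζ ^ 2 + ζ + 1 = 0 := by
    have := hζ.geom_sum_eq_zero (by norm_num)
    simp only [sum_range_succ, sum_range_zero] at this
    linear_combination this
  have hn : ‖ζ‖ = 1 := hζ.norm'_eq_one (by norm_num)
  have hc : conj ζ = ζ ^ 2 := by
    have h3 : ζ ^ 3 = 1 := hζ.pow_eq_one
    have h4 : conj ζ * ζ = 1 := by rw [conj_mul', hn]; simp
    calc conj ζ = conj ζ * ζ ^ 3 := by rw [h3, mul_one]
      _ = (conj ζ * ζ) * ζ ^ 2 := by ring
      _ = ζ ^ 2 := by rw [h4, one_mul]
  have hne : conj ζ ≠ ζ := by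
    rw [hc]
    intro h
    have h5 : ζ * (ζ - 1) = 0 := by linear_combination h
    rcases mul_eq_zero.1 h5 with h6 | h6
    · rw [h6] at h1; simp at h1
    · have : ζ = 1 := by linear_combination h6
      rw [this] at h1; norm_num at h1
  refine ⟨⟨Subtype.val, ?_, ?_⟩, fun j => j.2⟩
  · rintro (a | a) (c | c) h
    · exact congrArg _ (Subtype.ext h)
    · exfalso
      have h2 : a.1 z = ComplexEmbedding.conjugate c.1 z := DFunLike.congr_fun h z
      rw [ComplexEmbedding.conjugate_coe_eq, a.2, c.2] at h2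
      exact hne h2.symm
    · exfalso
      have h2 : ComplexEmbedding.conjugate a.1 z = c.1 z := DFunLike.congr_fun h z
      rw [ComplexEmbedding.conjugate_coe_eq, a.2, c.2] at h2
      exact hne h2
    · have h2 : ComplexEmbedding.conjugate a.1 = ComplexEmbedding.conjugate c.1 := h
      exact congrArg _ (Subtype.ext (star_injective h2))
  · intro φ
    have h2 : (φ z) ^ 2 + φ z + 1 = 0 := by
      have := (hz.map_of_injective φ.injective).geom_sum_eq_zero (by norm_num)
      simp only [sum_range_succ, sum_range_zero] at this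
      linear_combination this
    have h3 : (φ z - ζ) * (φ z - ζ ^ 2) = 0 := by
      have h3 : ζ ^ 3 = 1 := hζ.pow_eq_one
      linear_combination h2 - φ z * h1 + h3
    rcases mul_eq_zero.1 h3 with h4 | h4
    · exact ⟨Sum.inl ⟨φ, sub_eq_zero.1 h4⟩, rfl⟩
    · refine ⟨Sum.inr ⟨ComplexEmbedding.conjugate φ, ?_⟩, star_star φ⟩
      rw [ComplexEmbedding.conjugate_coe_eq, sub_eq_zero.1 h4, ← hc, conj_conj]

end Vale.Agent.P016Z.TH
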