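import Vale.Agent.P016Z.TH.Qs

/-!
P016, block THETA: evaluation of the cubic Gauss sums (`GAU1`) and stability of the families
(`GAU3`).
-/

namespace Vale.Agent.P016Z.TH

open NumberField Complex Filter
open scoped ComplexConjugate

set_option linter.unusedSectionVars false

variable {K : Type} [Field K] [NumberField K] [Dat K]

theorem norm_of_cube {z : ℂ} (h : z ^ 3 = 1) : ‖z‖ = 1 := by
  have h1 : ‖z‖ ^ 3 = 1 := by rw [← norm_pow, h, norm_one]
  exact (pow_eq_one_iff_of_nonneg (norm_nonneg z) (by norm_num)).1 h1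

theorem conj_of_cube {z : ℂ} (h : z ^ 3 = 1) : conj z = z ^ 2 := by
  have h1 : conj z * z = 1 := by rw [Complex.conj_mul', norm_of_cube h]; simp
  linear_combination (-conj z) * h + z ^ 2 * h1

theorem cop_one {y : K} (hy : y ∈ R K) (h0 : y ≠ 0) : Cop 1 y :=
  ⟨one_mem _, hy, h0, 1, one_mem _, 0, zero_mem _, by ring⟩

theorem cop_neg_one {y : K} (hy : y ∈ R K) (h0 : y ≠ 0) : Cop (-1) y :=
  ⟨neg_mem (one_mem _), hy, h0, -1, neg_mem (one_mem _), 0, zero_mem _, by ring⟩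

theorem cop_of_prime {p x : R K} (hp : Prime p) (h : ¬ p ∣ x) : Cop (x : K) (p : K) :=
  cop_iff.2 ⟨hp.ne_zero, (hp.coprime_iff_not_dvd.2 h).symm⟩

theorem not_cop_of_prime {p x : R K} (hp : Prime p) (h : p ∣ x) : ¬ Cop (x : K) (p : K) :=
  fun hc => hp.coprime_iff_not_dvd.1 (cop_iff.1 hc).2.symm h

namespace Sy

variable (S : Sy K)

theorem norm_s {x y : K} (h : Cop x y) : ‖S.s x y‖ = 1 := norm_of_cube (S.s_cube x y h)

theorem norm_s_le (x y : K) : ‖S.s x y‖ ≤ 1 := by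
  by_cases h : Cop x y
  · exact (S.norm_s h).le
  · rw [S.s_zero x y h, norm_zero]; exact zero_le_one

theorem s_ne_zero {x y : K} (h : Cop x y) : S.s x y ≠ 0 := by
  rw [← norm_ne_zero_iff, S.norm_s h]; exact one_ne_zero

theorem conj_s (x y : K) : conj (S.s x y) = S.s x y ^ 2 := by
  by_cases h : Cop x y
  · exact conj_of_cube (S.s_cube x y h)
  · rw [S.s_zero x y h]; simp

theorem norm_h {x y : K} (hx : x ≠ 0) (hy : y ≠ 0) : ‖S.h x y‖ = 1 :=
  norm_of_cube (S.h_cube x y hx hy)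

theorem s_one {y : K} (hy : y ∈ R K) (h0 : y ≠ 0) : S.s 1 y = 1 := by
  have h1 := S.s_mul_left 1 1 y (one_mem _) (one_mem _)
  rw [mul_one] at h1
  exact (mul_left_cancel₀ (S.s_ne_zero (cop_one hy h0)) ((mul_one _).trans h1)).symm

theorem s_neg_one {y : K} (hy : y ∈ R K) (h0 : y ≠ 0) : S.s (-1) y = 1 := by
  have h1 := S.s_mul_left (-1) (-1) y (neg_mem (one_mem _)) (neg_mem (one_mem _))
  rw [neg_mul_neg, mul_one, S.s_one hy h0] at h1
  have h2 := S.s_cube _ _ (cop_neg_one hy h0)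
  linear_combination h2 + S.s (-1) y * h1

theorem s_neg (x y : K) : S.s (-x) y = S.s x y := by
  by_cases h : Cop x y
  · rw [← neg_one_mul, S.s_mul_left _ _ _ (neg_mem (one_mem _)) h.1, S.s_neg_one h.2.1 h.2.2.1,
      one_mul]
  · rw [S.s_zero _ _ h, S.s_zero]
    rintro ⟨h1, h2, h3, a, ha, b, hb, h4⟩
    exact h ⟨by simpa using neg_mem h1, h2, h3, -a, neg_mem ha, b, hb, by linear_combination h4⟩

theorem s_perM (c : R K) : PerM c fun d : R K => S.s d c := by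
  rintro x y ⟨t, ht⟩
  have h1 : (x : K) = y + c * t := by
    have := congrArg (fun a : R K => (a : K)) ht
    push_cast at this
    linear_combination this
  simp only [h1, S.s_add _ _ _ t.2]

theorem s_coe_mul_left (x x' : R K) (y : K) : S.s ((x * x' : R K) : K) y = S.s x y * S.s x' y :=
  S.s_mul_left _ _ _ x.2 x'.2

theorem s_coe_mul_right (x : K) (y y' : R K) :
    S.s x ((y * y' : R K) : K) = S.s x y * S.s x y' := S.s_mul_right _ _ _ y.2 y'.2

theorem s_unit {u : Kˣ} (hu : u ∈ Ru K) {x : K} (hx : x ∈ R K) : S.s x u = 1 := by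
  rw [← S.s_one hu.1 u.ne_zero, ← S.s_add 1 u ((u : K)⁻¹ * (x - 1))
    (mul_mem hu.2 (sub_mem hx (one_mem _))), mul_inv_cancel_left₀ u.ne_zero, add_sub_cancel]

theorem G_unit {ν : K} (hν : ν ∈ R K) {u : Kˣ} (hu : u ∈ Ru K) : S.G ν u = 1 := by
  have h0 : (⟨u, hu.1⟩ : R K) ≠ 0 := fun h => u.ne_zero (congrArg (fun t : R K => (t : K)) h)
  have hU : IsUnit (⟨u, hu.1⟩ : R K) :=
    IsUnit.of_mul_eq_one ⟨_, hu.2⟩ (Subtype.ext (mul_inv_cancel₀ u.ne_zero))
  have := finite_Rs h0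
  have h1 := S.G_eq_rsum hν h0
  rw [rsum_congr (h' := fun _ => 1), rsum_const, Nq_eq_one_iff.2 hU] at h1
  · simpa using h1
  · intro d
    rw [S.s_unit hu d.2, one_mul, div_eq_mul_inv]
    exact psi_of_mem_R (mul_mem (mul_mem hν d.2) hu.2)

theorem G_perM (ν : R K) {c : R K} (hc : c ≠ 0) :
    PerM c fun d : R K => S.s d c * E c (d * ν) := (S.s_perM c).mul (E_per hc ν)

/-- the twist, coprime case -/
theorem s_mul_G {ν x c : K} (hν : ν ∈ R K) (h : Cop x c) :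
    S.s x c * S.G (ν * x) c = S.G ν c := by
  lift ν to R K using hν
  lift x to R K using h.1
  lift c to R K using h.2.1
  obtain ⟨hc, hxc⟩ := cop_iff.1 h
  have h1 := S.G_eq_rsum_E (ν * x) hc
  push_cast at h1
  rw [h1, S.G_eq_rsum_E ν hc, ← rsum_comp_mul hxc (S.G_perM ν hc), ← rsum_const_mul]
  refine rsum_congr fun d => ?_
  rw [S.s_coe_mul_left, show x * d * ν = d * (ν * x) by ring, mul_assoc]

theorem G_twist {ν x c : K} (hν : ν ∈ R K) (h : Cop x c) :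
    S.G (ν * x) c = conj (S.s x c) * S.G ν c := by
  rw [← S.s_mul_G hν h, S.conj_s, ← mul_assoc, ← pow_succ, S.s_cube _ _ h, one_mul]

theorem G_twist_cube {ν x c : K} (hν : ν ∈ R K) (h : Cop x c) :
    S.G (ν * x ^ 3) c = S.G ν c := by
  have h1 := h.1
  rw [show ν * x ^ 3 = ν * x * x * x by ring, S.G_twist (mul_mem (mul_mem hν h1) h1) h,
    S.G_twist (mul_mem hν h1) h, S.G_twist hν h, ← mul_assoc, ← mul_assoc, ← map_mul, ← map_mul,
    ← pow_three', S.s_cube _ _ h, map_one, one_mul]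

/-- the Chinese remainder theorem for the cubic Gauss sums -/
theorem G_mul {ν x c : K} (hν : ν ∈ R K) (hx : x ≠ 0) (h : Cop x c) :
    S.G ν (x * c) = S.s c x * S.s x c * S.G ν x * S.G ν c := by
  lift ν to R K using hν
  lift x to R K using h.1
  lift c to R K using h.2.1
  obtain ⟨hc, hxc⟩ := cop_iff.1 h
  have hx' : x ≠ 0 := fun h0 => hx (by rw [h0]; rfl)
  have h1 := S.G_eq_rsum_E ν (mul_ne_zero hx' hc)
  have h2 := rsum_mul_E hx' hc hxc (S.s_perM x) (S.s_perM c) ν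
  simp only [S.s_coe_mul_right] at h1
  simp only [S.s_coe_mul_left, mul_assoc, rsum_const_mul] at h2
  push_cast at h1
  simp only [mul_assoc] at h1
  rw [h1, h2, S.G_eq_rsum_E ν hx', S.G_eq_rsum_E ν hc]
  ring

theorem G_mul_h {ν x c : K} (hν : ν ∈ R K) (hx : x ≠ 0) (h : Cop x c) :
    S.G ν (x * c) = S.h c x * S.G ν x * S.G (ν * x) c := by
  rw [S.G_mul hν hx h, ← S.s_mul_G hν h, S.recip c x (h.symm hx) h.2.2.1]
  linear_combination (S.h c x * S.G ν x * S.G (ν * x) c) * S.s_cube _ _ h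

theorem G_dvd {p ν : R K} (hp : Prime p) (h : p ∣ ν) : S.G ν p = 0 := by
  obtain ⟨x, hx, hne⟩ := S.nontriv p hp
  have h1 := S.s_mul_G ν.2 hx
  have h2 : ∀ μ : R K, p ∣ μ → S.G μ p = rsum p fun d : R K => S.s d p := fun μ hμ => by
    rw [S.G_eq_rsum_E μ hp.ne_zero]
    exact rsum_congr fun d => by rw [E_of_dvd hp.ne_zero (hμ.mul_left d), mul_one]
  have h3 := h2 (ν * ⟨x, hx.1⟩) (h.mul_right _)
  push_cast at h3
  rw [h3, ← h2 ν h] at h1
  by_contra h0
  exact hne (mul_right_cancel₀ h0 (h1.trans (one_mul _).symm))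

theorem G_prime {p : R K} (hp : Prime p) (y : R K) :
    S.G y p = conj (S.s y p) * S.G 1 p := by
  by_cases h : p ∣ y
  · rw [S.G_dvd hp h, S.s_zero _ _ (not_cop_of_prime hp h), map_zero, zero_mul]
  · rw [← S.G_twist (one_mem _) (cop_of_prime hp h), one_mul]

theorem conj_G (ν : R K) {c : R K} (hc : c ≠ 0) :
    conj (S.G ν c) = rsum c fun d : R K => S.s d c ^ 2 * E c (d * ν) := by
  have := finite_Rs hc
  rw [S.G_eq_rsum_E ν hc, ← rsum_comp_neg (S.G_perM ν hc), ← rsum_conj]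
  refine rsum_congr fun d => ?_
  rw [map_mul, neg_mul, E_neg, Complex.conj_conj, S.conj_s]
  push_cast
  rw [S.s_neg]

theorem G_one_mul_conj {p : R K} (hp : Prime p) : S.G 1 p * conj (S.G 1 p) = (Nr p : ℂ) := by
  have hp0 := hp.ne_zero
  have := finite_Rs hp0
  have h1 := fourier_inv hp0 (S.s_perM p) 1
  have h2 : ∀ y : R K, fhat p (fun d : R K => S.s d p) y = conj (S.s y p) * S.G 1 p := fun y => by
    rw [← S.G_prime hp, S.G_eq_rsum_E y hp0]; rfl
  have h3 := S.G_eq_rsum_E 1 hp0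
  simp only [h2, E_neg, one_mul, OneMemClass.coe_one, S.s_one p.2 (coe_ne_zero hp0), mul_one]
    at h1 h3
  rw [← h1]
  conv_lhs => rw [mul_comm]; congr; rw [h3, ← rsum_conj]
  rw [← rsum_mul_const]
  exact rsum_congr fun d => by rw [map_mul]; ring

theorem G_mul_conj {p ν : R K} (hp : Prime p) (h : ¬ p ∣ ν) :
    S.G ν p * conj (S.G ν p) = (Nr p : ℂ) := by
  rw [← S.G_one_mul_conj hp, S.G_prime hp ν, map_mul, Complex.conj_conj, S.conj_s]
  linear_combination (S.G 1 p * conj (S.G 1 p)) * S.s_cube _ _ (cop_of_prime hp h)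

theorem G_sq (ν : R K) {c : R K} (hc : c ≠ 0) :
    S.G (ν * c) (c ^ 2) = (Nr c : ℂ) * conj (S.G ν c) := by
  have := finite_Rs hc
  have h1 := S.G_eq_rsum_E (ν * c) (mul_ne_zero hc hc)
  have hper : PerM c fun d : R K => S.s d c ^ 2 * E c (d * ν) :=
    ((S.s_perM c).pow 2).mul (E_per hc ν)
  have h2 : ∀ d : R K, S.s d ((c * c : R K) : K) * E (c * c) (d * (ν * c)) =
      S.s d c ^ 2 * E c (d * ν) := fun d => by
    rw [S.s_coe_mul_right, show d * (ν * c) = c * (d * ν) by ring, E_mul_cancel hc, sq]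
  simp only [h2] at h1
  rw [rsum_mul hc (hper.mono (dvd_mul_right c c))] at h1
  have h3 : ∀ x y : R K, S.s ((x + c * y : R K) : K) c ^ 2 * E c ((x + c * y) * ν) =
      S.s x c ^ 2 * E c (x * ν) := fun x y =>
    hper _ _ (by rw [add_sub_cancel_left]; exact dvd_mul_right c y)
  simp only [h3, rsum_const, rsum_const_mul] at h1
  push_cast at h1
  rw [sq, h1, S.conj_G ν hc]

/-- vanishing by a shift -/
theorem G_shift {p ν a b : R K} (hp : p ≠ 0) (ha : a ≠ 0) (hb : b ≠ 0) (h : ¬ p ∣ ν)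
    (hs : ∀ d y : R K, S.s ((d + b * y : R K) : K) ((a * b * p : R K) : K) =
      S.s d ((a * b * p : R K) : K)) :
    S.G ((ν * a : R K) : K) ((a * b * p : R K) : K) = 0 := by
  have h0 : a * b * p ≠ 0 := mul_ne_zero (mul_ne_zero ha hb) hp
  by_contra hne
  refine h (dvd_of_E hp fun y => ?_)
  rw [S.G_eq_rsum_E _ h0] at hne
  have h1 := rsum_comp_add (b * y) (S.G_perM (ν * a) h0)
  have h2 : ∀ d : R K, S.s ((d + b * y : R K) : K) ((a * b * p : R K) : K) *
      E (a * b * p) ((d + b * y) * (ν * a)) =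
      S.s d ((a * b * p : R K) : K) * E (a * b * p) (d * (ν * a)) * E p (y * ν) := fun d => by
    rw [hs, show (d + b * y) * (ν * a) = d * (ν * a) + a * b * (y * ν) by ring, E_add,
      E_mul_cancel (mul_ne_zero ha hb)]
    ring
  simp only [h2] at h1
  rw [rsum_mul_const] at h1
  exact mul_left_cancel₀ hne (h1.trans (mul_one _).symm)

theorem s_shift {b c : R K} (h : c ∣ b) (d y : R K) :
    S.s ((d + b * y : R K) : K) c = S.s d c :=
  S.s_perM c _ _ (by rw [add_sub_cancel_left]; exact h.mul_right y)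

theorem G_sq_mul {p ν c : R K} (hp : p ≠ 0) (h : ¬ p ∣ ν) (hc : c ≠ 0) :
    S.G ν (p ^ 2 * c) = 0 := by
  have h1 := S.G_shift (a := 1) (b := p * c) hp one_ne_zero (mul_ne_zero hp hc) h fun d y => by
    rw [one_mul, S.s_coe_mul_right, S.s_coe_mul_right _ (p * c), S.s_shift dvd_rfl,
      S.s_shift (dvd_mul_right p c)]
  push_cast at h1
  rw [← h1]; congr 1 <;> ring

theorem G_cube_mul {p ν c : R K} (hp : p ≠ 0) (h : ¬ p ∣ ν) (hc : c ≠ 0) :
    S.G (ν * p) (p ^ 3 * c) = 0 := by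
  have h1 := S.G_shift (a := p) (b := p * c) hp hp (mul_ne_zero hp hc) h fun d y => by
    rw [S.s_coe_mul_right, S.s_coe_mul_right _ p, S.s_coe_mul_right _ (p * (p * c)),
      S.s_coe_mul_right _ p (p * c), S.s_shift dvd_rfl, S.s_shift (dvd_mul_right p c)]
  push_cast at h1
  rw [← h1]; congr 1; ring

theorem G_prime_mul {p ν c : R K} (hp : Prime p) (h : p ∣ ν) (hc : ¬ p ∣ c) :
    S.G ν (p * c) = 0 := by
  have hc0 : (c : K) ≠ 0 := coe_ne_zero fun h0 => hc (h0 ▸ dvd_zero p)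
  rw [S.G_mul ν.2 (coe_ne_zero hp.ne_zero) ((cop_of_prime hp hc).symm hc0), S.G_dvd hp h,
    mul_zero, zero_mul]

end Sy

theorem gau1 (S : Sy K) : GAU1 S := by
  refine ⟨fun ν hν u hu => S.G_unit hν hu, fun ν hν x c hx h => S.G_mul_h hν hx h,
    fun p ν hp h => ⟨S.G_mul_conj hp h, S.G_sq ν hp.ne_zero,
      fun c hc => S.G_sq_mul hp.ne_zero h hc, fun c hc => S.G_cube_mul hp.ne_zero h hc,
      fun c hc => ?_⟩⟩
  have h1 := S.G_prime_mul hp (dvd_mul_left p ν) hc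
  push_cast at h1
  exact h1

theorem ev_mem_Si (y : K) : ∀ᶠ n : ℕ in atTop, (Q K : K) ^ n * y ∈ Si K := by
  obtain ⟨k, hk⟩ := exists_pow_mul_mem_Si y
  exact (eventually_ge_atTop k).mono fun n hn => pow_mul_mem_Si_mono hk hn

theorem lv_add (j n : ℕ) : lv K (j + n) = lv K j * (Q K : K) ^ n := by
  rw [lv, lv, ← pow_add]; congr 1; omega

theorem Fam.T (S : Sy K) {j : ℕ} {φ : K → K → ℂ} (hφ : Fam j φ) {x : K} (hx : x ≠ 0) :
    ∀ᶠ j' in atTop, Fam j' (S.T x φ) := by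
  have hl := lv_ne (K := K)
  have hQ := QK_ne K
  obtain ⟨n₀, hn₀⟩ := eventually_atTop.1 ((ev_mem_Si x⁻¹).and ((ev_mem_Si (x ^ 2)⁻¹).and
    ((ev_mem_Si x).and ((ev_mem_Si (x ^ 2)).and (ev_mem_Si (x ^ 2 / lv K 1))))))
  refine eventually_atTop.2 ⟨j + n₀, fun j' hj' => ?_⟩
  obtain ⟨n, rfl⟩ := Nat.exists_eq_add_of_le (le_trans (Nat.le_add_right j n₀) hj')
  obtain ⟨h1, h2, h3, h4, h5⟩ := hn₀ n (by omega)
  have hj := hl j
  have hl1 := hl 1
  refine ⟨?_, fun c d hne => ?_, fun c d s t hs ht => ?_⟩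
  · obtain ⟨B, hB⟩ := hφ.bdd
    refine ⟨B, fun c d => ?_⟩
    by_cases h0 : φ (x * c) (x ^ 2 * d) = 0
    · rw [Sy.T, h0, zero_mul, ← h0]; exact hB _ _
    · rw [Sy.T, norm_mul, S.norm_h hx (right_ne_zero_of_mul (hφ.supp _ _ h0).2.2.1), mul_one]
      exact hB _ _
  · obtain ⟨a1, a2, a3, a4⟩ := hφ.supp _ _ (left_ne_zero_of_mul hne)
    have hd := right_ne_zero_of_mul a3
    rw [lv_add]
    refine ⟨?_, ?_, hd, ?_⟩
    · rw [show lv K j * (Q K : K) ^ n * c = (Q K : K) ^ n * x⁻¹ * (lv K j * (x * c)) by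
        field_simp]
      exact mul_mem h1 a1
    · rw [show lv K j * (Q K : K) ^ n * d = (Q K : K) ^ n * (x ^ 2)⁻¹ * (lv K j * (x ^ 2 * d)) by
        field_simp]
      exact mul_mem h2 a2
    · rw [show lv K j * (Q K : K) ^ n / d = (Q K : K) ^ n * x ^ 2 * (lv K j / (x ^ 2 * d)) by
        field_simp]
      exact mul_mem h4 a4
  · rw [lv_add] at hs ht
    have e1 : φ (x * (c + s)) (x ^ 2 * (d + t)) = φ (x * c) (x ^ 2 * d) := by
      rw [mul_add, mul_add]
      refine hφ.per _ _ _ _ ?_ ?_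
      · rw [show x * s / lv K j = (Q K : K) ^ n * x * (s / (lv K j * (Q K : K) ^ n)) by
          field_simp]
        exact mul_mem h3 hs
      · rw [show x ^ 2 * t / lv K j = (Q K : K) ^ n * x ^ 2 * (t / (lv K j * (Q K : K) ^ n)) by
          field_simp]
        exact mul_mem h4 ht
    rw [Sy.T, Sy.T, e1]
    by_cases h0 : φ (x * c) (x ^ 2 * d) = 0
    · rw [h0, zero_mul, zero_mul]
    · obtain ⟨-, -, a3, a4⟩ := hφ.supp _ _ h0
      have hd := right_ne_zero_of_mul a3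
      have hdt := right_ne_zero_of_mul (hφ.supp _ _ (e1.trans_ne h0)).2.2.1
      rw [show d + t = d * ((d + t) / d) by field_simp,
        S.h_mul_right _ _ _ hx hd (div_ne_zero hdt hd), S.h_one x ((d + t) / d) hx, mul_one]
      rw [show ((d + t) / d - 1) / lv K 1 = (Q K : K) ^ n * (x ^ 2 / lv K 1) *
        (lv K j / (x ^ 2 * d)) * (t / (lv K j * (Q K : K) ^ n)) by field_simp; ring]
      exact mul_mem (mul_mem h5 a4) ht

theorem Fam.Cb {j : ℕ} {φ : K → K → ℂ} (hφ : Fam j φ) {x : K} (hx : x ≠ 0) :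
    ∀ᶠ j' in atTop, Fam j' (Cb x φ) := by
  have hl := lv_ne (K := K)
  have hQ := QK_ne K
  obtain ⟨n₀, hn₀⟩ := eventually_atTop.1 ((ev_mem_Si (x ^ 3)⁻¹).and (ev_mem_Si (x ^ 3)))
  refine eventually_atTop.2 ⟨j + n₀, fun j' hj' => ?_⟩
  obtain ⟨n, rfl⟩ := Nat.exists_eq_add_of_le (le_trans (Nat.le_add_right j n₀) hj')
  obtain ⟨h1, h2⟩ := hn₀ n (by omega)
  have h3 : (Q K : K) ^ n ∈ Si K := pow_mem (natCast_mem _ _) n
  have hj := hl j
  refine ⟨?_, fun c d hne => ?_, fun c d s t hs ht => ?_⟩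
  · obtain ⟨B, hB⟩ := hφ.bdd
    exact ⟨B, fun c d => hB _ _⟩
  · obtain ⟨a1, a2, a3, a4⟩ := hφ.supp _ _ hne
    have hd : d ≠ 0 := fun h0 => a3 (by rw [h0, zero_div])
    rw [lv_add]
    refine ⟨?_, ?_, hd, ?_⟩
    · rw [mul_right_comm]
      exact mul_mem a1 h3
    · rw [show lv K j * (Q K : K) ^ n * d = (Q K : K) ^ n * x ^ 3 * (lv K j * (d / x ^ 3)) by
        field_simp]
      exact mul_mem h2 a2
    · rw [show lv K j * (Q K : K) ^ n / d = (Q K : K) ^ n * (x ^ 3)⁻¹ * (lv K j / (d / x ^ 3)) by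
        field_simp]
      exact mul_mem h1 a4
  · rw [lv_add] at hs ht
    rw [TH.Cb, TH.Cb, add_div]
    refine hφ.per _ _ _ _ ?_ ?_
    · rw [show s / lv K j = (Q K : K) ^ n * (s / (lv K j * (Q K : K) ^ n)) by field_simp]
      exact mul_mem h3 hs
    · rw [show t / x ^ 3 / lv K j =
        (Q K : K) ^ n * (x ^ 3)⁻¹ * (t / (lv K j * (Q K : K) ^ n)) by field_simp]
      exact mul_mem h1 ht

theorem gn_level {a : K → K → ℂ} {j k : ℕ} {ν : K} (ha : Per (Lat (lv K j)) a)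
    (hν : ν ∈ Dual (lv K j)) (hjk : j ≤ k) (c : K) : gn k a ν c = gn j a ν c :=
  qs_Lat_div (lv_ne j) (lv_ne k) (perL_gs ha hν c) ((perL_gs ha hν c).mono (Lat_lv_le hjk))

theorem gau3 (S : Sy K) : GAU3 S :=
  ⟨fun _ _ hφ _ hx => ⟨(hφ.T S hx).exists, (hφ.Cb hx).exists⟩,
    fun _ _ _ _ c _ ha hν hjk _ => gn_level ha hν hjk c⟩

end Vale.Agent.P016Z.TH
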