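import Vale.Agent.P016Z.TH.NSl
import Vale.Agent.P016Z.TH.Gau1

/-!
P016, block THETA: multiplication of the frequency by a cube (`CUBE`), and the invariance and
vanishing of the residues of all equivariant row functions (`CUSP`).
-/

namespace Vale.Agent.P016Z.TH

open NumberField Filter Complex
open Vale.Agent.P006

set_option linter.unusedSectionVars false

variable {K : Type} [Field K] [NumberField K] [Dat K] {S : Sy K}

namespace Cu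

theorem Cb_mul (x y : K) (φ : K → K → ℂ) : Cb (x * y) φ = Cb x (Cb y φ) := by
  funext c d
  simp only [Cb, mul_pow, div_div]

/-- reindexing by the identity -/
theorem reidx (hA : RESA K) {a b : K → K → ℂ} {ν μ : K} {z ρ : ℂ} (hb : Nice b)
    (h : ∀ᶠ k in atTop, ∀ c, c ≠ 0 → gn k a ν c = z * gn k b μ c) (hρ : Res b μ ρ) :
    Res a ν (z * ρ) := by
  have h1 := hA.2.2.2.2.1 a b ν μ 1 z ρ hb one_ne_zero (by simpa only [one_mul] using h) hρ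
  rwa [nm, (cmK K).nm_one, Real.one_rpow, ofReal_one, mul_one] at h1

theorem cube_unit (hA : RESA K) (hB : RESB S) (hR2 : ROW2 S) (h2 : GAU2 S) {j : ℕ}
    {φ : K → K → ℂ} (hφ : Fam j φ) (ν : R K) {x : R K} (hx : IsUnit x) {ρ : ℂ}
    (h : Res (S.ap (Cb x φ)) ν ρ) : Res (S.ap φ) (ν * x ^ 3) ((NS x : ℂ) ^ 3 * ρ) := by
  obtain ⟨j', hj'⟩ := (hφ.Cb (coe_ne_zero hx.ne_zero)).exists
  refine reidx hA (hB.1 _ (hR2.1 j' _ hj')) ?_ h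
  filter_upwards [(h2 j φ hφ ν).2.1 x hx.ne_zero] with k hk c hc
  by_cases hcR : c ∈ R K
  · lift c to R K using hcR
    rw [NS_coe]
    exact (hk c (cop_iff.2 ⟨fun h0 => hc (by rw [h0]; rfl),
      isCoprime_one_left.of_isCoprime_of_dvd_left (isUnit_iff_dvd_one.1 hx)⟩)).2
  · rw [gn_ap_of_notMem S _ hcR, gn_ap_of_notMem S _ hcR, mul_zero]

theorem cube_prime (hA : RESA K) (hB : RESB S) (hR2 : ROW2 S) (h2 : GAU2 S) {j : ℕ}
    {φ : K → K → ℂ} (hφ : Fam j φ) (ν : R K) {p : R K} (hp : Prime p) {ρ : ℂ}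
    (h : Res (S.ap (Cb p φ)) ν ρ) : Res (S.ap φ) (ν * p ^ 3) ((NS p : ℂ) ^ 3 * ρ) := by
  have hp0 := hp.ne_zero
  obtain ⟨j', hj'⟩ := (hφ.Cb (coe_ne_zero hp0)).exists
  have e1 := hR2.1 j _ hφ
  have e2 := hR2.1 j' _ hj'
  have hν : (ν : K) * p ^ 3 ∈ R K := mul_mem ν.2 (pow_mem p.2 3)
  obtain ⟨σ, hσ⟩ := hB.2.1 _ e1 _ hν
  have h1 := (hB.2.2.1 _ e1 _ hν σ hσ p hp).2
  have h3 := (hB.2.2.1 _ e2 _ ν.2 ρ h p hp).2
  have h4 : Res (pout (p : K) (S.ap φ)) (ν * p ^ 3)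
      ((NS p : ℂ) ^ 3 * ((Nr p : ℂ) * ρ / ((Nr p : ℂ) + 1))) := by
    refine reidx hA (hA.2.2.2.2.2.2.2.1 _ (p : K) (hB.1 _ e2)).2 ?_ h3
    filter_upwards [(h2 j φ hφ ν).2.1 p hp0] with k hk c hc
    by_cases hd : c / p ∈ R K
    · rw [gn_pout_pos hd, gn_pout_pos hd, mul_zero]
    rw [gn_pout_neg hd, gn_pout_neg hd]
    by_cases hcR : c ∈ R K
    · lift c to R K using hcR
      rw [NS_coe]
      exact (hk c ((cop_of_prime hp fun h0 => hd ((dvd_iff_div_mem hp0).1 h0)).symm hc)).2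
    · rw [gn_ap_of_notMem S _ hcR, gn_ap_of_notMem S _ hcR, mul_zero]
  have h5 := h1.unique h4
  have h6 := NrC_ne hp0
  have h7 : (Nr p : ℂ) + 1 ≠ 0 := by exact_mod_cast Nat.succ_ne_zero (Nr p)
  have h8 : σ = (NS p : ℂ) ^ 3 * ρ := by
    field_simp at h5
    exact h5
  exact h8 ▸ hσ

theorem fam_mul {j : ℕ} {φ : K → K → ℂ} (hφ : Fam j φ) {u : Kˣ} (hu : u ∈ P K (2 * j + 1))
    (c d : K) : φ c (d * u) = φ c d := by
  have key : ∀ {u : Kˣ}, u ∈ P K (2 * j + 1) → ∀ d, φ c d ≠ 0 → φ c (d * u) = φ c d := by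
    intro u hu d h
    have hQ := QK_ne K
    have h1 := hφ.per c d 0 (d * (u - 1)) (by rw [zero_div]; exact zero_mem _) (by
      rw [show d * (u - 1) / lv K j = lv K j * d * (((u : K) - 1) / (Q K : K) ^ (2 * j + 1 + 1)) by
        rw [lv]; field_simp; ring]
      exact mul_mem (hφ.supp c d h).2.1 hu)
    rwa [add_zero, show d + d * (u - 1) = d * u by ring] at h1
  by_cases h : φ c d = 0
  · by_contra hn
    have h1 := key (inv_mem hu) (d * u) fun h0 => hn (h0.trans h.symm)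
    rw [mul_assoc, Units.mul_inv, mul_one] at h1
    exact hn h1.symm
  · exact key hu d h

theorem Cb_eq {j : ℕ} {φ : K → K → ℂ} (hφ : Fam j φ) {u : Kˣ} (hu : u ∈ P K (2 * j + 1)) :
    Cb (u : K) φ = φ := by
  funext c d
  have h := fam_mul hφ (inv_mem (pow_mem hu 3)) c d
  rwa [Units.val_inv_eq_inv_val, Units.val_pow_eq_pow_val, ← div_eq_mul_inv] at h

/-- multiplication by the cube of an element of `R` which is close to `1` -/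
theorem cube_near (hC : CUBE S) {j : ℕ} {φ : K → K → ℂ} (hφ : Fam j φ) {u : Kˣ}
    (hu : u ∈ P K (2 * j + 1)) (huR : (u : K) ∈ R K) {ν : K} (hν : ν ∈ R K) {ρ : ℂ}
    (h : Res (S.ap φ) ν ρ) : Res (S.ap φ) (ν * (u : K) ^ 3) ρ := by
  have h0 : (⟨u, huR⟩ : R K) ≠ 0 := fun h0 => u.ne_zero (congrArg (fun t : R K => (t : K)) h0)
  have h1 := hC j φ hφ ⟨ν, hν⟩ ⟨u, huR⟩ ρ h0 (by rwa [Cb_eq hφ hu])
  rwa [NS_eq_one h0 (P_le_Su _ hu).1 (P_le_Su _ hu).2, ofReal_one, one_pow, one_mul] at h1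

theorem inv_ap (hB : RESB S) (hR2 : ROW2 S) (hC : CUBE S) {j : ℕ} {φ : K → K → ℂ} (hφ : Fam j φ)
    {l : Kˣ} (hl : l ∈ P K (2 * j + 1)) {ν : K} (hν : ν ∈ R K) (hν' : (l : K) ^ 3 * ν ∈ R K) :
    ∃ ρ, Res (S.ap φ) ν ρ ∧ Res (S.ap φ) ((l : K) ^ 3 * ν) ρ := by
  obtain ⟨ρ, hρ⟩ := hB.2.1 _ (hR2.1 j _ hφ) _ hν
  obtain ⟨σ, hσ⟩ := hB.2.1 _ (hR2.1 j _ hφ) _ hν'
  obtain ⟨m, hm, hml⟩ := exists_coprime_mul_mem_R (l : K)
  have hm0 : (m : K) ≠ 0 := by exact_mod_cast ne_zero_of_coprime hm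
  obtain ⟨w, hw, hy⟩ := exists_R_mem_P (Units.mk0 (m : K) hm0)⁻¹ (2 * j + 1)
  rw [div_inv_eq_mul] at hy
  have h1 := cube_near hC hφ hy (mul_mem hw (natCast_mem _ m)) hν' hσ
  have h2 := cube_near hC hφ (mul_mem hl hy) (by
    rw [show ((l * (w * Units.mk0 (m : K) hm0) : Kˣ) : K) = w * (m * l) by push_cast; simp; ring]
    exact mul_mem hw hml) hν hρ
  rw [Units.val_mul, mul_pow, ← mul_assoc, mul_comm ν] at h2
  exact ⟨ρ, hρ, (h1.unique h2) ▸ hσ⟩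

theorem van_ap (hB : RESB S) (hC : CUBE S) {j : ℕ} {φ : K → K → ℂ} (hφ : Fam j φ)
    {p ν : R K} (i : ℕ) (hp : Prime p) (hν : ¬ p ∣ ν) :
    Res (S.ap φ) ((p : K) ^ (3 * i + 2) * ν) 0 := by
  have h0 := pow_ne_zero i hp.ne_zero
  obtain ⟨j', hj'⟩ := (hφ.Cb (coe_ne_zero h0)).exists
  have h1 := hC j φ hφ (ν * p ^ 2) (p ^ i) 0 h0 (by
    have := hB.2.2.2 j' _ hj' p ν hp hν
    push_cast at this ⊢
    exact this)
  push_cast at h1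
  rwa [mul_zero, show (ν : K) * p ^ 2 * ((p : K) ^ i) ^ 3 = (p : K) ^ (3 * i + 2) * ν by ring] at h1

theorem eT_cube {j₀ n : ℕ} {l : Kˣ} (hl : l ∈ P K (j₀ + n)) {ν t : K} (hν : ν ∈ R K)
    (hν' : (l : K) ^ 3 * ν ∈ R K) (h0 : lv K j₀ * ν ∈ Si K) (ht : t ∈ R K)
    (hn : (Q K : K) ^ n * t ∈ Si K) : eT (-((l : K) ^ 3 * ν * t)) = eT (-(ν * t)) := by
  have hQ := QK_ne K
  have h3 : ((l : K) ^ 3 - 1) / (Q K : K) ^ (j₀ + n + 1) ∈ Si K := by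
    have := pow_mem hl 3
    rw [mem_P] at this
    push_cast at this
    exact this
  have h4 : IsIntegral ℤ (-(((l : K) ^ 3 - 1) * ν * t)) := by
    refine (isIntegral_of_mem ?_ ?_).neg
    · rw [sub_mul, one_mul]
      exact mul_mem (sub_mem hν' hν) ht
    · rw [show ((l : K) ^ 3 - 1) * ν * t = ((l : K) ^ 3 - 1) / (Q K : K) ^ (j₀ + n + 1) *
        (lv K j₀ * ν) * ((Q K : K) ^ n * t) by rw [lv]; field_simp; ring]
      exact mul_mem (mul_mem h3 h0) hn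
  rw [show -((l : K) ^ 3 * ν * t) = -(ν * t) + -(((l : K) ^ 3 - 1) * ν * t) by ring, eT_add,
    eT_of_isIntegral h4, mul_one]

/-- the property which is proved by induction -/
def Pr (a : K → K → ℂ) : Prop :=
  Nice a ∧
    (∀ j₀ : ℕ, ∃ j : ℕ, ∀ l ∈ P K j, ∀ ν ∈ R K, (l : K) ^ 3 * ν ∈ R K → lv K j₀ * ν ∈ Si K →
      ∃ ρ, Res a ν ρ ∧ Res a ((l : K) ^ 3 * ν) ρ) ∧
    ∀ (p ν : R K) (i : ℕ), Prime p → ¬ p ∣ ν → Res a ((p : K) ^ (3 * i + 2) * ν) 0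

theorem pr_gen (hA : RESA K) (hB : RESB S) (hR2 : ROW2 S) (hC : CUBE S) {j : ℕ} {φ : K → K → ℂ}
    (hφ : Fam j φ) {t : K} (ht : t ∈ R K) : Pr (act (S.ap φ) (KU.tr t)) := by
  have e := hR2.1 j _ hφ
  have hN := hB.1 _ e
  have hg : KU.tr t ∈ SLr K := by
    refine ⟨?_, ?_, ?_, ?_⟩
    exacts [one_mem _, ht, zero_mem _, one_mem _]
  refine ⟨hB.1 _ (hR2.2.1 _ e _ hg), fun j₀ => ?_, fun p ν i hp hν => ?_⟩
  · obtain ⟨n, hn⟩ := exists_pow_mul_mem_Si t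
    refine ⟨max (2 * j + 1) (j₀ + n), fun l hl ν hν hν' h0 => ?_⟩
    obtain ⟨ρ, h1, h2⟩ := inv_ap hB hR2 hC hφ (P_mono (le_max_left _ _) hl) hν hν'
    have h3 := hA.2.2.2.1 _ _ t ρ hN hν' h2
    rw [eT_cube (P_mono (le_max_right _ _) hl) hν hν' h0 ht hn] at h3
    exact ⟨_, hA.2.2.2.1 _ _ t ρ hN hν h1, h3⟩
  · have h1 := hA.2.2.2.1 _ _ t 0 hN (mul_mem (pow_mem p.2 _) ν.2) (van_ap hB hC hφ i hp hν)
    rwa [mul_zero] at h1

theorem pr_zero (hA : RESA K) : Pr (0 : K → K → ℂ) :=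
  have h := hA.2.2.2.2.2.2.2.2
  ⟨h.1, fun _ => ⟨0, fun _ _ _ _ _ _ => ⟨0, h.2 _, h.2 _⟩⟩, fun _ _ _ _ _ => h.2 _⟩

theorem pr_add (hA : RESA K) {a b : K → K → ℂ} (ha : Pr a) (hb : Pr b) : Pr (a + b) := by
  refine ⟨hA.2.2.2.2.2.1 a b ha.1 hb.1, fun j₀ => ?_, fun p ν i hp hν => ?_⟩
  · obtain ⟨j, h1⟩ := ha.2.1 j₀
    obtain ⟨j', h2⟩ := hb.2.1 j₀
    refine ⟨max j j', fun l hl ν hν hν' h0 => ?_⟩
    obtain ⟨ρ, a1, a2⟩ := h1 l (P_mono (le_max_left _ _) hl) ν hν hν' h0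
    obtain ⟨σ, b1, b2⟩ := h2 l (P_mono (le_max_right _ _) hl) ν hν hν' h0
    exact ⟨ρ + σ, hA.2.1 a b _ _ _ ha.1 hb.1 a1 b1, hA.2.1 a b _ _ _ ha.1 hb.1 a2 b2⟩
  · have h1 := hA.2.1 a b _ _ _ ha.1 hb.1 (ha.2.2 p ν i hp hν) (hb.2.2 p ν i hp hν)
    rwa [add_zero] at h1

theorem pr_smul (hA : RESA K) (z : ℂ) {a : K → K → ℂ} (ha : Pr a) : Pr (z • a) := by
  refine ⟨hA.2.2.2.2.2.2.1 a z ha.1, fun j₀ => ?_, fun p ν i hp hν => ?_⟩
  · obtain ⟨j, h1⟩ := ha.2.1 j₀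
    refine ⟨j, fun l hl ν hν hν' h0 => ?_⟩
    obtain ⟨ρ, a1, a2⟩ := h1 l hl ν hν hν' h0
    exact ⟨z * ρ, hA.2.2.1 a _ _ z a1, hA.2.2.1 a _ _ z a2⟩
  · have h1 := hA.2.2.1 a _ _ z (ha.2.2 p ν i hp hν)
    rwa [mul_zero] at h1

end Cu

open Cu

theorem cubeRel (S : Sy K) (hA : RESA K) (hB : RESB S) (hR2 : ROW2 S) (h2 : GAU2 S) : CUBE S := by
  intro j φ hφ ν x
  induction x using UniqueFactorizationMonoid.induction_on_prime generalizing ν with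
  | h₁ => exact fun _ h => (h rfl).elim
  | h₂ x hx => exact fun ρ _ h => cube_unit hA hB hR2 h2 hφ ν hx h
  | h₃ a p ha hp ih =>
    intro ρ _ h
    obtain ⟨j', hj'⟩ := (hφ.Cb (coe_ne_zero ha)).exists
    rw [MulMemClass.coe_mul, Cb_mul] at h
    have h1 := cube_prime hA hB hR2 h2 hj' ν hp h
    have h3 := ih (ν * p ^ 3) _ ha (by push_cast; exact h1)
    push_cast at h3
    rwa [NS_mul, MulMemClass.coe_mul, mul_pow, ← mul_assoc, ofReal_mul, mul_pow,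
      mul_comm ((NS p : ℂ) ^ 3), mul_assoc ((NS a : ℂ) ^ 3)]

theorem cusp (S : Sy K) (hA : RESA K) (hB : RESB S) (hR2 : ROW2 S) (hC : CUBE S) : CUSP S := by
  intro a ha
  have h : Pr a := by
    refine Submodule.span_induction (p := fun b _ => Pr b) ?_ (pr_zero hA)
      (fun _ _ _ _ => pr_add hA) (fun z _ _ => pr_smul hA z) (hR2.2.2.2 a ha)
    rintro _ ⟨j, φ, hφ, t, ht, rfl⟩
    exact pr_gen hA hB hR2 hC hφ ht
  refine ⟨fun j₀ => ?_, h.2.2⟩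
  obtain ⟨j, hj⟩ := h.2.1 j₀
  refine ⟨j, fun l hl ν hν hν' h0 ρ hρ => ?_⟩
  obtain ⟨σ, h1, h2⟩ := hj l hl ν hν hν' h0
  exact (h1.unique hρ) ▸ h2

end Vale.Agent.P016Z.TH
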