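import Vale.Agent.P016Z.TH.Defs

/-!
P016, block THETA: the row lemma and the Kubota character.
-/

namespace Vale.Agent.P016Z.TH

open NumberField Filter
open Vale.Agent.P006

set_option linter.unusedSectionVars false

variable {K : Type} [Field K] [NumberField K] [Dat K]

namespace Rw

/-! ### congruences at the primes dividing `Q` -/

/-- `y ≡ 1` modulo `Q²` at the primes dividing `Q` -/
def Cg (y : K) : Prop := (y - 1) / lv K 1 ∈ Si K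

theorem lv_add (i j : ℕ) : lv K (i + j + 1) = lv K i * lv K j := by
  unfold lv
  ring

theorem lv_Si (k : ℕ) : lv K k ∈ Si K := mem_Si_of_isIntegral (isIntegral_lv k)

theorem lv_R (k : ℕ) : lv K k ∈ R K := mem_R_of_isIntegral (isIntegral_lv k)

theorem div_lv_R {x : K} (hx : x ∈ R K) (k : ℕ) : x / lv K k ∈ R K := div_Q_pow_mem_R hx _

theorem div_lv_mono {x : K} {k l : ℕ} (h : x / lv K l ∈ Si K) (hkl : k ≤ l) : x / lv K k ∈ Si K :=
  div_pow_mem_Si_mono h (by omega)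

theorem ev_Si (x : K) : ∀ᶠ k in atTop, lv K k * x ∈ Si K := by
  obtain ⟨k, hk⟩ := exists_pow_mul_mem_Si x
  filter_upwards [eventually_ge_atTop k] with l hl
  exact pow_mul_mem_Si_mono hk (by omega)

theorem ev_int {x : K} (hx : x ∈ R K) : ∀ᶠ k in atTop, IsIntegral ℤ (lv K k * x) :=
  (ev_Si x).mono fun k hk => isIntegral_of_mem (mul_mem (lv_R k) hx) hk

theorem Lat_Si {k : ℕ} {x : K} (h : x ∈ Lat (lv K k)) : x / lv K k ∈ Si K := mem_Si_of_isIntegral h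

theorem Lat_R {k : ℕ} {x : K} (h : x ∈ Lat (lv K k)) : x ∈ R K :=
  mem_R_of_isIntegral (isIntegral_of_mem_Lat h)

theorem Lat_of {k : ℕ} {x : K} (hx : x ∈ R K) (h : x / lv K k ∈ Si K) : x ∈ Lat (lv K k) :=
  isIntegral_of_mem (div_lv_R hx k) h

theorem Lat_mono {k l : ℕ} (hkl : k ≤ l) {x : K} (h : x ∈ Lat (lv K l)) : x ∈ Lat (lv K k) :=
  Lat_of (Lat_R h) (div_lv_mono (Lat_Si h) hkl)

theorem Gam_mono {k l : ℕ} (hkl : k ≤ l) : Gam K l ≤ Gam K k := fun _ h =>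
  ⟨Lat_mono hkl h.1, Lat_mono hkl h.2.1, Lat_mono hkl h.2.2.1, Lat_mono hkl h.2.2.2⟩

theorem Gam_SLR {k : ℕ} {g : SL2 K} (h : g ∈ Gam K k) : g ∈ SLr K := SLO_le_SLr (Gam_le_SLO k h)

theorem Cg.of {k : ℕ} (hk : 1 ≤ k) {y : K} (h : (y - 1) / lv K k ∈ Si K) : Cg y := div_lv_mono h hk

theorem Cg.lat {k : ℕ} (hk : 1 ≤ k) {y : K} (h : y - 1 ∈ Lat (lv K k)) : Cg y := Cg.of hk (Lat_Si h)

theorem inv_Si {k : ℕ} {y : K} (h : (y - 1) / lv K k ∈ Si K) : y⁻¹ ∈ Si K ∧ y ≠ 0 :=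
  inv_mem_Si_of_sub_one (by simpa [lv] using div_lv_mono h (Nat.zero_le k))

theorem Cg.ne {y : K} (h : Cg y) : y ≠ 0 := (inv_Si h).2

theorem Cg.one : Cg (1 : K) := by simp [Cg]

theorem Cg.mul {x y : K} (hx : Cg x) (hy : Cg y) : Cg (x * y) := by
  have : (x * y - 1) / lv K 1 = x * ((y - 1) / lv K 1) + (x - 1) / lv K 1 := by ring
  unfold Cg
  rw [this]
  exact add_mem (mul_mem (mem_Si_of_sub_one hx) hy) hx

theorem Cg.inv {x : K} (hx : Cg x) : Cg x⁻¹ := by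
  have h0 := hx.ne
  have : (x⁻¹ - 1) / lv K 1 = -(x⁻¹ * ((x - 1) / lv K 1)) := by field_simp; ring
  unfold Cg
  rw [this]
  exact neg_mem (mul_mem (inv_Si hx).1 hx)

theorem Cg.div {x y : K} (hx : Cg x) (hy : Cg y) : Cg (x / y) := by
  rw [div_eq_mul_inv]
  exact hx.mul hy.inv

theorem Cg.ne_of_div {x y : K} (h : Cg (x / y)) : x ≠ 0 ∧ y ≠ 0 := div_ne_zero_iff.1 h.ne

/-! ### coprime pairs -/

theorem Cop.symm' {x y : K} (h : Cop x y) (hx : x ≠ 0) : Cop y x := by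
  obtain ⟨h1, h2, -, a, ha, b, hb, e⟩ := h
  exact ⟨h2, h1, hx, b, hb, a, ha, by linear_combination e⟩

theorem cop_of {x y : R K} (h : IsCoprime x y) (hy : (y : K) ≠ 0) : Cop (x : K) y := by
  obtain ⟨a, b, e⟩ := h
  refine ⟨x.2, y.2, hy, a, a.2, b, b.2, ?_⟩
  exact_mod_cast congrArg Subtype.val e

theorem cop_act {c d : K} {g : SL2 K} (hg : g ∈ SLr K) (h : Cop c d)
    (hd : c * g 0 1 + d * g 1 1 ≠ 0) : Cop (c * g 0 0 + d * g 1 0) (c * g 0 1 + d * g 1 1) := by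
  obtain ⟨h1, h2, -, a, ha, b, hb, e⟩ := h
  obtain ⟨g1, g2, g3, g4⟩ := mem_SLr.1 hg
  refine ⟨add_mem (mul_mem h1 g1) (mul_mem h2 g3), add_mem (mul_mem h1 g2) (mul_mem h2 g4), hd,
    a * g 1 1 - b * g 0 1, sub_mem (mul_mem ha g4) (mul_mem hb g2),
    b * g 0 0 - a * g 1 0, sub_mem (mul_mem hb g1) (mul_mem ha g3), ?_⟩
  linear_combination (a * c + b * d) * KU.det_eq g + e

theorem cop_back {c d : K} {g : SL2 K} (hg : g ∈ SLr K)
    (h : Cop (c * g 0 0 + d * g 1 0) (c * g 0 1 + d * g 1 1)) (hd : d ≠ 0) : Cop c d := by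
  have e1 : (c * g 0 0 + d * g 1 0) * g⁻¹ 0 0 + (c * g 0 1 + d * g 1 1) * g⁻¹ 1 0 = c := by
    rw [KU.inv_00, KU.inv_10]
    linear_combination c * KU.det_eq g
  have e2 : (c * g 0 0 + d * g 1 0) * g⁻¹ 0 1 + (c * g 0 1 + d * g 1 1) * g⁻¹ 1 1 = d := by
    rw [KU.inv_01, KU.inv_11]
    linear_combination d * KU.det_eq g
  have := cop_act (inv_mem hg) h (by rwa [e2])
  rwa [e1, e2] at this

theorem cop_row {g : SL2 K} (hg : g ∈ SLr K) (h : g 1 1 ≠ 0) : Cop (g 1 0) (g 1 1) :=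
  ⟨hg.2.2.1, hg.2.2.2, h, -g 0 1, neg_mem hg.2.1, g 0 0, hg.1, by linear_combination KU.det_eq g⟩

theorem cop_col {g : SL2 K} (hg : g ∈ SLr K) (h : g 1 1 ≠ 0) : Cop (g 0 1) (g 1 1) :=
  ⟨hg.2.1, hg.2.2.2, h, -g 1 0, neg_mem hg.2.2.1, g 0 0, hg.1, by linear_combination KU.det_eq g⟩

theorem cop_unit {u y : K} (hu : u ∈ R K) (hu' : u⁻¹ ∈ R K) (h0 : u ≠ 0) (hy : y ∈ R K)
    (hy0 : y ≠ 0) : Cop u y :=
  ⟨hu, hy, hy0, u⁻¹, hu', 0, zero_mem _, by rw [inv_mul_cancel₀ h0, zero_mul, add_zero]⟩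

theorem tr_SLR {t : K} (ht : t ∈ R K) : KU.tr t ∈ SLr K :=
  ⟨one_mem _, ht, zero_mem _, one_mem _⟩

/-! ### symbols -/

variable (S : Sy K)

theorem ne_of_cube {z : ℂ} (h : z ^ 3 = 1) : z ≠ 0 := by
  rintro rfl
  simp at h

theorem norm_of_cube {z : ℂ} (h : z ^ 3 = 1) : ‖z‖ = 1 := by
  have := congrArg norm h
  rw [norm_pow, norm_one] at this
  exact (pow_eq_one_iff_of_nonneg (norm_nonneg z) (by norm_num)).1 this

theorem s_ne {x y : K} (h : Cop x y) : S.s x y ≠ 0 := ne_of_cube (S.s_cube x y h)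

theorem cop_of_ne {x y : K} (h : S.s x y ≠ 0) : Cop x y := by
  by_contra hc
  exact h (S.s_zero x y hc)

theorem norm_s_le (x y : K) : ‖S.s x y‖ ≤ 1 := by
  by_cases h : Cop x y
  · exact (norm_of_cube (S.s_cube x y h)).le
  · simp [S.s_zero x y h]

theorem h_ne {x y : K} (hx : x ≠ 0) (hy : y ≠ 0) : S.h x y ≠ 0 := ne_of_cube (S.h_cube x y hx hy)

theorem s_one {y : K} (hy : y ∈ R K) (h0 : y ≠ 0) : S.s 1 y = 1 := by
  have h := S.s_mul_left 1 1 y (one_mem _) (one_mem _)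
  rw [mul_one] at h
  exact (mul_left_cancel₀ (s_ne S (cop_unit (one_mem _) (by simp [one_mem]) one_ne_zero hy h0))
    (by rw [← h, mul_one])).symm

theorem s_neg_one {y : K} (hy : y ∈ R K) (h0 : y ≠ 0) : S.s (-1) y = 1 := by
  have hm : (-1 : K) ∈ R K := neg_mem (one_mem _)
  have h := S.s_mul_left (-1) (-1) y hm hm
  rw [neg_mul_neg, mul_one, s_one S hy h0] at h
  have h3 := S.s_cube _ _ (cop_unit hm (by simp) (by simp) hy h0)
  linear_combination h3 + S.s (-1) y * h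

theorem s_neg {x y : K} (hx : x ∈ R K) (hy : y ∈ R K) (h0 : y ≠ 0) : S.s (-x) y = S.s x y := by
  rw [← neg_one_mul, S.s_mul_left _ _ _ (neg_mem (one_mem _)) hx, s_neg_one S hy h0, one_mul]

theorem s_unit {x u : K} (hx : x ∈ R K) (hu : u ∈ R K) (hu' : u⁻¹ ∈ R K) (h0 : u ≠ 0) :
    S.s x u = 1 := by
  have h := S.s_add 1 u ((x - 1) * u⁻¹) (mul_mem (sub_mem hx (one_mem _)) hu')
  rw [show 1 + u * ((x - 1) * u⁻¹) = x by field_simp; ring] at h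
  rw [h, s_one S hu h0]

theorem h_swap {x y : K} (hx : x ≠ 0) (hy : y ≠ 0) : S.h x y * S.h y x = 1 := by
  have h := S.h_self (x * y) (mul_ne_zero hx hy)
  rw [S.h_mul_left x y _ hx hy (mul_ne_zero hx hy), S.h_mul_right x x y hx hx hy,
    S.h_mul_right y x y hy hx hy, S.h_self x hx, S.h_self y hy] at h
  linear_combination h

theorem h_one' {x y : K} (hx : x ≠ 0) (hy : Cg y) : S.h y x = 1 := by
  have := h_swap S hx hy.ne
  rwa [S.h_one x y hx hy, one_mul] at this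

theorem h_cg {x y y' : K} (hx : x ≠ 0) (h : Cg (y' / y)) : S.h x y' = S.h x y := by
  have h0 := h.ne_of_div
  have := S.h_mul_right x y (y' / y) hx h0.2 h.ne
  rwa [mul_div_cancel₀ _ h0.2, S.h_one _ _ hx h, mul_one] at this

theorem h_cg' {x y y' : K} (hx : x ≠ 0) (h : Cg (y' / y)) : S.h y' x = S.h y x := by
  have h0 := h.ne_of_div
  have := S.h_mul_left y (y' / y) x h0.2 h.ne hx
  rwa [mul_div_cancel₀ _ h0.2, h_one' S hx h, mul_one] at this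

theorem s_unit_left {u y : K} (hu : u ∈ R K) (hu' : u⁻¹ ∈ R K) (h0 : u ≠ 0) (hy : y ∈ R K)
    (hy0 : y ≠ 0) : S.s u y = S.h u y := by
  rw [S.recip _ _ (cop_unit hu hu' h0 hy hy0) h0, s_unit S hy hu hu' h0, mul_one]

theorem s_tr {c d t : K} (h : Cop c d) (ht : t ∈ R K) (h1 : Cg ((d + c * t) / d)) :
    S.s c (d + c * t) = S.s c d := by
  rcases eq_or_ne c 0 with rfl | hc
  · rw [zero_mul, add_zero]
  have h2 := cop_act (tr_SLR ht) h (by simpa [KU.tr, add_comm] using h1.ne_of_div.1)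
  simp only [KU.tr, KU.mk2_00, KU.mk2_01, KU.mk2_10, KU.mk2_11, mul_one, mul_zero, add_zero] at h2
  rw [add_comm] at h2
  rw [S.recip _ _ h2 hc, S.recip _ _ h hc, S.s_add _ _ _ ht, h_cg S hc h1]

theorem grl0 {g : SL2 K} (hg : g ∈ SLr K) {c d : K} (h : Cop c d) (hβ : g 0 1 ≠ 0)
    (hδ : g 1 1 ≠ 0) (h' : Cop (g 0 1) (c * g 0 1 + d * g 1 1)) :
    S.s (c * g 0 0 + d * g 1 0) (c * g 0 1 + d * g 1 1) * S.h (g 0 1) (c * g 0 1 + d * g 1 1) *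
      S.h (g 1 1) (g 0 1) * S.s (g 0 1) (g 1 1) =
      S.h d (c * g 0 1 + d * g 1 1) * S.h (g 0 1) d * S.s c d := by
  have hd' := h'.2.2.1
  have hc' := cop_act hg h hd'
  obtain ⟨g1, g2, g3, g4⟩ := mem_SLr.1 hg
  have hd := h.2.2.1
  set c' := c * g 0 0 + d * g 1 0 with hc'e
  set d' := c * g 0 1 + d * g 1 1 with hd'e
  have e1 : S.s (g 0 1) d' * S.s c' d' = S.s d d' := by
    rw [← S.s_mul_left _ _ _ g2 hc'.1,
      show g 0 1 * c' = -d + d' * g 0 0 by rw [hc'e, hd'e]; linear_combination (-d) * KU.det_eq g,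
      S.s_add _ _ _ g1, s_neg S h.2.1 hc'.2.1 hd']
  have n1 : Cop d d' := cop_of_ne S (e1 ▸ mul_ne_zero (s_ne S h') (s_ne S hc'))
  have e2 : S.s d' d = S.s c d * S.s (g 0 1) d := by
    rw [hd'e, S.s_add _ _ _ g4, S.s_mul_left _ _ _ h.1 g2]
  have n2 : Cop (g 0 1) d := cop_of_ne S (right_ne_zero_of_mul (e2 ▸ s_ne S (Cop.symm' n1 hd)))
  have e3 : S.s d' (g 0 1) = S.s d (g 0 1) * S.s (g 1 1) (g 0 1) := by
    rw [show d' = d * g 1 1 + g 0 1 * c by rw [hd'e]; ring, S.s_add _ _ _ h.1,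
      S.s_mul_left _ _ _ h.2.1 g4]
  have r1 := S.recip _ _ n1 hd
  have r2 := S.recip _ _ h' hβ
  have r3 := S.recip _ _ n2 hβ
  have r4 := S.recip _ _ (Cop.symm' (cop_col hg hδ) hβ) hδ
  refine mul_left_cancel₀ (s_ne S (Cop.symm' n2 hβ)) ?_
  rw [r2, e3, r4, r1, e2, r3] at e1
  linear_combination e1

/-- the general row lemma -/
theorem grl {g : SL2 K} (hg : g ∈ SLr K) {c d : K} (h : Cop c d) (hβ : g 0 1 ≠ 0)
    (hδ : g 1 1 ≠ 0) (hd' : c * g 0 1 + d * g 1 1 ≠ 0) :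
    S.s (c * g 0 0 + d * g 1 0) (c * g 0 1 + d * g 1 1) * S.h (g 0 1) (c * g 0 1 + d * g 1 1) *
      S.h (g 1 1) (g 0 1) * S.s (g 0 1) (g 1 1) =
      S.h d (c * g 0 1 + d * g 1 1) * S.h (g 0 1) d * S.s c d := by
  have hc' := cop_act hg h hd'
  obtain ⟨g1, g2, g3, g4⟩ := mem_SLr.1 hg
  have hd := h.2.2.1
  have hl := lv_ne (K := K) 1
  have hn : (⟨_, hc'.2.1⟩ : R K) ≠ 0 := fun e => hd' (congrArg Subtype.val e)
  obtain ⟨t₀, ht₀⟩ := KU.exists_isCoprime_add_mul (c := (⟨g 0 1, g2⟩ : R K)) (e := ⟨-g 1 1, neg_mem g4⟩)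
    hn fun p hp _ h1 h2 => hp.not_isUnit (IsCoprime.isUnit_of_dvd' (a := (⟨g 0 1, g2⟩ : R K))
      (b := ⟨-g 1 1, neg_mem g4⟩) ⟨⟨-g 1 0, neg_mem g3⟩, ⟨-g 0 0, neg_mem g1⟩, Subtype.ext (by
        push_cast
        linear_combination KU.det_eq g)⟩ h1 h2)
  obtain ⟨m, m1, m2⟩ := ((ev_Si (c / d / lv K 1)).and (ev_Si (-g 1 1 / g 0 1 / lv K 1))).exists
  obtain ⟨t, ⟨r, hr⟩, ht⟩ := exists_R_near_mod t₀ _ hn 0 (lv_ne m)
  rw [sub_zero] at ht
  have hm := lv_ne (K := K) m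
  have c1 : Cg ((d + c * t) / d) := by
    unfold Cg
    convert mul_mem m1 ht using 1
    field_simp
    ring
  have c2 : Cg ((g 0 1 + g 1 1 * -t) / g 0 1) := by
    unfold Cg
    convert mul_mem m2 ht using 1
    field_simp
    ring
  have hg' : KU.tr (-(t : K)) * g ∈ SLr K := mul_mem (tr_SLR (neg_mem t.2)) hg
  have a0 : (KU.tr (-(t : K)) * g) 0 0 = g 0 0 + g 1 0 * -t := by rw [KU.mul_00]; simp [KU.tr]; ring
  have a1 : (KU.tr (-(t : K)) * g) 0 1 = g 0 1 + g 1 1 * -t := by rw [KU.mul_01]; simp [KU.tr]; ring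
  have a2 : (KU.tr (-(t : K)) * g) 1 0 = g 1 0 := by rw [KU.mul_10]; simp [KU.tr]
  have a3 : (KU.tr (-(t : K)) * g) 1 1 = g 1 1 := by rw [KU.mul_11]; simp [KU.tr]
  have h2 := cop_act (tr_SLR t.2) h (by simpa [KU.tr, add_comm] using c1.ne_of_div.1)
  simp only [KU.tr, KU.mk2_00, KU.mk2_01, KU.mk2_10, KU.mk2_11, mul_one, mul_zero, add_zero] at h2
  rw [add_comm] at h2
  have b0 : c * (g 0 0 + g 1 0 * -t) + (d + c * t) * g 1 0 = c * g 0 0 + d * g 1 0 := by ring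
  have b1 : c * (g 0 1 + g 1 1 * -t) + (d + c * t) * g 1 1 = c * g 0 1 + d * g 1 1 := by ring
  have H := grl0 S hg' h2 (by rw [a1]; exact c2.ne_of_div.1) (by rwa [a3]) (by
    rw [a1, a3, b1]
    have e : t = t₀ + ⟨_, hc'.2.1⟩ * r := by rw [← hr]; ring
    have := cop_of (ht₀.add_mul_left_left (⟨-g 1 1, neg_mem g4⟩ * r)) hd'
    convert this using 1
    rw [e]
    push_cast
    ring)
  rw [a0, a1, a2, a3, b0, b1, h_cg' S hd' c2, h_cg S hδ c2, S.s_add _ _ _ (neg_mem t.2),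
    h_cg' S hd' c1, h_cg' S c1.ne_of_div.1 c2, h_cg S hβ c1, s_tr S h t.2 c1] at H
  exact H

/-- the row lemma -/
theorem rl {g : SL2 K} (hg : g ∈ SLr K) (hδ : Cg (g 1 1)) {c d : K} (h : Cop c d)
    (h1 : Cg ((c * g 0 1 + d * g 1 1) / d)) :
    S.s (c * g 0 0 + d * g 1 0) (c * g 0 1 + d * g 1 1) = S.kub g * S.s c d := by
  obtain ⟨g1, g2, g3, g4⟩ := mem_SLr.1 hg
  have hd := h.2.2.1
  have hdet := KU.det_eq g
  rcases eq_or_ne (g 0 1) 0 with hβ | hβ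
  · have hc' := cop_act hg h h1.ne_of_div.1
    rw [hβ, zero_mul, sub_zero] at hdet
    have e : (g 1 1)⁻¹ = g 0 0 := inv_eq_of_mul_eq_one_left hdet
    have e' : (g 0 0)⁻¹ = g 1 1 := inv_eq_of_mul_eq_one_right hdet
    have hα : Cg (g 0 0) := e ▸ hδ.inv
    rw [Sy.kub, s_unit S g3 g4 (e ▸ g1) hδ.ne, hβ, mul_zero, zero_add,
      S.s_mul_right _ _ _ h.2.1 g4, s_unit S hc'.1 g4 (e ▸ g1) hδ.ne, S.s_add _ _ _ g3,
      S.s_mul_left _ _ _ h.1 g1, s_unit_left S g1 (e' ▸ g4) hα.ne h.2.1 hd, h_one' S hd hα]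
    ring
  have H := grl S hg h hβ hδ.ne h1.ne_of_div.1
  rw [h_cg S hβ h1, h_cg S hd h1, S.h_self d hd, h_one' S hβ hδ] at H
  have e : S.s (g 0 1) (g 1 1) * S.kub g = 1 := by
    rw [Sy.kub, ← S.s_mul_left _ _ _ g2 g3,
      show g 0 1 * g 1 0 = -1 + g 1 1 * g 0 0 by linear_combination -hdet, S.s_add _ _ _ g1,
      s_neg_one S g4 hδ.ne]
  refine mul_left_cancel₀ (h_ne S hβ hd) ?_
  linear_combination S.kub g * H - S.s (c * g 0 0 + d * g 1 0) (c * g 0 1 + d * g 1 1) *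
    S.h (g 0 1) d * e

theorem kub_mul {g g' : SL2 K} (hg : g ∈ Gam K 1) (hg' : g' ∈ Gam K 1) :
    S.kub (g * g') = S.kub g * S.kub g' := by
  have h1 := Cg.lat le_rfl hg.2.2.2
  have h2 := Cg.lat le_rfl (mul_mem hg hg').2.2.2
  rw [KU.mul_11] at h2
  rw [Sy.kub, KU.mul_10, KU.mul_11, rl S (Gam_SLR hg') (Cg.lat le_rfl hg'.2.2.2)
    (cop_row (Gam_SLR hg) h1.ne) (h2.div h1), mul_comm]
  rfl

theorem kub_cube {k : ℕ} {g : SL2 K} (hg : g ∈ Gam K k) : S.kub g ^ 3 = 1 :=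
  S.s_cube _ _ (cop_row (Gam_SLR hg) (inv_Si (Lat_Si hg.2.2.2)).2)

theorem lat_act {k : ℕ} {g : SL2 K} (hg : g ∈ Gam K k) {c d : K}
    (h : c ∈ Lat (lv K k) ∧ d - 1 ∈ Lat (lv K k)) :
    c * g 0 0 + d * g 1 0 ∈ Lat (lv K k) ∧ c * g 0 1 + d * g 1 1 - 1 ∈ Lat (lv K k) := by
  constructor
  · rw [mul_comm c]
    exact add_mem (mul_mem_Lat (isIntegral_of_sub_one hg.1) h.1)
      (mul_mem_Lat (isIntegral_of_sub_one h.2) hg.2.2.1)
  · rw [show c * g 0 1 + d * g 1 1 - 1 = c * g 0 1 + (d * (g 1 1 - 1) + (d - 1)) by ring]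
    exact add_mem (mul_mem_Lat (isIntegral_of_mem_Lat h.1) hg.2.1)
      (add_mem (mul_mem_Lat (isIntegral_of_sub_one h.2) hg.2.2.2) h.2)

theorem back_fst (g : SL2 K) (c d : K) :
    (c * g 0 0 + d * g 1 0) * g⁻¹ 0 0 + (c * g 0 1 + d * g 1 1) * g⁻¹ 1 0 = c := by
  rw [KU.inv_00, KU.inv_10]
  linear_combination c * KU.det_eq g

theorem back_snd (g : SL2 K) (c d : K) :
    (c * g 0 0 + d * g 1 0) * g⁻¹ 0 1 + (c * g 0 1 + d * g 1 1) * g⁻¹ 1 1 = d := by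
  rw [KU.inv_01, KU.inv_11]
  linear_combination d * KU.det_eq g

theorem act_a0 {k : ℕ} (hk : 1 ≤ k) {g : SL2 K} (hg : g ∈ Gam K k) (c d : K) :
    act (S.a0 k) g c d = S.kub g * S.a0 k c d := by
  unfold act Sy.a0
  by_cases h : c ∈ Lat (lv K k) ∧ d - 1 ∈ Lat (lv K k)
  · have h' := lat_act hg h
    rw [if_pos h, if_pos h']
    by_cases hc : Cop c d
    · exact rl S (Gam_SLR hg) (Cg.lat hk hg.2.2.2) hc ((Cg.lat hk h'.2).div (Cg.lat hk h.2))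
    · rw [S.s_zero _ _ hc, S.s_zero _ _ fun hc' => hc (cop_back (Gam_SLR hg) hc' (Cg.lat hk h.2).ne),
        mul_zero]
  · rw [if_neg h, if_neg, mul_zero]
    intro h'
    have := lat_act (inv_mem hg) h'
    rw [back_fst, back_snd] at this
    exact h this

theorem exists_row {k : ℕ} {c d : K} (hc : c ∈ Lat (lv K k)) (hd : d - 1 ∈ Lat (lv K k))
    (h : Cop c d) : ∃ g ∈ Gam K k, g 1 0 = c ∧ g 1 1 = d := by
  obtain ⟨h1, h2, h0, a, ha, b, hb, e⟩ := h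
  obtain ⟨t, ht, ht'⟩ := exists_R_near (a / d) (lv_ne (K := K) k)
  have hl := lv_ne (K := K) k
  have hβ : (-a + d * t) / lv K k ∈ Si K := by
    convert mul_mem (mem_Si_of_sub_one (Lat_Si hd)) ht' using 1
    field_simp
    ring
  refine ⟨KU.mk2 (b + c * t) (-a + d * t) c d (by linear_combination e), ⟨?_, ?_, hc, hd⟩, rfl, rfl⟩
  · refine Lat_of (sub_mem (add_mem hb (mul_mem h1 ht)) (one_mem _)) ?_
    have hcS : c ∈ Si K := mem_Si_of_isIntegral (isIntegral_of_mem_Lat hc)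
    convert mul_mem (inv_Si (Lat_Si hd)).1 (sub_mem (mul_mem hcS hβ) (Lat_Si hd)) using 1
    rw [KU.mk2_00]
    field_simp
    linear_combination e
  · exact Lat_of (add_mem (neg_mem ha) (mul_mem h2 ht)) hβ

theorem a0_ne {k : ℕ} {c d : K} : S.a0 k c d ≠ 0 ↔ ∃ g ∈ Gam K k, g 1 0 = c ∧ g 1 1 = d := by
  unfold Sy.a0
  constructor
  · intro h
    split_ifs at h with h1
    · exact exists_row h1.1 h1.2 (cop_of_ne S h)
    · exact absurd rfl h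
  · rintro ⟨g, hg, rfl, rfl⟩
    rw [if_pos ⟨hg.2.2.1, hg.2.2.2⟩]
    exact ne_of_cube (kub_cube S hg)

theorem bd_SLO {g : SL2 K} (hg : g ∈ SLO K) (j : ℕ) : Bd (lv K j) g := by
  intro a b
  refine (isIntegral_lv j).mul ?_
  fin_cases a <;> fin_cases b
  exacts [hg.1, hg.2.1, hg.2.2.1, hg.2.2.2]

theorem bnd_a0 (k : ℕ) : Bnd (S.a0 k) := by
  refine ⟨⟨1, fun c d => ?_⟩, 0, fun c d h => ?_⟩
  · unfold Sy.a0
    split_ifs
    · exact norm_s_le S c d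
    · simp
  · obtain ⟨g, hg, h1, h2⟩ := (a0_ne S).1 h
    exact ⟨g, bd_SLO (Gam_le_SLO k hg) 0, h1, h2⟩

theorem lat_unit {k : ℕ} {u : Kˣ} (hu : u ∈ Uk K k) {c d : K}
    (h : c ∈ Lat (lv K k) ∧ d - 1 ∈ Lat (lv K k)) :
    (u : K) * c ∈ Lat (lv K k) ∧ (u : K) * d - 1 ∈ Lat (lv K k) := by
  have h1 : (u : K) - 1 ∈ Lat (lv K k) := Lat_of (sub_mem hu.1.1 (one_mem _)) hu.2
  refine ⟨mul_mem_Lat (isIntegral_of_sub_one h1) h.1, ?_⟩
  rw [show (u : K) * d - 1 = u * (d - 1) + (u - 1) by ring]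
  exact add_mem (mul_mem_Lat (isIntegral_of_sub_one h1) h.2) h1

theorem adm_a0 {k : ℕ} (hk : 1 ≤ k) : Adm k (S.a0 k) := by
  refine ⟨bnd_a0 S k, fun u hu c d => ?_⟩
  unfold Sy.a0
  by_cases h : c ∈ Lat (lv K k) ∧ d - 1 ∈ Lat (lv K k)
  · have h' := lat_unit hu h
    have hd := mem_R_of_isIntegral (isIntegral_of_sub_one h.2)
    rw [if_pos h, if_pos h', S.s_mul_left _ _ _ hu.1.1 (Lat_R h.1),
      s_unit_left S hu.1.1 hu.1.2 u.ne_zero (mul_mem hu.1.1 hd) (Cg.lat hk h'.2).ne,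
      S.h_one _ _ u.ne_zero (Cg.lat hk h'.2), S.s_mul_right _ _ _ hu.1.1 hd,
      s_unit S (Lat_R h.1) hu.1.1 hu.1.2 u.ne_zero, one_mul, one_mul]
  · rw [if_neg h, if_neg]
    intro h'
    have := lat_unit (inv_mem hu) h'
    rw [Units.inv_mul_cancel_left, Units.inv_mul_cancel_left] at this
    exact h this

end Rw

open Rw in
theorem row1 (S : Sy K) : ROW1 S :=
  ⟨fun _ hg _ hg' => kub_mul S hg hg', fun _ hg => norm_of_cube (kub_cube S hg),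
    fun _ hk _ hg => act_a0 S hk hg, fun _ _ _ => a0_ne S, fun _ hk => adm_a0 S hk⟩

end Vale.Agent.P016Z.TH
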