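import Vale.Agent.P016Z.TH.RelDefs
import Vale.Agent.P016Z.TH.Row1

/-!
P016, block THETA: the residues on a class.
-/

namespace Vale.Agent.P016Z.TH

open NumberField Filter Complex
open scoped ComplexConjugate

set_option linter.unusedSectionVars false

variable {K : Type} [Field K] [NumberField K] [Dat K]

namespace MR

open Rw

theorem NS_mul (x y : R K) : NS (x * y) = NS x * NS y := by
  rw [NS, NS, NS, Nr_mul, MulMemClass.coe_mul, nm, (cmK K).nm_mul, Nat.cast_mul, mul_div_mul_comm]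

theorem NS_eq_one {x : R K} (hx : x ≠ 0) (h1 : (x : K) ∈ Si K) (h2 : (x : K)⁻¹ ∈ Si K) :
    NS x = 1 := by
  rw [NS, nm, nm_eq_Nr hx h1 h2, div_self (Nat.cast_ne_zero.2 (Nr_ne_zero hx))]

theorem NS_congr {x y : R K} (hx : x ≠ 0) (hy : y ≠ 0) (h1 : (x : K) / y ∈ Si K)
    (h2 : (y : K) / x ∈ Si K) : NS x = NS y := by
  obtain ⟨m, hm, h⟩ := exists_coprime_mul_mem_R ((x : K) / y)
  have hm0 : (m : K) ≠ 0 := by exact_mod_cast ne_zero_of_coprime hm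
  have hx' := coe_ne_zero hx
  have hy' := coe_ne_zero hy
  have h3 : NS (⟨_, h⟩ : R K) = 1 := by
    refine NS_eq_one (fun e => mul_ne_zero hm0 (div_ne_zero hx' hy') (congrArg Subtype.val e))
      (mul_mem (natCast_mem _ _) h1) ?_
    change ((m : K) * ((x : K) / y))⁻¹ ∈ Si K
    rw [mul_inv, inv_div]
    exact mul_mem (inv_mem_Si hm) h2
  have h4 : NS (m : R K) = 1 :=
    NS_eq_one (fun e => hm0 (congrArg Subtype.val e)) (natCast_mem _ _) (inv_mem_Si hm)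
  have h5 : (⟨_, h⟩ : R K) * y = m * x := Subtype.ext (by
    change (m : K) * ((x : K) / y) * y = (m : K) * x
    field_simp)
  have h6 := congrArg NS h5
  rw [NS_mul, NS_mul, h3, h4, one_mul, one_mul] at h6
  exact h6.symm

theorem decomp (ν : R K) : ν ≠ 0 → ∃ μ b : R K, b ≠ 0 ∧ ν = μ * b ^ 3 ∧
    (Squarefree μ ∨ ∃ p ν₁ : R K, Prime p ∧ ¬ p ∣ ν₁ ∧ μ = ν₁ * p ^ 2) := by
  induction ν using (wellFounded_dvdNotUnit (α := R K)).induction with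
  | _ ν ih =>
  intro h0
  by_cases hs : Squarefree ν
  · exact ⟨ν, 1, one_ne_zero, by ring, Or.inl hs⟩
  obtain ⟨x, hx⟩ := not_forall.1 hs
  obtain ⟨hx1, hx2⟩ := Classical.not_imp.1 hx
  have hx0 : x ≠ 0 := fun e => h0 (by simpa [e] using hx1)
  obtain ⟨p, hp, hpx⟩ := WfDvdMonoid.exists_irreducible_factor hx2 hx0
  obtain ⟨ν₁, rfl⟩ := (mul_dvd_mul hpx hpx).trans hx1
  by_cases h1 : p ∣ ν₁
  · obtain ⟨ν₂, rfl⟩ := h1
    have h2 : ν₂ ≠ 0 := fun e => h0 (by rw [e]; ring)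
    obtain ⟨μ, b, hb, rfl, h3⟩ := ih ν₂ ⟨h2, p ^ 3,
      fun e => hp.not_isUnit ((isUnit_pow_iff (by norm_num)).1 e), by ring⟩ h2
    exact ⟨μ, b * p, mul_ne_zero hb hp.ne_zero, by ring, h3⟩
  · exact ⟨ν₁ * p ^ 2, 1, one_ne_zero, by ring, Or.inr ⟨p, ν₁, hp.prime, h1, rfl⟩⟩

theorem fam_zero {j : ℕ} {φ : K → K → ℂ} (hφ : Fam j φ) (c : K) : φ c 0 = 0 := by
  by_contra h
  exact (hφ.supp c 0 h).2.2.1 rfl

variable (S : Sy K)

theorem h_cube_left {x y : K} (hx : x ≠ 0) (hy : y ≠ 0) : S.h (x ^ 3) y = 1 := by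
  rw [← S.h_cube x y hx hy, pow_three, pow_three, S.h_mul_left _ _ _ hx (mul_ne_zero hx hx) hy,
    S.h_mul_left _ _ _ hx hx hy]

theorem h_cube_right {x y : K} (hx : x ≠ 0) (hy : y ≠ 0) : S.h x (y ^ 3) = 1 := by
  rw [← S.h_cube x y hx hy, pow_three, pow_three, S.h_mul_right _ _ _ hx hy (mul_ne_zero hy hy),
    S.h_mul_right _ _ _ hx hy hy]

theorem T_inv {φ : K → K → ℂ} (h0 : ∀ c, φ c 0 = 0) {n : K} (hn : n ≠ 0) :
    S.T n (S.T n⁻¹ φ) = φ := by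
  funext c d
  have hn' := inv_ne_zero hn
  simp only [Sy.T]
  rw [inv_mul_cancel_left₀ hn, ← mul_assoc (n⁻¹ ^ 2), ← mul_pow, inv_mul_cancel₀ hn, one_pow,
    one_mul]
  rcases eq_or_ne d 0 with rfl | hd
  · rw [h0]; ring
  have h1 : ∀ y, y ≠ 0 → S.h n⁻¹ y * S.h n y = 1 := fun y hy => by
    rw [← S.h_mul_left _ _ _ hn' hn hy, inv_mul_cancel₀ hn, h_one' S hy Cg.one]
  have h2 := h1 n hn
  rw [S.h_self n hn, mul_one] at h2
  rw [sq, mul_assoc n, S.h_mul_right _ _ _ hn' hn (mul_ne_zero hn hd), S.h_mul_right _ _ _ hn' hn hd,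
    h2, one_mul, one_mul, mul_assoc, h1 d hd, mul_one]

theorem T_congr {j : ℕ} {φ : K → K → ℂ} (hφ : Fam j φ) {k l : K} (hk : k ≠ 0)
    (hl : (l - 1) / lv K (j + j + 1) ∈ Si K) : S.T (k * l) φ = S.T k φ := by
  have hl1 := inv_Si hl
  have hl2 : l ∈ Si K := mem_Si_of_sub_one hl
  have hj := lv_ne (K := K) j
  have key : ∀ c d, φ (l * c) (l ^ 2 * d) = φ c d := by
    intro c d
    by_cases h : lv K j * c ∈ Si K ∧ lv K j * d ∈ Si K
    · have h1 := hφ.per c d ((l - 1) * c) ((l + 1) * ((l - 1) * d)) (by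
        rw [show (l - 1) * c / lv K j = (l - 1) / lv K (j + j + 1) * (lv K j * c) by
          rw [lv_add]; field_simp]
        exact mul_mem hl h.1) (by
        rw [show (l + 1) * ((l - 1) * d) / lv K j =
            (l + 1) * ((l - 1) / lv K (j + j + 1) * (lv K j * d)) by
          rw [lv_add]; field_simp]
        exact mul_mem (add_mem hl2 (one_mem _)) (mul_mem hl h.2))
      rw [← h1]
      congr 1 <;> ring
    · have h1 : φ c d = 0 := by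
        by_contra e
        exact h ⟨(hφ.supp _ _ e).1, (hφ.supp _ _ e).2.1⟩
      rw [h1]
      by_contra e
      have h2 := hφ.supp _ _ e
      refine h ⟨?_, ?_⟩
      · have := mul_mem hl1.1 h2.1
        rwa [mul_left_comm, inv_mul_cancel_left₀ hl1.2] at this
      · have := mul_mem (pow_mem hl1.1 2) h2.2.1
        rwa [mul_left_comm, ← mul_assoc (l⁻¹ ^ 2), ← mul_pow, inv_mul_cancel₀ hl1.2, one_pow,
          one_mul] at this
  funext c d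
  simp only [Sy.T]
  rw [← key (k * c) (k ^ 2 * d), show l * (k * c) = k * l * c by ring,
    show l ^ 2 * (k ^ 2 * d) = (k * l) ^ 2 * d by ring]
  rcases eq_or_ne d 0 with rfl | hd
  · rw [mul_zero, fam_zero hφ, zero_mul, zero_mul]
  rw [S.h_mul_left _ _ _ hk hl1.2 hd, h_one' S hd (Cg.of (by omega) hl), mul_one]

theorem Cb_T {φ : K → K → ℂ} (h0 : ∀ c, φ c 0 = 0) {n b : K} (hn : n ≠ 0) (hb : b ≠ 0) :
    Cb b (S.T (n * b ^ 3) φ) = S.T n (Zs (b ^ 3) φ) := by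
  funext c d
  have hb3 := pow_ne_zero 3 hb
  simp only [Sy.T, Cb, Zs]
  rw [show (n * b ^ 3) ^ 2 * (d / b ^ 3) = b ^ 3 * (n ^ 2 * d) by field_simp,
    show n * b ^ 3 * c = b ^ 3 * (n * c) by ring]
  rcases eq_or_ne d 0 with rfl | hd
  · rw [mul_zero, mul_zero, h0, zero_mul, zero_mul]
  have hd' := div_ne_zero hd hb3
  have h1 := S.h_mul_right n _ _ hn hd' hb3
  rw [div_mul_cancel₀ _ hb3, h_cube_right S hn hb, mul_one] at h1
  rw [S.h_mul_left _ _ _ hn hb3 hd', h_cube_left S hb hd', mul_one, h1]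

theorem Zs_eq {φ : K → K → ℂ} (h0 : ∀ c, φ c 0 = 0) {b : K} (hb : b ≠ 0) :
    Zs (b ^ 3) φ = Cb b (S.T (b ^ 3) φ) := by
  have h := Cb_T S h0 one_ne_zero hb
  rw [one_mul] at h
  rw [h]
  funext c d
  simp only [Sy.T, Zs, one_pow, one_mul]
  rcases eq_or_ne d 0 with rfl | hd
  · rw [mul_zero, h0, zero_mul]
  rw [h_one' S hd Cg.one, mul_one]

theorem exists_one (hB : RESB S) (hR2 : ROW2 S) (h3 : GAU3 S) (hC : CUBE S) (hS : SQF S)
    (h0 : NZ0 S) : ∃ (j : ℕ) (φ : K → K → ℂ) (ρ : ℂ), Fam j φ ∧ ρ ≠ 0 ∧ Res (S.ap φ) 1 ρ := by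
  obtain ⟨j, φ, ν, ρ, hφ, hν, hρ, hr⟩ := h0
  obtain ⟨μ, b, hb, rfl, h⟩ := decomp ν hν
  obtain ⟨j₁, h1⟩ := (h3.1 j φ hφ b (coe_ne_zero hb)).2
  push_cast at hr
  rcases h with h | ⟨p, ν₁, hp, hp1, rfl⟩
  · have hμ := coe_ne_zero h.ne_zero
    obtain ⟨j₂, h2⟩ := (h3.1 j₁ _ h1 (μ : K)⁻¹ (inv_ne_zero hμ)).1
    obtain ⟨σ, hσ⟩ := hB.2.1 _ (hR2.1 _ _ h2) 1 (one_mem _)
    refine ⟨j₂, _, σ, h2, fun e => hρ ?_, hσ⟩
    have h4 := hS j₂ _ h2 μ σ h hσ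
    rw [T_inv S (fam_zero h1) hμ] at h4
    rw [hr.unique (hC j φ hφ μ b _ hb h4), e, mul_zero, mul_zero]
  · have h4 := hB.2.2.2 j₁ _ h1 p ν₁ hp hp1
    have h5 := hC j φ hφ (ν₁ * p ^ 2) b 0 hb (by push_cast; exact h4)
    push_cast at h5 hr
    exact absurd ((hr.unique h5).trans (mul_zero _)) hρ

end MR

open MR Rw in
theorem mainr (S : Sy K) (hB : RESB S) (hR2 : ROW2 S) (h3 : GAU3 S) (hC : CUBE S) (hS : SQF S)
    (hZ : SCAL S) (h0 : NZ0 S) : MAINR S := by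
  obtain ⟨j, φ, ρ, hφ, hρ, hr⟩ := exists_one S hB hR2 h3 hC hS h0
  refine ⟨j + j + 1, fun k₀ hk₀ => ?_⟩
  obtain ⟨k, hk, hk1⟩ := exists_R_near k₀ (mul_ne_zero hk₀ (lv_ne (j + j + 1)))
  lift k to R K using hk
  have hk2 : ((k : K) / k₀ - 1) / lv K (j + j + 1) ∈ Si K := by
    rwa [div_sub_one hk₀, div_div]
  have hk3 := inv_Si hk2
  have hk4 : (k : K) ≠ 0 := (div_ne_zero_iff.1 hk3.2).1
  have hk5 : k ≠ 0 := fun e => hk4 (by rw [e]; rfl)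
  obtain ⟨j₁, h1⟩ := (h3.1 j φ hφ k₀ hk₀).1
  refine ⟨j₁, _, ((NS k ^ (7 / 3 : ℝ) : ℝ) : ℂ) * ρ, h1,
    mul_ne_zero (ofReal_ne_zero.2 (Real.rpow_pos_of_pos (NS_pos hk5) _).ne') hρ,
    fun n b hn hb hl => ?_⟩
  have hn0 := coe_ne_zero hn.ne_zero
  have hb0 := coe_ne_zero hb
  have hx : (n : K) * (b : K) ^ 3 ≠ 0 := mul_ne_zero hn0 (pow_ne_zero _ hb0)
  have h4 := T_congr S hφ hk₀ hl
  rw [mul_div_cancel₀ _ hk₀] at h4
  obtain ⟨j₂, h5⟩ := (h3.1 j φ hφ _ (pow_ne_zero 3 hb0)).1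
  obtain ⟨j₃, h6⟩ := (h3.1 j₂ _ h5 b hb0).2
  rw [← Zs_eq S (fam_zero hφ) hb0] at h6
  have h7 := hS j₃ _ h6 n _ hn (hZ j φ hφ b ρ hb hr)
  rw [← Cb_T S (fam_zero hφ) hn0 hb0, h4] at h7
  have h8 := hC j₁ _ h1 n b _ hb h7
  have h9 : NS k = NS n * NS b ^ 3 := by
    rw [pow_three, ← NS_mul, ← NS_mul, ← NS_mul, ← pow_three]
    refine NS_congr hk5 (mul_ne_zero hn.ne_zero (pow_ne_zero _ hb)) ?_ ?_
    · have := mul_mem (mem_Si_of_sub_one hk2) (inv_Si hl).1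
      push_cast
      rwa [inv_div, div_mul_div_cancel₀ hk₀] at this
    · have := mul_mem (mem_Si_of_sub_one hl) hk3.1
      push_cast
      rwa [inv_div, div_mul_div_cancel₀ hk₀] at this
  have h10 : NS k ^ (7 / 3 : ℝ) = NS n ^ (7 / 3 : ℝ) * NS b ^ 7 := by
    have := (NS_pos hb).le
    rw [h9, Real.mul_rpow (NS_pos hn.ne_zero).le (by positivity), ← Real.rpow_natCast,
      ← Real.rpow_mul this, ← Real.rpow_natCast]
    norm_num
  rw [h10, ofReal_mul, ofReal_pow]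
  have h11 : ∀ A B D : ℂ, D * (NS b : ℂ) ^ 7 * ρ * A * B =
      (NS b : ℂ) ^ 3 * (A * B * D * ((NS b : ℂ) ^ 4 * ρ)) := fun _ _ _ => by ring
  rw [h11]
  exact h8

end Vale.Agent.P016Z.TH
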