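import Vale.Agent.P016Z.TH.Defs

/-!
P016, block THETA: counting lattice points, rows and group elements; compactness of boxes.
-/

namespace Vale.Agent.P016Z.TH

open NumberField MeasureTheory Filter Topology Complex
open Vale.Agent.P006
open scoped ENNReal ComplexConjugate

set_option linter.unusedSectionVars false

namespace Cnt

theorem floor_mem {N : ℕ} {a : ℝ} (h : |a| ≤ N) : ⌊a⌋ ∈ Finset.Icc (-(N : ℤ)) N := by
  rw [abs_le] at h
  rw [Finset.mem_Icc]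
  constructor
  · rw [Int.le_floor]; push_cast; exact h.1
  · have := (Int.floor_le a).trans h.2
    exact_mod_cast this

theorem sq_lt_of_floor {a b e : ℝ} (he : 0 < e) (h : ⌊a / e⌋ = ⌊b / e⌋) :
    (a - b) * (a - b) < e ^ 2 := by
  have h1 := Int.abs_sub_lt_one_of_floor_eq_floor h
  rw [← sub_div, abs_div, abs_of_pos he, div_lt_one he] at h1
  have := abs_nonneg (a - b)
  calc (a - b) * (a - b) = |a - b| ^ 2 := by rw [sq_abs]; ring
    _ < e ^ 2 := by gcongr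

/-- separated points in a disc -/
theorem pack {α : Type*} (S : Set α) (f : α → ℂ) {T e : ℝ} (he : 0 < e) (hT : 0 ≤ T)
    (h1 : ∀ x ∈ S, normSq (f x) ≤ T)
    (h2 : ∀ x ∈ S, ∀ y ∈ S, x ≠ y → e ≤ normSq (f x - f y)) :
    ∃ s : Finset α, (s.card : ℝ) ≤ 32 * (T / e) + 18 ∧ ∀ x ∈ S, x ∈ s := by
  set ε : ℝ := √e / 2 with hε
  have hε0 : 0 < ε := by positivity
  have hε2 : ε ^ 2 = e / 4 := by rw [hε, div_pow, Real.sq_sqrt he.le]; norm_num
  set N : ℕ := ⌈√T / ε⌉₊ with hN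
  let g : α → ℤ × ℤ := fun x => (⌊(f x).re / ε⌋, ⌊(f x).im / ε⌋)
  let B : Finset (ℤ × ℤ) := Finset.Icc (-(N : ℤ)) N ×ˢ Finset.Icc (-(N : ℤ)) N
  have hb : ∀ a : ℝ, a * a ≤ T → |a / ε| ≤ N := by
    intro a ha
    rw [abs_div, abs_of_pos hε0]
    refine le_trans ?_ (Nat.le_ceil _)
    gcongr
    exact Real.abs_le_sqrt (by rw [sq]; exact ha)
  have hmaps : ∀ x ∈ S, g x ∈ (B : Set (ℤ × ℤ)) := by
    intro x hx
    have := h1 x hx
    rw [normSq_apply] at this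
    refine Finset.mem_coe.2 (Finset.mem_product.2 ⟨floor_mem (hb _ ?_), floor_mem (hb _ ?_)⟩)
    · nlinarith [mul_self_nonneg (f x).im]
    · nlinarith [mul_self_nonneg (f x).re]
  have hinj : Set.InjOn g S := by
    intro x hx y hy hxy
    by_contra hne
    have h3 := h2 x hx y hy hne
    have h4 := sq_lt_of_floor hε0 (congrArg Prod.fst hxy)
    have h5 := sq_lt_of_floor hε0 (congrArg Prod.snd hxy)
    rw [normSq_apply, sub_re, sub_im] at h3
    linarith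
  have hfin : S.Finite := Set.Finite.of_injOn hmaps hinj B.finite_toSet
  refine ⟨hfin.toFinset, ?_, fun x hx => hfin.mem_toFinset.2 hx⟩
  have h6 : hfin.toFinset.card ≤ B.card :=
    Finset.card_le_card_of_injOn g (fun x hx => hmaps x (hfin.mem_toFinset.1 hx))
      (by simpa using hinj)
  have h7 : B.card = (2 * N + 1) ^ 2 := by
    have : ((N : ℤ) + 1 - -(N : ℤ)).toNat = 2 * N + 1 := by omega
    simp only [B, Finset.card_product, Int.card_Icc, this, sq]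
  have h8 : (N : ℝ) ≤ √T / ε + 1 := (Nat.ceil_lt_add_one (by positivity)).le
  have h9 : (√T / ε) ^ 2 = 4 * (T / e) := by
    rw [div_pow, Real.sq_sqrt hT, hε2]; field_simp
  have h10 : (hfin.toFinset.card : ℝ) ≤ (2 * N + 1) ^ 2 := by exact_mod_cast h6.trans h7.le
  refine h10.trans ?_
  calc (2 * (N : ℝ) + 1) ^ 2 ≤ (2 * (√T / ε) + 3) ^ 2 :=
        pow_le_pow_left₀ (by positivity) (by linarith) 2
    _ ≤ 8 * (√T / ε) ^ 2 + 18 := by nlinarith [sq_nonneg (2 * (√T / ε) - 3)]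
    _ = _ := by rw [h9]; ring

/-- counting along the fibres of a map -/
theorem fib {α β : Type*} (S : Set α) (p : α → β) (s : Finset β) (hs : ∀ x ∈ S, p x ∈ s) (B : ℝ)
    (h : ∀ b, ∃ t : Finset α, (t.card : ℝ) ≤ B ∧ ∀ x ∈ S, p x = b → x ∈ t) :
    ∃ t : Finset α, (t.card : ℝ) ≤ s.card * B ∧ ∀ x ∈ S, x ∈ t := by
  classical
  choose t ht using h
  refine ⟨s.biUnion t, ?_, fun x hx =>
    Finset.mem_biUnion.2 ⟨p x, hs x hx, (ht _).2 x hx rfl⟩⟩
  calc ((s.biUnion t).card : ℝ) ≤ ∑ b ∈ s, ((t b).card : ℝ) := by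
        exact_mod_cast Finset.card_biUnion_le
    _ ≤ ∑ _b ∈ s, B := Finset.sum_le_sum fun b _ => (ht b).1
    _ = _ := by rw [Finset.sum_const, nsmul_eq_mul]

theorem normSq_sub_le {a b : ℂ} {T : ℝ} (ha : normSq a ≤ T) (hb : normSq b ≤ T) :
    normSq (a - b) ≤ 4 * T := by
  rw [normSq_apply] at *
  rw [sub_re, sub_im]
  nlinarith [mul_self_nonneg (a.re + b.re), mul_self_nonneg (a.im + b.im)]

theorem osum_le_card {G X : Type*} [Group G] [MulAction G X] (B : Subgroup G) (U : Set X) (w : X)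
    (t : Finset G) (h : ∀ g ∈ B, g • w ∈ U → g ∈ t) :
    H9.osum B (U.indicator 1) w ≤ t.card := by
  calc H9.osum B (U.indicator 1) w
      ≤ ∑' g : B, (t : Set G).indicator (fun _ => (1 : ℝ≥0∞)) (g : G) := by
        refine ENNReal.tsum_le_tsum fun g => ?_
        by_cases hg : (g : G) • w ∈ U
        · rw [Set.indicator_of_mem hg, Set.indicator_of_mem (Finset.mem_coe.2 (h g g.2 hg))]
          exact le_rfl
        · rw [Set.indicator_of_notMem hg]; exact bot_le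
    _ ≤ ∑' g : G, (t : Set G).indicator (fun _ => (1 : ℝ≥0∞)) g :=
        ENNReal.tsum_comp_le_tsum_of_injective Subtype.val_injective _
    _ = t.card := by rw [← sum_eq_tsum_indicator]; simp

variable {K : Type} [Field K] [NumberField K] [Dat K]

theorem one_le_nm_mul {D x : K} (hD : D ≠ 0) (hx : x ≠ 0) (h : IsIntegral ℤ (D * x)) :
    1 ≤ nm D * nm x := by
  rw [← (cmK K).nm_mul]
  have h0 : (⟨D * x, h⟩ : 𝓞 K) ≠ 0 := fun e => mul_ne_zero hD hx (congrArg Subtype.val e)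
  exact (cmK K).one_le_nm h0

theorem cnt1' {D : K} (hD : D ≠ 0) :
    ∃ C : ℝ, 0 ≤ C ∧ ∀ (z : io K → ℂ) (T : io K → ℝ), (∀ j, 0 ≤ T j) →
    ∃ s : Finset K, (s.card : ℝ) ≤ C * (1 + ∏ j, T j) ∧
      ∀ x : K, IsIntegral ℤ (D * x) → (∀ j, normSq ((cmK K).sig j x - z j) ≤ T j) → x ∈ s := by
  have hn : 0 < nm D := (cmK K).nm_pos hD
  refine ⟨32 * (nm D * 4 ^ Fintype.card (io K)) + 18, by positivity, fun z T hT => ?_⟩
  obtain ⟨j₀⟩ : Nonempty (io K) := inferInstance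
  set S : Set K :=
    {x | IsIntegral ℤ (D * x) ∧ ∀ j, normSq ((cmK K).sig j x - z j) ≤ T j} with hS
  set P : ℝ := ∏ j ∈ Finset.univ.erase j₀, 4 * T j with hP
  have hP0 : 0 ≤ P := Finset.prod_nonneg fun j _ => by have := hT j; positivity
  have hT0 : 0 ≤ ∏ j, T j := Finset.prod_nonneg fun j _ => hT j
  have key : ∀ x ∈ S, ∀ y ∈ S, x ≠ y →
      1 ≤ nm D * P * normSq (((cmK K).sig j₀ x - z j₀) - ((cmK K).sig j₀ y - z j₀)) := by
    intro x hx y hy hxy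
    have h1 : IsIntegral ℤ (D * (x - y)) := by rw [mul_sub]; exact hx.1.sub hy.1
    have h2 := one_le_nm_mul hD (sub_ne_zero.2 hxy) h1
    have e : ∀ j, (cmK K).sig j (x - y) =
        ((cmK K).sig j x - z j) - ((cmK K).sig j y - z j) := by
      intro j; rw [map_sub]; ring
    refine h2.trans ?_
    rw [mul_assoc]
    gcongr
    show ∏ j, normSq ((cmK K).sig j (x - y)) ≤ _
    rw [← Finset.prod_erase_mul _ _ (Finset.mem_univ j₀), e j₀]
    refine mul_le_mul_of_nonneg_right ?_ (normSq_nonneg _)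
    refine Finset.prod_le_prod (fun j _ => normSq_nonneg _) fun j _ => ?_
    rw [e j]; exact normSq_sub_le (hx.2 j) (hy.2 j)
  have hPT : 4 * T j₀ * P = 4 ^ Fintype.card (io K) * ∏ j, T j := by
    rw [hP, Finset.mul_prod_erase _ (fun j => 4 * T j) (Finset.mem_univ j₀),
      Finset.prod_mul_distrib, Finset.prod_const, Finset.card_univ]
  have hC : 0 ≤ nm D * 4 ^ Fintype.card (io K) := by positivity
  rcases hP0.eq_or_lt with h0 | h0
  · have hsub : S.Subsingleton := by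
      intro x hx y hy
      by_contra hne
      have := key x hx y hy hne
      rw [← h0] at this
      norm_num at this
    refine ⟨hsub.finite.toFinset, ?_, fun x h1 h2 => hsub.finite.mem_toFinset.2 ⟨h1, h2⟩⟩
    have h1 : hsub.finite.toFinset.card ≤ 1 :=
      Finset.card_le_one.2 fun a ha b hb =>
        hsub (hsub.finite.mem_toFinset.1 ha) (hsub.finite.mem_toFinset.1 hb)
    have h2 : (hsub.finite.toFinset.card : ℝ) ≤ 1 := by exact_mod_cast h1
    nlinarith [mul_nonneg hC hT0]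
  · have he : 0 < (nm D * P)⁻¹ := by positivity
    obtain ⟨s, hs1, hs2⟩ := pack S (fun x => (cmK K).sig j₀ x - z j₀) he (hT j₀)
      (fun x hx => hx.2 j₀) (fun x hx y hy hxy => by
        rw [inv_le_iff_one_le_mul₀' (by positivity)]
        exact key x hx y hy hxy)
    refine ⟨s, hs1.trans ?_, fun x h1 h2 => hs2 x ⟨h1, h2⟩⟩
    have e : T j₀ / (nm D * P)⁻¹ = nm D * 4 ^ Fintype.card (io K) * (∏ j, T j) / 4 := by
      rw [div_inv_eq_mul, mul_assoc, ← hPT]; ring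
    rw [e]
    nlinarith [mul_nonneg hC hT0]

theorem Qv_def (w : HK K) (c d : K) (j : io K) : (cmK K).Qv w c d j =
    (normSq ((cmK K).sig j c * HS.z w j + (cmK K).sig j d) +
      normSq ((cmK K).sig j c) * HS.v w j ^ 2) / HS.v w j := rfl

theorem cnt2' {D : K} (hD : D ≠ 0) :
    ∃ C : ℝ, 0 ≤ C ∧ ∀ (w : HK K) (T : io K → ℝ), (∀ j, 0 ≤ T j) →
    ∃ s : Finset (K × K),
      (s.card : ℝ) ≤ C * (1 + ∏ j, T j / HS.v w j) * (1 + ∏ j, T j * HS.v w j) ∧
      ∀ x : K × K, IsIntegral ℤ (D * x.1) → IsIntegral ℤ (D * x.2) →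
        (∀ j, (cmK K).Qv w x.1 x.2 j ≤ T j) → x ∈ s := by
  obtain ⟨C, hC, h⟩ := cnt1' hD
  refine ⟨C * C, by positivity, fun w T hT => ?_⟩
  have hv := HS.v_pos w
  have hT1 : ∀ j, 0 ≤ T j / HS.v w j := fun j => div_nonneg (hT j) (hv j).le
  have hT2 : ∀ j, 0 ≤ T j * HS.v w j := fun j => mul_nonneg (hT j) (hv j).le
  obtain ⟨s₁, hs₁, hm₁⟩ := h 0 _ hT1
  obtain ⟨t, ht1, ht2⟩ := fib {x : K × K | IsIntegral ℤ (D * x.1) ∧ IsIntegral ℤ (D * x.2) ∧
      ∀ j, (cmK K).Qv w x.1 x.2 j ≤ T j} Prod.fst s₁ (fun x hx => hm₁ x.1 hx.1 fun j => by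
        have h1 := hx.2.2 j
        rw [Qv_def, div_le_iff₀ (hv j)] at h1
        rw [Pi.zero_apply, sub_zero, le_div_iff₀ (hv j)]
        have h2 := normSq_nonneg ((cmK K).sig j x.1 * HS.z w j + (cmK K).sig j x.2)
        refine le_of_mul_le_mul_right ?_ (hv j)
        nlinarith)
    (C * (1 + ∏ j, T j * HS.v w j)) (fun c => by
      obtain ⟨s₂, hs₂, hm₂⟩ := h (fun j => -((cmK K).sig j c * HS.z w j)) _ hT2
      refine ⟨s₂.map ⟨Prod.mk c, Prod.mk_right_injective c⟩, by rwa [Finset.card_map], ?_⟩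
      rintro ⟨c', d⟩ hx rfl
      refine Finset.mem_map.2 ⟨d, hm₂ d hx.2.1 fun j => ?_, rfl⟩
      have h1 := hx.2.2 j
      rw [Qv_def, div_le_iff₀ (hv j)] at h1
      rw [sub_neg_eq_add, add_comm]
      have h2 := mul_nonneg (normSq_nonneg ((cmK K).sig j c')) (sq_nonneg (HS.v w j))
      linarith)
  refine ⟨t, ht1.trans ?_, fun x h1 h2 h3 => ht2 x ⟨h1, h2, h3⟩⟩
  have h2 : 0 ≤ ∏ j, T j * HS.v w j := Finset.prod_nonneg fun j _ => hT2 j
  calc (s₁.card : ℝ) * (C * (1 + ∏ j, T j * HS.v w j))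
      ≤ C * (1 + ∏ j, T j / HS.v w j) * (C * (1 + ∏ j, T j * HS.v w j)) := by gcongr
    _ = _ := by ring

theorem isClosed_Box (r : ℝ) (A B : io K → ℝ) : IsClosed (Box r A B : Set (HK K)) := by
  have h1 : (Box r A B : Set (HK K)) =
      HS.z ⁻¹' Metric.closedBall 0 r ∩ HS.v ⁻¹' Set.Icc A B := by
    ext w
    simp only [Box, Set.mem_ofPred_eq, Set.mem_inter_iff, Set.mem_preimage, mem_closedBall_zero_iff,
      Set.mem_Icc, Pi.le_def, forall_and]
  rw [h1]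
  exact (Metric.isClosed_closedBall.preimage HS.continuous_z).inter
    (isClosed_Icc.preimage HS.continuous_v)

end Cnt

open Cnt

variable {K : Type} [Field K] [NumberField K] [Dat K]

theorem cnt1 : CNT1 K := fun _ hD =>
  let ⟨C, _, h⟩ := cnt1' hD
  ⟨C, h⟩

theorem cnt2 : CNT2 K := fun _ hD =>
  let ⟨C, _, h⟩ := cnt2' hD
  ⟨C, h⟩

theorem cnt3 : CNT3 K := by
  intro D hD r
  classical
  obtain ⟨C₁, hC₁, h₁⟩ := cnt2' hD
  obtain ⟨C₂, -, h₂⟩ := cnt1' (mul_ne_zero hD hD)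
  obtain ⟨s₀, -, hm₀⟩ := h₂ 0 (fun _ => (2 * r) ^ 2) fun _ => sq_nonneg _
  refine ⟨C₁ * s₀.card, fun B hB A₁ A₂ hA₁ hA w => ?_⟩
  by_cases hex : ∃ g ∈ B, g • w ∈ Box r A₁ A₂
  swap
  · refine (osum_le_card B _ w ∅ fun g hg hw => absurd ⟨g, hg, hw⟩ hex).trans ?_
    simp
  obtain ⟨g₀, hg₀, hw₀⟩ := hex
  rw [← H9.osum_inv B _ g₀ hg₀ w]
  generalize g₀ • w = w₀ at hw₀
  have hv := HS.v_pos w₀
  obtain ⟨s₁, hs₁, hm₁⟩ := h₁ w₀ (fun j => (A₁ j)⁻¹) fun j => (inv_pos.2 (hA₁ j)).le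
  obtain ⟨t, ht1, ht2⟩ := fib {g : SL2 K | g ∈ B ∧ g • w₀ ∈ Box r A₁ A₂}
    (fun g => (g 1 0, g 1 1)) s₁ (fun g hg => hm₁ _ (hB g hg.1 1 0) (hB g hg.1 1 1) fun j => by
      have h1 := (hg.2.2 j).1
      have h2 := HS.v_pos (g • w₀) j
      rw [(cmK K).v_smul] at h1 h2
      exact (le_inv_comm₀ (hA₁ j) (inv_pos.1 h2)).1 h1)
    s₀.card (fun b => by
      by_cases hb : ∃ h : SL2 K, (h ∈ B ∧ h • w₀ ∈ Box r A₁ A₂) ∧ (h 1 0, h 1 1) = b
      swap
      · exact ⟨∅, by simp, fun g hg e => absurd ⟨g, hg, e⟩ hb⟩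
      obtain ⟨h, hh, rfl⟩ := hb
      refine ⟨s₀.image fun x => KU.tr x * h, by exact_mod_cast Finset.card_image_le, ?_⟩
      intro g hg e
      have e1 := KU.eq_tr_mul_of_row (congrArg Prod.fst e) (congrArg Prod.snd e)
      refine Finset.mem_image.2 ⟨_, hm₀ _ ?_ fun j => ?_, e1.symm⟩
      · rw [show D * D * (h 0 0 * g 0 1 - h 0 1 * g 0 0) =
          D * h 0 0 * (D * g 0 1) - D * h 0 1 * (D * g 0 0) by ring]
        exact ((hB h hh.1 0 0).mul (hB g hg.1 0 1)).sub ((hB h hh.1 0 1).mul (hB g hg.1 0 0))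
      · have e2 : HS.z (g • w₀) = HS.z (h • w₀) + (cmK K).em (h 0 0 * g 0 1 - h 0 1 * g 0 0) := by
          rw [← (cmK K).tr_smul_z, ← mul_smul, ← e1]
        have e3 : ‖(cmK K).em (h 0 0 * g 0 1 - h 0 1 * g 0 0)‖ ≤ 2 * r := by
          rw [← sub_eq_iff_eq_add'] at e2
          rw [← e2]
          have := norm_sub_le (HS.z (g • w₀)) (HS.z (h • w₀))
          linarith [hg.2.1, hh.2.1]
        rw [Pi.zero_apply, sub_zero, normSq_eq_norm_sq]
        have e4 := (norm_le_pi_norm ((cmK K).em (h 0 0 * g 0 1 - h 0 1 * g 0 0)) j).trans e3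
        rw [CM.em_apply] at e4
        gcongr)
  refine (osum_le_card B _ w₀ t fun g hg hw => ht2 g ⟨hg, hw⟩).trans ?_
  rw [← ENNReal.ofReal_natCast]
  refine ENNReal.ofReal_le_ofReal (ht1.trans ?_)
  have p1 : ∏ j, (A₁ j)⁻¹ / HS.v w₀ j ≤ ∏ j, (A₁ j ^ 2)⁻¹ := by
    refine Finset.prod_le_prod (fun j _ => ?_) fun j _ => ?_
    · exact div_nonneg (inv_pos.2 (hA₁ j)).le (hv j).le
    · have := hA₁ j
      rw [sq, mul_inv, ← div_eq_mul_inv]
      gcongr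
      exact (hw₀.2 j).1
  have p2 : ∏ j, (A₁ j)⁻¹ * HS.v w₀ j ≤ ∏ j, A₂ j / A₁ j := by
    refine Finset.prod_le_prod (fun j _ => ?_) fun j _ => ?_
    · exact mul_nonneg (inv_pos.2 (hA₁ j)).le (hv j).le
    · have := hA₁ j
      rw [← div_eq_inv_mul]
      gcongr
      exact (hw₀.2 j).2
  have p3 : 0 ≤ ∏ j, (A₁ j ^ 2)⁻¹ := Finset.prod_nonneg fun j _ => by positivity
  have p4 : 0 ≤ ∏ j, (A₁ j)⁻¹ * HS.v w₀ j :=
    Finset.prod_nonneg fun j _ => mul_nonneg (inv_pos.2 (hA₁ j)).le (hv j).le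
  calc (s₁.card : ℝ) * s₀.card
      ≤ C₁ * (1 + ∏ j, (A₁ j ^ 2)⁻¹) * (1 + ∏ j, A₂ j / A₁ j) * s₀.card := by
        gcongr
        refine hs₁.trans ?_
        gcongr
    _ = _ := by ring

theorem exists_box (A : Set (HK K)) (hA : IsCompact A) : ∃ r δ : ℝ, 0 < δ ∧ δ ≤ 1 ∧
    A ⊆ Box r (fun _ => δ) (fun _ => δ⁻¹) := by
  obtain ⟨r, hr⟩ := hA.exists_bound_of_continuousOn HS.continuous_z.continuousOn
  obtain ⟨M₁, h₁⟩ := hA.exists_bound_of_continuousOn HS.continuous_v.continuousOn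
  have hc : Continuous fun (w : HK K) (j : io K) => (HS.v w j)⁻¹ :=
    continuous_pi fun j => ((continuous_apply j).comp HS.continuous_v).inv₀
      fun w => (HS.v_pos w j).ne'
  obtain ⟨M₂, h₂⟩ := hA.exists_bound_of_continuousOn hc.continuousOn
  have hM : (1 : ℝ) ≤ max (max M₁ M₂) 1 := le_max_right _ _
  have hM0 : (0 : ℝ) < max (max M₁ M₂) 1 := one_pos.trans_le hM
  refine ⟨r, (max (max M₁ M₂) 1)⁻¹, inv_pos.2 hM0, inv_le_one_of_one_le₀ hM,
    fun w hw => ⟨hr w hw, fun j => ⟨?_, ?_⟩⟩⟩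
  · have h3 := (norm_le_pi_norm (fun j : io K => (HS.v w j)⁻¹) j).trans (h₂ w hw)
    rw [inv_le_comm₀ hM0 (HS.v_pos w j)]
    exact ((le_abs_self _).trans h3).trans ((le_max_right _ _).trans (le_max_left _ _))
  · have h3 := (norm_le_pi_norm (HS.v w) j).trans (h₁ w hw)
    show _ ≤ (_ : ℝ)⁻¹⁻¹
    rw [inv_inv]
    exact ((le_abs_self _).trans h3).trans ((le_max_left _ _).trans (le_max_left _ _))

theorem isCompact_Box (r : ℝ) (A₁ A₂ : io K → ℝ) (h : ∀ j, 0 < A₁ j) :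
    IsCompact (Box r A₁ A₂ : Set (HK K)) := by
  have h1 : ∀ j, IsCompact ((fun w : H9.H3 => w.1) ⁻¹'
      (Metric.closedBall (0 : ℂ) r ×ˢ Set.Icc (A₁ j) (A₂ j))) := fun j =>
    IsInducing.subtypeVal.isCompact_preimage'
      ((isCompact_closedBall _ _).prod isCompact_Icc)
      (fun p hp => ⟨⟨p, (h j).trans_le hp.2.1⟩, rfl⟩)
  refine (isCompact_univ_pi h1).of_isClosed_subset (isClosed_Box r A₁ A₂) ?_
  intro w hw j _
  exact ⟨mem_closedBall_zero_iff.2 ((norm_le_pi_norm (HS.z w) j).trans hw.1), hw.2 j⟩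

theorem exists_base : ∃ W : HK K → ℝ≥0∞, H9.IsBase (SLO K) W := by
  let U : ℕ → Set (HK K) := fun n => Box n (fun _ => ((n : ℝ) + 1)⁻¹) (fun _ => (n : ℝ) + 1)
  have hM : ∀ n, ∃ M : ℝ≥0∞, M ≠ ∞ ∧ ∀ w, H9.osum (SLO K) ((U n).indicator 1) w ≤ M := by
    intro n
    obtain ⟨C, hC⟩ := cnt3 (K := K) 1 one_ne_zero n
    refine ⟨_, ENNReal.ofReal_ne_top, hC (SLO K) (fun g hg i j => ?_) _ _
      (fun _ => by positivity) fun _ => ?_⟩
    · rw [one_mul]
      obtain ⟨h1, h2, h3, h4⟩ := mem_SLO.1 hg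
      fin_cases i <;> fin_cases j <;> assumption
    · have h1 : (1 : ℝ) ≤ n + 1 := by simp
      exact (inv_le_one_of_one_le₀ h1).trans h1
  choose M hM1 hM2 using hM
  let c : ℕ → ℝ≥0∞ := fun n => 2⁻¹ ^ n * (M n + 1)⁻¹
  refine ⟨fun w => ∑' n, c n * (U n).indicator 1 w, ?_, fun w h0 => ?_, fun w => ?_⟩
  · exact Measurable.ennreal_tsum fun n =>
      (measurable_one.indicator (isClosed_Box _ _ _).measurableSet).const_mul _
  · obtain ⟨r, δ, hδ, -, hw⟩ := exists_box {w} isCompact_singleton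
    have hw := hw rfl
    obtain ⟨n, hn⟩ := exists_nat_ge (max r δ⁻¹)
    have h1 : δ⁻¹ ≤ (n : ℝ) + 1 := by linarith [le_max_right r δ⁻¹]
    have h2 : w ∈ U n := ⟨hw.1.trans ((le_max_left _ _).trans hn), fun j =>
      ⟨((inv_le_comm₀ (by positivity) hδ).2 h1).trans (hw.2 j).1, (hw.2 j).2.trans h1⟩⟩
    have h3 := ENNReal.tsum_eq_zero.1 h0 n
    rw [Set.indicator_of_mem h2, Pi.one_apply, mul_one] at h3
    refine mul_ne_zero (pow_ne_zero _ (by simp)) ?_ h3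
    exact ENNReal.inv_ne_zero.2 (ENNReal.add_ne_top.2 ⟨hM1 n, ENNReal.one_ne_top⟩)
  · rw [ENNReal.tsum_comm]
    refine ne_top_of_le_ne_top ?_ (ENNReal.tsum_le_tsum (g := fun n => 2⁻¹ ^ n) fun n => ?_)
    · rw [ENNReal.tsum_geometric_two]; simp
    · rw [ENNReal.tsum_mul_left]
      calc c n * ∑' g : SLO K, (U n).indicator 1 (g • w) ≤ c n * (M n + 1) :=
            mul_le_mul_right ((hM2 n w).trans le_self_add) _
        _ = 2⁻¹ ^ n := by
            rw [mul_assoc, ENNReal.inv_mul_cancel (by simp)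
              (ENNReal.add_ne_top.2 ⟨hM1 n, ENNReal.one_ne_top⟩), mul_one]

theorem cnt4 : CNT4 K := ⟨exists_box, isCompact_Box, exists_base⟩

end Vale.Agent.P016Z.TH
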