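import Vale.Agent.P016Z.TH.Defs
import Mathlib.LinearAlgebra.Countable

/-!
P016, block THETA: abstract and geometric lemmas for the Gram computation.
-/

namespace Vale.Agent.P016Z.TH

open NumberField MeasureTheory Filter Topology Complex
open Vale.Agent.P006
open scoped ENNReal ComplexConjugate

set_option linter.unusedSectionVars false

section hilb

variable {Ω : Type*} [MeasurableSpace Ω] {ν : Measure Ω}

theorem enorm_sq_eq (z : ℂ) : ‖z‖ₑ ^ 2 = ENNReal.ofReal ((z * conj z).re) := by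
  rw [Complex.mul_conj, ofReal_re, normSq_eq_norm_sq, ENNReal.ofReal_pow (norm_nonneg _),
    ofReal_norm]

theorem lint_sq_eq {f : Ω → ℂ} (h : Integrable (fun w => f w * conj (f w)) ν) :
    ∫⁻ w, ‖f w‖ₑ ^ 2 ∂ν = ENNReal.ofReal (∫ w, f w * conj (f w) ∂ν).re := by
  simp only [enorm_sq_eq]
  have h1 : Integrable (fun w => (f w * conj (f w)).re) ν := h.re
  rw [← ofReal_integral_eq_lintegral_ofReal h1 (Eventually.of_forall fun w => by
    simp only [Pi.zero_apply]
    rw [Complex.mul_conj, ofReal_re]; exact normSq_nonneg _)]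
  congr 1
  exact integral_re h

theorem integrable_conj {f g : Ω → ℂ} (h : Integrable (fun w => f w * conj (g w)) ν) :
    Integrable (fun w => g w * conj (f w)) ν := by
  have := (Complex.conjCLE : ℂ →L[ℝ] ℂ).integrable_comp h
  refine this.congr (Eventually.of_forall fun w => ?_)
  simp [mul_comm]

theorem integral_conj_swap (f g : Ω → ℂ) :
    ∫ w, g w * conj (f w) ∂ν = conj (∫ w, f w * conj (g w) ∂ν) := by
  rw [← integral_conj]
  refine integral_congr_ae (Eventually.of_forall fun w => ?_)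
  simp [mul_comm]

/-- expansion of the squared norm of `f - c g` for real `c` -/
theorem lint_sub_eq {f g : Ω → ℂ} (c : ℝ) (hff : Integrable (fun w => f w * conj (f w)) ν)
    (hfg : Integrable (fun w => f w * conj (g w)) ν)
    (hgg : Integrable (fun w => g w * conj (g w)) ν) :
    ∫⁻ w, ‖f w - c * g w‖ₑ ^ 2 ∂ν = ENNReal.ofReal ((∫ w, f w * conj (f w) ∂ν).re -
      2 * c * (∫ w, f w * conj (g w) ∂ν).re + c ^ 2 * (∫ w, g w * conj (g w) ∂ν).re) := by
  have hgf := integrable_conj hfg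
  have e : ∀ w, (f w - c * g w) * conj (f w - c * g w) = f w * conj (f w) -
      c * (f w * conj (g w)) - c * (g w * conj (f w)) + (c : ℂ) ^ 2 * (g w * conj (g w)) := by
    intro w
    simp only [map_sub, map_mul, conj_ofReal]; ring
  have h1 := hff.sub (hfg.const_mul (c : ℂ))
  have h2 := h1.sub (hgf.const_mul (c : ℂ))
  have h3 := h2.add (hgg.const_mul ((c : ℂ) ^ 2))
  rw [lint_sq_eq (f := fun w => f w - c * g w) (h3.congr (Eventually.of_forall fun w =>
    (e w).symm))]
  congr 1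
  simp only [e]
  have i3 := integral_add h2 (hgg.const_mul ((c : ℂ) ^ 2))
  have i2 := integral_sub h1 (hgf.const_mul (c : ℂ))
  have i1 := integral_sub hff (hfg.const_mul (c : ℂ))
  simp only [Pi.sub_apply] at i1 i2 i3
  rw [i3, i2, i1, integral_const_mul, integral_const_mul, integral_const_mul,
    integral_conj_swap f g]
  simp only [add_re, sub_re, re_ofReal_mul, conj_re, ← ofReal_pow]
  ring

end hilb

variable {K : Type} [Field K] [NumberField K]

instance countable_K : Countable K := Finsupp.Countable.of_moduleFinite (R := ℚ)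

instance countable_SL2 : Countable (SL2 K) := by
  have : Function.Injective fun g : SL2 K => (g 0 0, g 0 1, g 1 0, g 1 1) := by
    intro g h e
    simp only [Prod.mk.injEq] at e
    exact KU.ext2 e.1 e.2.1 e.2.2.1 e.2.2.2
  exact this.countable

variable [Dat K]

instance (B : Subgroup (SL2 K)) : SMulInvariantMeasure B (HK K) (cmK K).mu where
  measure_preimage_smul g _ hs :=
    SMulInvariantMeasure.measure_preimage_smul (μ := (cmK K).mu) (g : SL2 K) hs

theorem osum_subgroupOf {B G : Subgroup (SL2 K)} (h : B ≤ G) (k : HK K → ℝ≥0∞) (w : HK K) :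
    H9.osum (B.subgroupOf G) k w = H9.osum B k w := by
  unfold H9.osum
  rw [← (Subgroup.subgroupOfEquivOfLe h).toEquiv.tsum_eq (fun g : B => k ((g : SL2 K) • w))]
  rfl

theorem qmp_z : Measure.QuasiMeasurePreserving (HS.z : HK K → io K → ℂ) (cmK K).mu volume := by
  refine ⟨HS.continuous_z.measurable, ?_⟩
  rw [← (cmK K).measurePreserving_pt.map_eq, Measure.map_map HS.continuous_z.measurable
    (cmK K).measurable_pt]
  have : (HS.z : HK K → io K → ℂ) ∘ (fun p : (io K → ℂ) × (io K → ℝ) => (cmK K).pt p.1 p.2) =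
      Prod.fst := by
    funext p; simp
  rw [this]
  exact Measure.quasiMeasurePreserving_fst.absolutelyContinuous

/-- translations by the lattice -/
def Tr (m : K) : Subgroup (SL2 K) where
  carrier := {g | ∃ t ∈ Lat m, g = KU.tr t}
  mul_mem' := by
    rintro _ _ ⟨s, hs, rfl⟩ ⟨t, ht, rfl⟩
    exact ⟨s + t, add_mem hs ht, (KU.tr_add s t).symm⟩
  one_mem' := ⟨0, zero_mem _, KU.tr_zero.symm⟩
  inv_mem' := by
    rintro _ ⟨s, hs, rfl⟩
    exact ⟨-s, neg_mem hs, (KU.tr_neg s).symm⟩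

theorem tr_00 (t : K) : KU.tr t 0 0 = 1 := rfl
theorem tr_01 (t : K) : KU.tr t 0 1 = t := rfl
theorem tr_10 (t : K) : KU.tr t 1 0 = 0 := rfl
theorem tr_11 (t : K) : KU.tr t 1 1 = 1 := rfl

theorem Tr_le_Gam (k : ℕ) : Tr (lv K k) ≤ Gam K k := by
  rintro _ ⟨t, ht, rfl⟩
  refine ⟨?_, ht, ?_, ?_⟩ <;> simp [tr_00, tr_10, tr_11]

/-- the strip over a cell is a fundamental domain for the translations -/
theorem fd_strip {m : K} {A : Set (io K → ℂ)} (hA : IsCell m A) {G : Subgroup (SL2 K)}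
    (hG : Tr m ≤ G) :
    IsFundamentalDomain ((Tr m).subgroupOf G) (HS.z ⁻¹' A : Set (HK K)) (cmK K).mu := by
  obtain ⟨h1, -, h3⟩ := hA
  refine IsFundamentalDomain.mk'' (HS.continuous_z.measurable h1).nullMeasurableSet ?_ ?_ ?_
  · filter_upwards [qmp_z.ae h3.ae_covers] with w hw
    obtain ⟨⟨_, t, ht, rfl⟩, hw⟩ := hw
    refine ⟨⟨⟨KU.tr t, hG ⟨t, ht, rfl⟩⟩, ⟨t, ht, rfl⟩⟩, ?_⟩
    show HS.z (KU.tr t • w) ∈ A
    rw [CM.tr_smul_z, add_comm]
    exact hw
  · intro g hne
    obtain ⟨t, ht, hgt⟩ := g.2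
    have hgt : ((g : G) : SL2 K) = KU.tr t := hgt
    have ht0 : t ≠ 0 := by
      rintro rfl
      exact hne (Subtype.ext (Subtype.ext (hgt.trans KU.tr_zero)))
    let l : LatC m := ⟨(cmK K).em t, t, ht, rfl⟩
    have hl : l ≠ 0 := by
      intro h
      have h' : (cmK K).em t = 0 := congrArg Subtype.val h
      exact ht0 ((map_eq_zero_iff _ (cmK K).em.injective).1 h')
    have h4 := (h3.aedisjoint hl).preimage qmp_z
    refine h4.mono ?_ ?_
    · rintro _ ⟨w, hw, rfl⟩
      refine ⟨HS.z w, hw, ?_⟩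
      show (cmK K).em t + HS.z w = HS.z (((g : G) : SL2 K) • w)
      rw [hgt, CM.tr_smul_z, add_comm]
    · intro w hw
      exact ⟨HS.z w, hw, zero_vadd _ _⟩
  · intro g
    exact ((cmK K).measurePreserving_smul' ((g : G) : SL2 K)).quasiMeasurePreserving

/-- integration over a strip in coordinates -/
theorem mp_strip {A : Set (io K → ℂ)} (hA : MeasurableSet A) :
    MeasurePreserving (fun p : (io K → ℂ) × (io K → ℝ) => (cmK K).pt p.1 p.2)
      ((volume.restrict A).prod (nuP (io K))) ((cmK K).mu.restrict (HS.z ⁻¹' A)) := by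
  have h := (cmK K).measurePreserving_pt.restrict_preimage (HS.continuous_z.measurable hA)
  have e : (fun p : (io K → ℂ) × (io K → ℝ) => (cmK K).pt p.1 p.2) ⁻¹' (HS.z ⁻¹' A) =
      A ×ˢ Set.univ := by
    ext p; simp
  rwa [e, ← Measure.prod_restrict, Measure.restrict_univ] at h

/-- dilation -/
noncomputable def dil (l : ℝ) (hl : 0 < l) (w : HK K) : HK K :=
  fun j => H9.dg ((√l : ℝ) : ℂ) (by exact_mod_cast (Real.sqrt_pos.2 hl).ne') • w j

theorem mp_dil {l : ℝ} (hl : 0 < l) : MeasurePreserving (dil (K := K) l hl) (cmK K).mu (cmK K).mu :=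
  measurePreserving_pi (fun _ : io K => H9.muH) (fun _ : io K => H9.muH)
    (f := fun _ w => H9.dg ((√l : ℝ) : ℂ) (by exact_mod_cast (Real.sqrt_pos.2 hl).ne') • w)
    fun _ => measurePreserving_smul _ H9.muH

theorem dil_v {l : ℝ} (hl : 0 < l) (w : HK K) : HS.v (dil l hl w) = l • HS.v w := by
  funext j
  show (H9.dg _ _ • w j).v = l * (w j).v
  rw [H9.dg_smul_v, Complex.norm_real, Real.norm_of_nonneg (Real.sqrt_nonneg _),
    Real.sq_sqrt hl.le]

theorem dil_z {l : ℝ} (hl : 0 < l) (w : HK K) (j : io K) :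
    HS.z (dil l hl w) j = (l : ℂ) * HS.z w j := by
  show (H9.dg _ _ • w j).z = l * (w j).z
  rw [H9.dg_smul_z, ← ofReal_pow, Real.sq_sqrt hl.le]

theorem PP_dil {l : ℝ} (hl : 0 < l) (w : HK K) :
    PP (HS.z (dil l hl w)) (HS.v (dil l hl w)) =
      l ^ Fintype.card (io K) * PP (HS.z w) (HS.v w) := by
  rw [PP, PP, ← Finset.card_univ, ← Finset.prod_const, ← Finset.prod_mul_distrib]
  refine Finset.prod_congr rfl fun j _ => ?_
  have := HS.v_pos w j
  rw [dil_z, dil_v, P1, P1, normSq_mul, normSq_ofReal, Pi.smul_apply, smul_eq_mul]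
  field_simp

theorem nuV_Ici {δ : ℝ} (hδ : 0 < δ) : H9.nuV (Set.Ici δ) ≤ ENNReal.ofReal (δ ^ (-2 : ℝ)) := by
  rw [← lintegral_indicator_one measurableSet_Ici,
    H9.lintegral_nuV (measurable_one.indicator measurableSet_Ici)]
  have h1 : ∫⁻ v in Set.Ioi (0 : ℝ), ENNReal.ofReal ((v ^ 3)⁻¹) *
      (Set.Ici δ).indicator (1 : ℝ → ℝ≥0∞) v ≤
      ∫⁻ v in Set.Ici δ, ENNReal.ofReal (v ^ (-3 : ℝ)) := by
    rw [← lintegral_indicator measurableSet_Ici, ← lintegral_indicator measurableSet_Ioi]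
    refine lintegral_mono fun v => ?_
    by_cases hv : v ∈ Set.Ici δ
    · have hv0 : 0 < v := hδ.trans_le hv
      rw [Set.indicator_of_mem hv, Set.indicator_of_mem (show v ∈ Set.Ioi 0 from hv0),
        Set.indicator_of_mem hv, Real.rpow_neg hv0.le]
      simp
    · rw [Set.indicator_of_notMem hv]
      by_cases hv0 : v ∈ Set.Ioi (0 : ℝ)
      · rw [Set.indicator_of_mem hv0, Set.indicator_of_notMem hv, mul_zero]
      · rw [Set.indicator_of_notMem hv0]
  refine h1.trans ?_
  rw [setLIntegral_congr Ioi_ae_eq_Ici.symm, ← ofReal_integral_eq_lintegral_ofReal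
    (integrableOn_Ioi_rpow_of_lt (by norm_num) hδ)
    ((ae_restrict_iff' measurableSet_Ioi).2 (Eventually.of_forall fun v hv =>
      Real.rpow_nonneg (hδ.trans hv).le _)),
    integral_Ioi_rpow_of_lt (by norm_num) hδ]
  refine ENNReal.ofReal_le_ofReal ?_
  have : 0 < δ ^ (-2 : ℝ) := Real.rpow_pos_of_pos hδ _
  norm_num
  norm_num at this
  linarith

theorem nuP_Ici {δ : ℝ} (hδ : 0 < δ) :
    nuP (io K) {v | ∀ j, δ ≤ v j} ≤ ENNReal.ofReal ((δ ^ (-2 : ℝ)) ^ Fintype.card (io K)) := by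
  have e : {v : io K → ℝ | ∀ j, δ ≤ v j} = Set.pi Set.univ fun _ => Set.Ici δ := by
    ext v; simp [Pi.le_def]
  rw [e, nuP, Measure.pi_pi, ENNReal.ofReal_pow (Real.rpow_nonneg hδ.le _), ← Finset.card_univ,
    ← Finset.prod_const]
  exact Finset.prod_le_prod' fun j _ => nuV_Ici hδ

end Vale.Agent.P016Z.TH
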