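import Vale.Agent.P016Z.TH.Four
import Mathlib.MeasureTheory.Integral.MeanInequalities
import Mathlib.MeasureTheory.Function.LpSpace.Complete
import Mathlib.MeasureTheory.Function.AEEqOfIntegral
import Mathlib.Algebra.Module.ZLattice.Summable
import Mathlib.Analysis.Normed.Group.FunctionSeries

/-!
P016, block THETA: tools for the passage to the limit (mean square limits, strips, kernels,
bounds for the Whittaker function, convergence of Fourier expansions).
-/

namespace Vale.Agent.P016Z.TH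

open MeasureTheory Set Filter Complex Finset NumberField Topology Module
open scoped ENNReal ComplexConjugate
open Vale.Agent.P006 Vale.Agent.P006.H9

section abstract

variable {α : Type} [MeasurableSpace α] {μ : Measure α}

theorem cs_lintegral {g : α → ℝ≥0∞} (hg : AEMeasurable g μ) :
    (∫⁻ x, g x ∂μ) ^ 2 ≤ μ Set.univ * ∫⁻ x, g x ^ 2 ∂μ := by
  have h := ENNReal.lintegral_mul_le_Lp_mul_Lq μ Real.HolderConjugate.two_two hg
    (g := fun _ => 1) aemeasurable_const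
  simp only [Pi.mul_apply, mul_one, lintegral_const, ENNReal.rpow_ofNat, one_pow, one_mul] at h
  calc _ ≤ ((∫⁻ x, g x ^ 2 ∂μ) ^ (1 / 2 : ℝ) * μ Set.univ ^ (1 / 2 : ℝ)) ^ 2 := by gcongr
    _ = _ := by
      rw [mul_pow, ← ENNReal.rpow_natCast, ← ENNReal.rpow_natCast, ← ENNReal.rpow_mul,
        ← ENNReal.rpow_mul]
      norm_num [mul_comm]

theorem cs_integral {g : α → ℂ} (hg : AEMeasurable g μ) :
    ‖∫ x, g x ∂μ‖ₑ ^ 2 ≤ μ Set.univ * ∫⁻ x, ‖g x‖ₑ ^ 2 ∂μ :=
  (pow_le_pow_left' (enorm_integral_le_lintegral_enorm g) 2).trans (cs_lintegral hg.enorm)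

theorem eLpNorm_two (g : α → ℂ) : eLpNorm g 2 μ = (∫⁻ x, ‖g x‖ₑ ^ 2 ∂μ) ^ (1 / 2 : ℝ) := by
  rw [eLpNorm_eq_lintegral_rpow_enorm_toReal (by norm_num) (by norm_num)]
  simp only [ENNReal.toReal_ofNat, ENNReal.rpow_ofNat]

theorem memLp_two {g : α → ℂ} (hg : Measurable g) (h : ∫⁻ x, ‖g x‖ₑ ^ 2 ∂μ ≠ ∞) :
    MemLp g 2 μ :=
  ⟨hg.aestronglyMeasurable, by
    rw [eLpNorm_two]; exact ENNReal.rpow_lt_top_of_nonneg (by norm_num) h⟩

theorem integrable_of_sq [IsFiniteMeasure μ] {g : α → ℂ} (hg : Measurable g)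
    (h : ∫⁻ x, ‖g x‖ₑ ^ 2 ∂μ ≠ ∞) : Integrable g μ :=
  (memLp_two hg h).integrable (by norm_num)

theorem sq_ne_top_of_bdd [IsFiniteMeasure μ] {g : α → ℂ} {B : ℝ} (h : ∀ᵐ x ∂μ, ‖g x‖ ≤ B) :
    ∫⁻ x, ‖g x‖ₑ ^ 2 ∂μ ≠ ∞ := by
  refine ne_top_of_le_ne_top (b := ∫⁻ _, ENNReal.ofReal B ^ 2 ∂μ) ?_ (lintegral_mono_ae ?_)
  · rw [lintegral_const]
    exact ENNReal.mul_ne_top (ENNReal.pow_ne_top ENNReal.ofReal_ne_top) (measure_ne_top _ _)
  · filter_upwards [h] with x hx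
    gcongr
    rw [← ofReal_norm]
    exact ENNReal.ofReal_le_ofReal hx

/-- completeness of `L²` -/
theorem exists_l2_lim {F : ℝ → α → ℂ} (hF : ∀ X, Measurable (F X))
    (h2 : ∀ X, ∫⁻ x, ‖F X x‖ₑ ^ 2 ∂μ ≠ ∞)
    (hc : Tendsto (fun p : ℝ × ℝ => ∫⁻ x, ‖F p.1 x - F p.2 x‖ₑ ^ 2 ∂μ) atTop (𝓝 0)) :
    ∃ f : α → ℂ, Measurable f ∧ ∫⁻ x, ‖f x‖ₑ ^ 2 ∂μ ≠ ∞ ∧
      Tendsto (fun X => ∫⁻ x, ‖F X x - f x‖ₑ ^ 2 ∂μ) atTop (𝓝 0) := by
  have hm : ∀ X, MemLp (F X) 2 μ := fun X => memLp_two (hF X) (h2 X)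
  have hcs : CauchySeq fun X => (hm X).toLp (F X) := by
    rw [cauchySeq_iff_tendsto_dist_atTop_0]
    have h1 : Tendsto (fun p : ℝ × ℝ => ((∫⁻ x, ‖F p.1 x - F p.2 x‖ₑ ^ 2 ∂μ) ^
        (1 / 2 : ℝ)).toReal) atTop (𝓝 0) := by
      have h3 := (ENNReal.continuous_rpow_const (y := (1 / 2 : ℝ))).continuousAt.tendsto.comp hc
      rw [ENNReal.zero_rpow_of_pos (by norm_num)] at h3
      exact (ENNReal.tendsto_toReal ENNReal.zero_ne_top).comp h3
    refine h1.congr fun p => ?_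
    rw [dist_edist, Lp.edist_toLp_toLp, eLpNorm_two]; rfl
  obtain ⟨f, hf⟩ := cauchySeq_tendsto_of_complete hcs
  refine ⟨f, (Lp.stronglyMeasurable f).measurable, ?_, ?_⟩
  · have := (Lp.memLp f).2
    rw [eLpNorm_two] at this
    intro h
    rw [h, ENNReal.top_rpow_of_pos (by norm_num)] at this
    exact lt_irrefl _ this
  · rw [tendsto_iff_edist_tendsto_0] at hf
    have h3 := (ENNReal.continuous_pow 2).continuousAt.tendsto.comp hf
    rw [zero_pow two_ne_zero] at h3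
    refine h3.congr fun X => ?_
    simp only [Function.comp]
    rw [Lp.edist_def, eLpNorm_congr_ae ((hm X).coeFn_toLp.sub (EventuallyEq.refl _ _)),
      eLpNorm_two, ← ENNReal.rpow_natCast, ← ENNReal.rpow_mul]
    norm_num

theorem tendsto_integral_of_sq [IsFiniteMeasure μ] {F : ℝ → α → ℂ} (hF : ∀ X, Measurable (F X))
    (h : Tendsto (fun X => ∫⁻ x, ‖F X x‖ₑ ^ 2 ∂μ) atTop (𝓝 0)) :
    Tendsto (fun X => ∫ x, F X x ∂μ) atTop (𝓝 0) := by
  have h1 := ENNReal.Tendsto.const_mul (a := μ Set.univ) h (Or.inr (measure_ne_top _ _))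
  rw [mul_zero] at h1
  have h2 : Tendsto (fun X => ‖∫ x, F X x ∂μ‖ₑ ^ 2) atTop (𝓝 0) :=
    tendsto_of_tendsto_of_tendsto_of_le_of_le tendsto_const_nhds h1 (fun _ => zero_le)
      fun X => cs_integral (hF X).aemeasurable
  have h3 := (ENNReal.tendsto_toReal ENNReal.zero_ne_top).comp h2
  have h4 : Tendsto (fun X => ‖∫ x, F X x ∂μ‖ ^ 2) atTop (𝓝 0) := by
    refine h3.congr fun X => ?_
    simp
  rw [tendsto_zero_iff_norm_tendsto_zero]
  have h5 := (Real.continuous_sqrt.tendsto 0).comp h4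
  rw [Real.sqrt_zero] at h5
  refine h5.congr fun X => ?_
  simp

theorem enorm_add_sq_le (a b : ℂ) : ‖a + b‖ₑ ^ 2 ≤ 2 * ‖a‖ₑ ^ 2 + 2 * ‖b‖ₑ ^ 2 := by
  have h : ‖a + b‖ ^ 2 ≤ 2 * ‖a‖ ^ 2 + 2 * ‖b‖ ^ 2 := by
    have := norm_add_le a b
    have h1 := pow_le_pow_left₀ (norm_nonneg _) this 2
    nlinarith [sq_nonneg (‖a‖ - ‖b‖)]
  have h2 := ENNReal.ofReal_le_ofReal h
  rw [ENNReal.ofReal_add (by positivity) (by positivity), ENNReal.ofReal_mul (by norm_num),
    ENNReal.ofReal_mul (by norm_num), ENNReal.ofReal_pow (norm_nonneg _),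
    ENNReal.ofReal_pow (norm_nonneg _), ENNReal.ofReal_pow (norm_nonneg _), ofReal_norm,
    ofReal_norm, ofReal_norm, ENNReal.ofReal_ofNat] at h2
  exact h2

theorem lintegral_add_sq_le {f g : α → ℂ} (hf : Measurable f) (hg : Measurable g) :
    ∫⁻ x, ‖f x + g x‖ₑ ^ 2 ∂μ ≤ 2 * ∫⁻ x, ‖f x‖ₑ ^ 2 ∂μ + 2 * ∫⁻ x, ‖g x‖ₑ ^ 2 ∂μ := by
  rw [← lintegral_const_mul _ (hf.enorm.pow_const 2), ← lintegral_const_mul _ (hg.enorm.pow_const 2),
    ← lintegral_add_left ((hf.enorm.pow_const 2).const_mul 2)]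
  exact lintegral_mono fun x => enorm_add_sq_le _ _

end abstract

/-- for a tame function the bound in `Lim` follows from the convergence -/
theorem Ker.lim_of_tame (k : Ker) {S : ℝ → ℂ} (hS : Tame S) {b : ℂ}
    (h : Tendsto (fun X : ℝ => ((X ^ (-(4 / 3) : ℝ) : ℝ) : ℂ) * k.sm S X) atTop (𝓝 b)) :
    k.Lim S b := by
  refine ⟨?_, h⟩
  obtain ⟨X0, hX0⟩ := eventually_atTop.1 (h.norm.eventually (gt_mem_nhds (lt_add_one ‖b‖)))
  obtain ⟨_, C, hC⟩ := hS
  have hC0 : 0 ≤ C := by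
    have := (norm_nonneg _).trans (hC 1 one_pos)
    simpa using this
  set I := ∫ x, k.P x ^ (-2 : ℝ) * ‖k.w x‖ ∂k.mu with hI
  have hI0 : 0 ≤ I := integral_nonneg fun x =>
    mul_nonneg (Real.rpow_nonneg (k.P_pos x).le _) (norm_nonneg _)
  refine ⟨‖b‖ + 1 + C * I * |X0| ^ (2 / 3 : ℝ), fun X hX => ?_⟩
  have hp : 0 < X ^ (4 / 3 : ℝ) := Real.rpow_pos_of_pos hX _
  have hq : 0 ≤ C * I * |X0| ^ (2 / 3 : ℝ) := by positivity
  by_cases hx : X0 ≤ X
  · have h1 := hX0 X hx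
    rw [norm_mul, Complex.norm_real, Real.norm_of_nonneg (Real.rpow_nonneg hX.le _),
      Real.rpow_neg hX.le, inv_mul_lt_iff₀ hp] at h1
    nlinarith
  · have h1 : ‖k.sm S X‖ ≤ C * X ^ 2 * I := by
      rw [hI, ← integral_const_mul]
      refine norm_integral_le_of_norm_le (k.int2.const_mul _) (Eventually.of_forall fun x => ?_)
      have hp := k.P_pos x
      rw [norm_mul, ← mul_assoc]
      refine mul_le_mul_of_nonneg_right ((hC _ (div_pos hX hp)).trans (le_of_eq ?_))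
        (norm_nonneg _)
      rw [Real.rpow_neg hp.le, Real.rpow_two]
      field_simp
    have h2 : X ^ 2 = X ^ (2 / 3 : ℝ) * X ^ (4 / 3 : ℝ) := by
      rw [← Real.rpow_add hX, ← Real.rpow_two]; norm_num
    have h3 : X ^ (2 / 3 : ℝ) ≤ |X0| ^ (2 / 3 : ℝ) :=
      Real.rpow_le_rpow hX.le ((not_le.1 hx).le.trans (le_abs_self _)) (by norm_num)
    calc _ ≤ C * I * X ^ (2 / 3 : ℝ) * X ^ (4 / 3 : ℝ) := by rw [h2] at h1; linarith
      _ ≤ C * I * |X0| ^ (2 / 3 : ℝ) * X ^ (4 / 3 : ℝ) := by gcongr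
      _ ≤ _ := by
        have := norm_nonneg b
        nlinarith

theorem nuV_Icc_le {a : ℝ} (ha : 0 < a) (b : ℝ) :
    nuV (Icc a b) ≤ ENNReal.ofReal ((a ^ 3)⁻¹) * ENNReal.ofReal (b - a) := by
  rw [nuV, withDensity_apply _ measurableSet_Icc, Measure.restrict_restrict measurableSet_Icc,
    ← Real.volume_Icc, ← setLIntegral_const]
  refine (setLIntegral_mono' (measurableSet_Icc.inter measurableSet_Ioi)
    (g := fun _ => ENNReal.ofReal ((a ^ 3)⁻¹)) fun x hx => ?_).trans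
    (lintegral_mono_set inter_subset_left)
  refine ENNReal.ofReal_le_ofReal ?_
  have := hx.1.1
  gcongr

theorem le_nuV_Icc {a b : ℝ} (ha : 0 < a) :
    ENNReal.ofReal ((b ^ 3)⁻¹) * ENNReal.ofReal (b - a) ≤ nuV (Icc a b) := by
  have e : Icc a b ∩ Ioi 0 = Icc a b := inter_eq_left.2 fun x hx => ha.trans_le hx.1
  rw [nuV, withDensity_apply _ measurableSet_Icc, Measure.restrict_restrict measurableSet_Icc, e,
    ← Real.volume_Icc, ← setLIntegral_const]
  refine setLIntegral_mono' measurableSet_Icc fun x hx => ENNReal.ofReal_le_ofReal ?_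
  have h1 := ha.trans_le hx.1
  have := hx.2
  gcongr

variable {ι : Type} [Fintype ι]

/-- the balanced box of heights -/
def vb (ι : Type) (a b : ℝ) : Set (ι → ℝ) := Set.univ.pi fun _ => Icc a b

theorem measurableSet_vb (a b : ℝ) : MeasurableSet (vb ι a b) :=
  MeasurableSet.univ_pi fun _ => measurableSet_Icc

omit [Fintype ι] in
theorem mem_vb {a b : ℝ} {v : ι → ℝ} : v ∈ vb ι a b ↔ ∀ j, a ≤ v j ∧ v j ≤ b := by
  simp only [vb, Set.mem_pi, Set.mem_univ, forall_true_left, Set.mem_Icc]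

theorem nuP_vb (a b : ℝ) : nuP ι (vb ι a b) = nuV (Icc a b) ^ Fintype.card ι := by
  rw [nuP, vb, Measure.pi_pi, prod_const, card_univ]

theorem nuP_vb_ne_top {a : ℝ} (ha : 0 < a) (b : ℝ) : nuP ι (vb ι a b) ≠ ∞ := by
  rw [nuP_vb]
  exact ENNReal.pow_ne_top (ne_top_of_le_ne_top
    (ENNReal.mul_ne_top ENNReal.ofReal_ne_top ENNReal.ofReal_ne_top) (nuV_Icc_le ha b))

theorem WW_le : ∃ A : ℝ, 0 ≤ A ∧ ∀ (a b : ℝ), 0 < a → ∀ v ∈ vb ι a b, ∀ x : ι → ℂ,
    WW x v ≤ (A * b ^ (2 / 3 : ℝ)) ^ Fintype.card ι * Real.exp (-(2 * Real.pi * a * ‖x‖)) := by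
  obtain ⟨A, hA, h⟩ := Wh_le_exp
  refine ⟨A, hA, fun a b ha v hv x => ?_⟩
  rw [mem_vb] at hv
  have hv0 : ∀ j, 0 < v j := fun j => ha.trans_le (hv j).1
  have h1 : ‖x‖ ≤ ∑ j, ‖x j‖ := by
    refine (pi_norm_le_iff_of_nonneg (sum_nonneg fun _ _ => norm_nonneg _)).2 fun j => ?_
    exact single_le_sum (f := fun j => ‖x j‖) (fun _ _ => norm_nonneg _) (mem_univ j)
  calc WW x v ≤ ∏ j, (A * b ^ (2 / 3 : ℝ) * Real.exp (-(2 * Real.pi * a * ‖x j‖))) := by
        refine prod_le_prod (fun j _ => (Wh_pos _ (hv0 j)).le) fun j _ => (h _ _ (hv0 j)).trans ?_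
        have h2 := (hv j).1
        have h3 := (hv j).2
        have h4 := (hv0 j).le
        have h5 : 2 * Real.pi * a * ‖x j‖ ≤ 2 * Real.pi * ‖x j‖ * v j := by
          rw [mul_right_comm]; gcongr
        gcongr
        exact mul_nonneg hA (Real.rpow_nonneg (h4.trans h3) _)
    _ = (A * b ^ (2 / 3 : ℝ)) ^ Fintype.card ι * Real.exp (-(2 * Real.pi * a * ∑ j, ‖x j‖)) := by
        rw [prod_mul_distrib, prod_const, card_univ, ← Real.exp_sum, mul_sum, sum_neg_distrib]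
    _ ≤ _ := by
        rcases isEmpty_or_nonempty ι with hι | ⟨⟨j⟩⟩
        · have : x = 0 := Subsingleton.elim _ _
          simp [this]
        · have hb : 0 ≤ b := (hv0 j).le.trans (hv j).2
          gcongr

theorem le_WW : ∃ g : ℝ, 0 < g ∧ ∀ (a : ℝ), 0 < a → ∀ v ∈ vb ι a (2 * a), ∀ x : ι → ℂ,
    (∀ j, ‖x j‖ ≤ a⁻¹) → (g * a ^ (2 / 3 : ℝ)) ^ Fintype.card ι ≤ WW x v := by
  obtain ⟨y, hy, hmin⟩ := (isCompact_Icc (a := (0 : ℝ)) (b := (4 * Real.pi) ^ 2)).exists_isMinOn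
    ⟨0, le_rfl, by positivity⟩ (SG.continuousOn_G.mono Icc_subset_Ici_self)
  have hg := G_pos' hy.1
  refine ⟨SG.G y, hg, fun a ha v hv x hx => ?_⟩
  rw [mem_vb] at hv
  rw [WW, ← card_univ, ← prod_const]
  refine prod_le_prod (fun _ _ => by positivity) fun j _ => ?_
  have h0 : 0 < v j := ha.trans_le (hv j).1
  have h1 : SG.G y ≤ SG.G ((2 * Real.pi * ‖x j‖ * v j) ^ 2) := by
    refine hmin ⟨sq_nonneg _, ?_⟩
    have h2 : ‖x j‖ * v j ≤ a⁻¹ * (2 * a) := mul_le_mul (hx j) (hv j).2 h0.le (by positivity)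
    have h3 : a⁻¹ * (2 * a) = 2 := by field_simp
    refine pow_le_pow_left₀ (by positivity) ?_ 2
    rw [mul_assoc]
    nlinarith [Real.pi_pos]
  rw [Wh, mul_comm]
  have h2 := (hv j).1
  gcongr

theorem continuousOn_WW (x : ι → ℂ) : ContinuousOn (WW x) {v | ∀ j, 0 < v j} :=
  continuousOn_finsetProd _ fun j _ =>
    (continuousOn_Wh (x j)).comp (continuous_apply j).continuousOn fun _ hv => hv j

variable {K : Type} [Field K]

namespace CM

variable (C : CM K ι)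

/-- the product measure on `Z × B` -/
noncomputable def mz (Z : Set (ι → ℂ)) (B : Set (ι → ℝ)) : Measure ((ι → ℂ) × (ι → ℝ)) :=
  ((volume : Measure (ι → ℂ)).restrict Z).prod ((nuP ι).restrict B)

theorem lintegral_zv {Z : Set (ι → ℂ)} (hZ : MeasurableSet Z) {B : Set (ι → ℝ)}
    (hB : MeasurableSet B) {f : HS C → ℝ≥0∞} (hf : Measurable f) :
    ∫⁻ w in {w : HS C | w.z ∈ Z ∧ w.v ∈ B}, f w ∂C.mu = ∫⁻ p, f (C.pt p.1 p.2) ∂mz Z B := by
  have hs : MeasurableSet {w : HS C | w.z ∈ Z ∧ w.v ∈ B} :=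
    (HS.measurable_z hZ).inter (HS.measurable_v hB)
  rw [← C.measurePreserving_pt.setLIntegral_comp_preimage hs hf, mz, Measure.prod_restrict]
  refine setLIntegral_congr ?_
  have h : ∀ᵐ p ∂((volume : Measure (ι → ℂ)).prod (nuP ι)), ∀ j, 0 < p.2 j :=
    Measure.quasiMeasurePreserving_snd.ae ae_nuP_pos
  filter_upwards [h] with p hp
  apply propext
  show ((C.pt p.1 p.2).z ∈ Z ∧ (C.pt p.1 p.2).v ∈ B) ↔ (p.1 ∈ Z ∧ p.2 ∈ B)
  rw [pt_z, C.pt_v _ hp]

variable {a b : ℝ} (ha : 0 < a) {B : Set (ι → ℝ)} (hB : MeasurableSet B) (hab : B ⊆ vb ι a b)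

include ha hab in
theorem finite_nuP : IsFiniteMeasure ((nuP ι).restrict B) :=
  isFiniteMeasure_restrict.2 (ne_top_of_le_ne_top (nuP_vb_ne_top ha b) (measure_mono hab))

include ha hab in
omit [Fintype ι] in
theorem pos_of_mem {v : ι → ℝ} (hv : v ∈ B) (j : ι) : 0 < v j :=
  ha.trans_le (mem_vb.1 (hab hv) j).1

include ha hB hab in
theorem integrable_WW (x : ι → ℂ) : Integrable (WW x) ((nuP ι).restrict B) := by
  have := finite_nuP ha hab
  obtain ⟨A, _, h⟩ := WW_le (ι := ι)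
  refine Integrable.of_bound (measurable_WW x).aestronglyMeasurable
    ((A * b ^ (2 / 3 : ℝ)) ^ Fintype.card ι * Real.exp (-(2 * Real.pi * a * ‖x‖)))
    ((ae_restrict_mem hB).mono fun v hv => ?_)
  rw [Real.norm_of_nonneg (WW_pos x (pos_of_mem ha hab hv)).le]
  exact h a b ha v (hab hv) x

/-- the height function of the row `(1, 0)` -/
noncomputable def Pp (p : (ι → ℂ) × (ι → ℝ)) : ℝ := PP p.1 (C.pt p.1 p.2).v

theorem Pp_pos (p : (ι → ℂ) × (ι → ℝ)) : 0 < C.Pp p := PP_pos _ (HS.v_pos _)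

theorem measurable_Pp : Measurable C.Pp :=
  measurable_PP.comp (measurable_fst.prodMk (HS.measurable_v.comp C.measurable_pt))

theorem Pp_eq (z : ι → ℂ) {v : ι → ℝ} (hv : ∀ j, 0 < v j) : C.Pp (z, v) = PP z v := by
  rw [Pp, C.pt_v _ hv]

include ha hB hab in
theorem integrable_Pp : Integrable (fun p => C.Pp p ^ (-(4 / 3) : ℝ))
    ((volume : Measure (ι → ℂ)).prod ((nuP ι).restrict B)) := by
  rw [integrable_prod_iff' (C.measurable_Pp.pow_const _).aestronglyMeasurable]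
  constructor
  · filter_upwards [ae_restrict_mem hB] with v hv
    simp only [C.Pp_eq _ (pos_of_mem ha hab hv)]
    exact integrable_PP (pos_of_mem ha hab hv)
  · refine ((integrable_WW ha hB hab 0).const_mul (cJ ^ Fintype.card ι)).congr ?_
    filter_upwards [ae_restrict_mem hB] with v hv
    have hv' := pos_of_mem ha hab hv
    rw [← integral_PP hv']
    refine integral_congr_ae (Eventually.of_forall fun z => ?_)
    simp only []
    rw [C.Pp_eq _ hv', Real.norm_of_nonneg (Real.rpow_nonneg (PP_pos _ hv').le _)]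

/-- the kernel attached to a frequency and a set of heights -/
noncomputable def kb (ν : K) : Ker where
  Om := (ι → ℂ) × (ι → ℝ)
  ms := inferInstance
  mu := (volume : Measure (ι → ℂ)).prod ((nuP ι).restrict B)
  sf := inferInstance
  P := C.Pp
  w p := conj (C.ch ν p.1)
  P_meas := C.measurable_Pp
  w_meas := (continuous_conj.comp ((C.continuous_ch ν).comp continuous_fst)).measurable
  P_pos := C.Pp_pos
  int1 := by
    simp only [norm_conj, norm_ch, mul_one]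
    exact C.integrable_Pp ha hB hab
  int2 := by
    simp only [norm_conj, norm_ch, mul_one]
    refine ((C.integrable_Pp ha hB hab).const_mul
      ((a ^ Fintype.card ι) ^ (-(2 / 3) : ℝ))).mono'
      (C.measurable_Pp.pow_const _).aestronglyMeasurable ?_
    have h : ∀ᵐ p ∂((volume : Measure (ι → ℂ)).prod ((nuP ι).restrict B)), p.2 ∈ B :=
      Measure.quasiMeasurePreserving_snd.ae (ae_restrict_mem hB)
    filter_upwards [h] with p hp
    have h0 := C.Pp_pos p
    have h1 : a ^ Fintype.card ι ≤ C.Pp p := by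
      rw [show p = (p.1, p.2) from rfl, C.Pp_eq _ (pos_of_mem ha hab hp), ← card_univ,
        ← prod_const]
      exact (prod_le_prod (fun _ _ => ha.le) fun j _ => (mem_vb.1 (hab hp) j).1).trans
        (le_PP _ (pos_of_mem ha hab hp))
    rw [Real.norm_of_nonneg (Real.rpow_nonneg h0.le _),
      show (-2 : ℝ) = -(2 / 3) + -(4 / 3) by norm_num, Real.rpow_add h0]
    exact mul_le_mul_of_nonneg_right
      (Real.rpow_le_rpow_of_nonpos (pow_pos ha _) h1 (by norm_num)) (Real.rpow_nonneg h0.le _)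

theorem kb_hat (ν : K) : (C.kb ha hB hab ν).hat =
    ((cJ ^ Fintype.card ι * ∫ v in B, WW (C.em ν) v ∂nuP ι : ℝ) : ℂ) := by
  have h := integral_prod_symm _ (C.kb ha hB hab ν).int1C
  refine h.trans ?_
  rw [← integral_const_mul, ← integral_complex_ofReal]
  refine integral_congr_ae ((ae_restrict_mem hB).mono fun v hv => ?_)
  have hv' := pos_of_mem ha hab hv
  simp only []
  rw [← jac _ hv']
  refine integral_congr_ae (Eventually.of_forall fun z => ?_)
  show ((C.Pp (z, v) ^ (-(4 / 3) : ℝ) : ℝ) : ℂ) * conj (C.ch ν z) = _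
  rw [C.Pp_eq _ hv', ch, ← ee_neg]

theorem kb_sm (ν : K) {S : ℝ → ℂ} (hS : Tame S) {X : ℝ} (hX : 0 < X) :
    Integrable (fun v => ∫ z, S (X / PP z v) * conj (C.ch ν z)) ((nuP ι).restrict B) ∧
    (C.kb ha hB hab ν).sm S X = ∫ v in B, (∫ z, S (X / PP z v) * conj (C.ch ν z)) ∂nuP ι := by
  have hi := (C.kb ha hB hab ν).integrable_sm hS hX
  have e : (fun v => ∫ z, S (X / C.Pp (z, v)) * conj (C.ch ν z)) =ᵐ[(nuP ι).restrict B]
      fun v => ∫ z, S (X / PP z v) * conj (C.ch ν z) := by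
    filter_upwards [ae_restrict_mem hB] with v hv
    simp only [C.Pp_eq _ (pos_of_mem ha hab hv)]
  exact ⟨(Integrable.integral_prod_right hi).congr e,
    (integral_prod_symm _ hi).trans (integral_congr_ae e)⟩

theorem integral_WW_ge : ∃ g : ℝ, 0 < g ∧ ∀ a : ℝ, 0 < a → ∀ x : ι → ℂ, (∀ j, ‖x j‖ ≤ a⁻¹) →
    (g * a ^ (2 / 3 : ℝ)) ^ Fintype.card ι * (nuP ι (vb ι a (2 * a))).toReal ≤
      ∫ v in vb ι a (2 * a), WW x v ∂nuP ι := by
  obtain ⟨g, hg, h⟩ := le_WW (ι := ι)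
  refine ⟨g, hg, fun a ha x hx => ?_⟩
  exact setIntegral_ge_of_const_le_real (measurableSet_vb _ _) (nuP_vb_ne_top ha _)
    (fun v hv => h a ha v hv x hx)
    (integrable_WW ha (measurableSet_vb _ _) subset_rfl x)

theorem integral_WW_pos (hab : a < b) (x : ι → ℂ) (ha : 0 < a) :
    0 < ∫ v in vb ι a b, WW x v ∂nuP ι := by
  rw [setIntegral_pos_iff_support_of_nonneg_ae ((ae_restrict_mem (measurableSet_vb _ _)).mono
    fun v hv => (WW_pos x (pos_of_mem ha subset_rfl hv)).le)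
    (integrable_WW ha (measurableSet_vb _ _) subset_rfl x)]
  have e : Function.support (WW x) ∩ vb ι a b = vb ι a b :=
    inter_eq_right.2 fun v hv => (WW_pos x (pos_of_mem ha subset_rfl hv)).ne'
  rw [e, nuP_vb]
  refine ENNReal.pow_pos (lt_of_lt_of_le ?_ (le_nuV_Icc ha)) _
  have hb := ha.trans hab
  exact ENNReal.mul_pos (ENNReal.ofReal_pos.2 (by positivity)).ne'
    (ENNReal.ofReal_pos.2 (by linarith)).ne'

variable [NumberField K]

theorem summable_lat {κ : Type} [Fintype κ] (b : Basis κ ℚ K) (p : ℕ) {c : ℝ} (hc : 0 < c) :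
    Summable fun n : κ → ℤ =>
      (1 + ‖C.em (cmb b n)‖) ^ p * Real.exp (-(c * ‖C.em (cmb b n)‖)) := by
  classical
  set L := Submodule.span ℤ (Set.range (C.bas b)) with hL
  set N := finrank ℤ L + 1 with hN
  have h1 := ZLattice.summable_norm_pow_inv (L := L) N (by omega)
  have h2 : Summable fun x : L => (1 + ‖(x : ι → ℂ)‖) ^ p * Real.exp (-(c * ‖(x : ι → ℂ)‖)) := by
    refine Summable.of_norm_bounded_eventually
      (h1.mul_left (((p + N).factorial : ℝ) / c ^ (p + N) * Real.exp c)) ?_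
    filter_upwards [(Set.finite_singleton (0 : L)).compl_mem_cofinite] with x hx
    have hx0 : 0 < ‖x‖ := norm_pos_iff.2 hx
    have e : ‖(x : ι → ℂ)‖ = ‖x‖ := rfl
    rw [e, Real.norm_of_nonneg (by positivity)]
    set t := ‖x‖
    have h3 := Real.pow_div_factorial_le_exp (c * (1 + t)) (by positivity) (p + N)
    rw [mul_pow, div_le_iff₀ (by positivity), mul_add, mul_one, Real.exp_add] at h3
    have h4 : t ^ N ≤ (1 + t) ^ N := by gcongr; linarith
    rw [Real.exp_neg, inv_pow, ← div_eq_mul_inv, ← div_eq_mul_inv, div_le_div_iff₀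
      (by positivity) (by positivity), div_mul_eq_mul_div, div_mul_eq_mul_div,
      le_div_iff₀ (by positivity)]
    calc (1 + t) ^ p * t ^ N * c ^ (p + N) ≤ (1 + t) ^ p * (1 + t) ^ N * c ^ (p + N) := by gcongr
      _ = c ^ (p + N) * (1 + t) ^ (p + N) := by ring
      _ ≤ _ := h3
      _ = _ := by ring
  have h3 := (C.latEquiv b).summable_iff.2 h2
  refine h3.congr fun n => ?_
  simp only [Function.comp, latEquiv_coe]

theorem finite_lat {m : K} (hm : m ≠ 0) (r : ℝ) : {t : 𝓞 K | ‖C.em (m * t)‖ ≤ r}.Finite := by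
  classical
  have h := ZSpan.setFinite_inter (C.bas (bm hm)) (Metric.isBounded_closedBall (x := 0) (r := r))
  refine Set.Finite.of_finite_image (f := fun t : 𝓞 K => C.em (m * t)) (h.subset ?_) ?_
  · rintro _ ⟨t, ht, rfl⟩
    refine ⟨mem_closedBall_zero_iff.2 ht, ?_⟩
    have := (C.latEquiv (bm hm) ((RingOfIntegers.basis K).equivFun t)).2
    rw [latEquiv_coe, cmb_bm] at this
    exact this
  · intro s _ t _ hst
    have := C.nonempty
    have h1 := C.em.injective hst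
    exact RingOfIntegers.coe_injective (mul_left_cancel₀ hm h1)

variable {m : K} (hm : m ≠ 0) {τ : K → ℂ} (hs : ∀ ν, τ ν ≠ 0 → ν ∈ Dual m) {A : ℝ} {p : ℕ}
  (hτ : ∀ ν, ‖τ ν‖ ≤ A * (1 + ‖C.em ν‖) ^ p)

include hm hs hτ in
theorem exp_bound {a : ℝ} (ha : 0 < a) (b : ℝ) : ∃ u : K → ℝ, Summable u ∧
    ∀ ν, ∀ v ∈ vb ι a b, ‖τ ν * (WW (C.em ν) v : ℝ)‖ ≤ u ν := by
  classical
  obtain ⟨D, hD, h⟩ := WW_le (ι := ι)
  set u : K → ℝ := fun ν => if ν ∈ Dual m then A * |(D * b ^ (2 / 3 : ℝ)) ^ Fintype.card ι| *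
    ((1 + ‖C.em ν‖) ^ p * Real.exp (-(2 * Real.pi * a * ‖C.em ν‖))) else 0 with hu
  refine ⟨u, ?_, fun ν v hv => ?_⟩
  · rw [← (cmb_injective (bm hm).traceDual).summable_iff]
    · refine ((C.summable_lat (bm hm).traceDual p (c := 2 * Real.pi * a)
        (by positivity)).mul_left (A * |(D * b ^ (2 / 3 : ℝ)) ^ Fintype.card ι|)).congr fun n => ?_
      simp only [Function.comp, hu]
      rw [if_pos ((dual_iff hm).2 ⟨n, rfl⟩)]
    · intro ν hν
      simp only [hu]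
      rw [if_neg fun h => hν ?_]
      obtain ⟨n, hn⟩ := (dual_iff hm).1 h
      exact ⟨n, hn.symm⟩
  · by_cases hν : ν ∈ Dual m
    · simp only [hu]
      rw [if_pos hν, norm_mul, norm_real,
        Real.norm_of_nonneg (WW_pos _ (pos_of_mem ha subset_rfl hv)).le]
      have h1 := (h a b ha v hv (C.em ν)).trans (mul_le_mul_of_nonneg_right (le_abs_self _)
        (Real.exp_pos _).le)
      calc _ ≤ A * (1 + ‖C.em ν‖) ^ p * (|(D * b ^ (2 / 3 : ℝ)) ^ Fintype.card ι| *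
            Real.exp (-(2 * Real.pi * a * ‖C.em ν‖))) :=
            mul_le_mul (hτ ν) h1 (WW_pos _ (pos_of_mem ha subset_rfl hv)).le
              ((norm_nonneg _).trans (hτ ν))
        _ = _ := by ring
    · have : τ ν = 0 := by_contra fun h => hν (hs ν h)
      simp only [hu]
      rw [if_neg hν, this, zero_mul, norm_zero]

omit [NumberField K] in
theorem exists_vb (w : HS C) : ∃ a b : ℝ, 0 < a ∧ ∀ j, a < w.v j ∧ w.v j < b := by
  obtain ⟨b, hb⟩ := (Set.finite_range w.v).bddAbove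
  obtain ⟨c, hc⟩ := (Set.finite_range fun j => (w.v j)⁻¹).bddAbove
  refine ⟨(|c| + 1)⁻¹, b + 1, by positivity, fun j => ⟨?_, ?_⟩⟩
  · have h1 : (w.v j)⁻¹ ≤ c := hc ⟨j, rfl⟩
    have h2 := le_abs_self c
    exact inv_lt_of_inv_lt₀ (HS.v_pos w j) (by linarith)
  · have h1 : w.v j ≤ b := hb ⟨j, rfl⟩
    linarith

/-- the function with given Fourier coefficients -/
noncomputable def ser (τ : K → ℂ) (w : HS C) : ℂ :=
  ∑' ν : K, τ ν * (WW (C.em ν) w.v : ℝ) * C.ch ν w.z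

include hm hs hτ in
theorem hasSum_ser (w : HS C) :
    HasSum (fun ν : K => τ ν * (WW (C.em ν) w.v : ℝ) * C.ch ν w.z) (C.ser τ w) := by
  obtain ⟨a, b, ha, h⟩ := C.exists_vb w
  obtain ⟨u, hu, hb⟩ := C.exp_bound hm hs hτ ha b
  refine (Summable.of_norm_bounded hu fun ν => ?_).hasSum
  rw [norm_mul, norm_ch, mul_one]
  exact hb ν _ (mem_vb.2 fun j => ⟨(h j).1.le, (h j).2.le⟩)

include hm hs hτ in
theorem continuous_ser : Continuous (C.ser τ) := by
  refine continuous_iff_continuousAt.2 fun w => ?_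
  obtain ⟨a, b, ha, h⟩ := C.exists_vb w
  obtain ⟨u, hu, hb⟩ := C.exp_bound hm hs hτ ha b
  have ho : IsOpen {w : HS C | ∀ j, a < w.v j ∧ w.v j < b} := by
    rw [Set.ofPred_forall]
    refine isOpen_iInter_of_finite fun j => ?_
    have hc : Continuous fun w : HS C => w.v j := (continuous_apply j).comp HS.continuous_v
    exact (isOpen_lt continuous_const hc).inter (isOpen_lt hc continuous_const)
  refine ContinuousOn.continuousAt ?_ (ho.mem_nhds h)
  refine continuousOn_tsum (fun ν => Continuous.continuousOn ?_) hu fun ν x hx => ?_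
  · refine (continuous_const.mul (continuous_ofReal.comp ?_)).mul
      ((C.continuous_ch ν).comp HS.continuous_z)
    exact (continuousOn_WW _).comp_continuous HS.continuous_v HS.v_pos
  · rw [norm_mul, norm_ch, mul_one]
    exact hb ν _ (mem_vb.2 fun j => ⟨(hx j).1.le, (hx j).2.le⟩)

include hs hτ in
theorem coef_ser {v : ι → ℝ} (hv : ∀ j, 0 < v j) {ν : K} (hν : ν ∈ Dual m) :
    ∫ z in C.cel hm, C.ser τ (C.pt z v) * conj (C.ch ν z) =
      C.vol hm * (τ ν * (WW (C.em ν) v : ℝ)) := by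
  obtain ⟨a, b, ha, h⟩ := C.exists_vb (C.pt 0 v)
  rw [C.pt_v _ hv] at h
  obtain ⟨u, hu, hb⟩ := C.exp_bound hm hs hτ ha b
  have hvb : v ∈ vb ι a b := mem_vb.2 fun j => ⟨(h j).1.le, (h j).2.le⟩
  have : Countable K := Countable.of_equiv _ (integralBasis K).equivFun.toEquiv.symm
  have h1 := hasSum_integral_of_summable_integral_norm
    (μ := (volume : Measure (ι → ℂ)).restrict (C.cel hm))
    (F := fun (μ : K) z => τ μ * (WW (C.em μ) v : ℝ) * (C.ch μ z * conj (C.ch ν z)))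
    (fun μ => ?_) ?_
  · have h2 : HasSum (fun μ : K => ∫ z in C.cel hm,
        τ μ * (WW (C.em μ) v : ℝ) * (C.ch μ z * conj (C.ch ν z)))
        (C.vol hm * (τ ν * (WW (C.em ν) v : ℝ))) := by
      have h3 := hasSum_single (f := fun μ : K => ∫ z in C.cel hm,
        τ μ * (WW (C.em μ) v : ℝ) * (C.ch μ z * conj (C.ch ν z))) ν fun μ hμ => by
          rw [integral_const_mul]
          by_cases h0 : τ μ = 0
          · rw [h0, zero_mul, zero_mul]
          · rw [C.orth2 hm (hs μ h0) hν hμ, mul_zero]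
      rwa [integral_const_mul, C.orth1 hm, mul_comm] at h3
    rw [← h1.unique h2]
    refine integral_congr_ae (Eventually.of_forall fun z => ?_)
    simp only []
    rw [ser, ← tsum_mul_right, pt_z, C.pt_v _ hv]
    simp only [mul_assoc]
  · refine Integrable.of_bound (Continuous.aestronglyMeasurable (by fun_prop)) (u μ)
      (Eventually.of_forall fun z => ?_)
    rw [norm_mul, norm_mul (C.ch μ z), norm_conj, norm_ch, norm_ch, mul_one, mul_one]
    exact hb μ v hvb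
  · refine Summable.of_nonneg_of_le (fun μ => integral_nonneg fun _ => norm_nonneg _)
      (fun μ => ?_) (hu.mul_left (C.vol hm))
    simp only [norm_mul (τ μ * _), norm_mul (C.ch μ _), norm_conj, norm_ch, mul_one,
      integral_const, smul_eq_mul, measureReal_restrict_apply_univ]
    exact mul_le_mul_of_nonneg_left (hb μ v hvb) (C.vol_pos hm).le

end CM

end Vale.Agent.P016Z.TH
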