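import Vale.Agent.P016Z.TH.RelDefs
import Vale.Agent.P016Z.TH.GramA
import Vale.Agent.P016Z.TH.LimA
import Vale.Agent.P016Z.TH.Row1
import Vale.Agent.P016Z.TH.Cnt

/-!
P016, block THETA: uniqueness and transport of the limit functions, and non-vanishing of a residue
at a non-zero frequency.
-/

namespace Vale.Agent.P016Z.TH

open NumberField MeasureTheory Filter Topology Complex
open Vale.Agent.P006
open scoped ENNReal ComplexConjugate

set_option linter.unusedSectionVars false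

variable {K : Type} [Field K] [NumberField K] [Dat K]

namespace Nz

theorem eq_of_n2 (h4 : CNT4 K) {θ θ' : HK K → ℂ} (h : Continuous θ) (h' : Continuous θ')
    (h0 : ∀ A : Set (HK K), IsCompact A → n2 A (fun w => θ w - θ' w) = 0) : θ = θ' := by
  funext w
  have hv := HS.v_pos w
  let U : Set (HK K) := HS.z ⁻¹' Metric.ball 0 (‖HS.z w‖ + 1) ∩
    ⋂ j, (fun x => HS.v x j) ⁻¹' Set.Ioo (HS.v w j / 2) (2 * HS.v w j)
  have hU : IsOpen U := (Metric.isOpen_ball.preimage HS.continuous_z).inter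
    (isOpen_iInter_of_finite fun j =>
      isOpen_Ioo.preimage ((continuous_apply j).comp HS.continuous_v))
  have hw : w ∈ U := ⟨mem_ball_zero_iff.2 (by linarith), Set.mem_iInter.2 fun j =>
    ⟨by linarith [hv j], by linarith [hv j]⟩⟩
  have hsub : U ⊆ Box (‖HS.z w‖ + 1) (fun j => HS.v w j / 2) (fun j => 2 * HS.v w j) :=
    fun x hx => ⟨(mem_ball_zero_iff.1 hx.1).le, fun j =>
      ⟨(Set.mem_iInter.1 hx.2 j).1.le, (Set.mem_iInter.1 hx.2 j).2.le⟩⟩
  have h1 := h0 _ (h4.2.1 (‖HS.z w‖ + 1) (fun j => HS.v w j / 2) (fun j => 2 * HS.v w j)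
    fun j => half_pos (hv j))
  replace h1 := (lintegral_eq_zero_iff ((h.sub h').measurable.enorm.pow_const 2)).1 h1
  have h2 : θ =ᵐ[(cmK K).mu.restrict U] θ' := by
    filter_upwards [ae_restrict_of_ae_restrict_of_subset hsub h1] with x hx
    simpa [sub_eq_zero] using hx
  exact Measure.eqOn_open_of_ae_eq h2 hU h.continuousOn h'.continuousOn hw

theorem th_unique (hE : EIS K) (h4 : CNT4 K) {a : K → K → ℂ} {θ θ' : HK K → ℂ} (h : IsTh a θ)
    (h' : IsTh a θ') : θ = θ' := by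
  obtain ⟨k, h1, h2⟩ := (h.2.and h'.2).exists
  refine eq_of_n2 h4 h.1 h'.1 fun A hA => le_antisymm ?_ bot_le
  have hF : ∀ X, Measurable (F k a X) := fun X => (hE.1 k a X).const_mul _
  have h3 := (ENNReal.Tendsto.const_mul (a := 2) (h2 A hA) (Or.inr (by simp))).add
    (ENNReal.Tendsto.const_mul (a := 2) (h1 A hA) (Or.inr (by simp)))
  rw [mul_zero, add_zero] at h3
  refine ge_of_tendsto' h3 fun X => ?_
  have h5 := lintegral_add_sq_le (μ := (cmK K).mu.restrict A) ((hF X).sub h'.1.measurable)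
    ((hF X).sub h.1.measurable).neg
  simp only [Pi.neg_apply, Pi.sub_apply, enorm_neg] at h5
  refine le_trans (le_of_eq ?_) h5
  unfold n2
  congr 1
  funext w
  congr 2
  ring

theorem n2_smul (g : SL2 K) (A : Set (HK K)) (f : HK K → ℂ) :
    n2 A (fun w => f (g • w)) = n2 ((fun w => g • w) '' A) f :=
  ((cmK K).measurePreserving_smul' g).setLIntegral_comp_emb (measurableEmbedding_const_smul g)
    (fun w => ‖f w‖ₑ ^ 2) A

theorem th_act (hE : EIS K) {a : K → K → ℂ} {θ : HK K → ℂ} (g : SL2 K) (h : IsTh a θ) :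
    IsTh (act a g⁻¹) fun w => θ (g • w) := by
  refine ⟨h.1.comp (continuous_const_smul g), h.2.mono fun k hk A hA => ?_⟩
  refine (hk _ (hA.image (continuous_const_smul g))).congr fun X => ?_
  rw [← n2_smul]
  congr 1
  funext w
  simp only [F, hE.2.1, inv_inv]

theorem th_smul {a : K → K → ℂ} {θ : HK K → ℂ} (z : ℂ) (h : IsTh a θ) :
    IsTh (z • a) fun w => z * θ w := by
  refine ⟨continuous_const.mul h.1, h.2.mono fun k hk A hA => ?_⟩
  have h1 := ENNReal.Tendsto.const_mul (a := ‖z‖ₑ ^ 2) (hk A hA) (Or.inr (by simp))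
  rw [mul_zero] at h1
  refine h1.congr fun X => ?_
  unfold n2
  rw [← lintegral_const_mul' _ _ (by simp)]
  congr 1
  funext w
  have e : Es k (z • a) X w = z * Es k a X w := by
    unfold Es
    rw [← tsum_mul_left]
    simp only [Pi.smul_apply, smul_eq_mul, mul_assoc]
  rw [← mul_pow, ← enorm_mul]
  congr 2
  simp only [F, e]
  ring

/-- the trivial kernel -/
noncomputable def ker1 : Ker where
  Om := Unit
  ms := inferInstance
  mu := Measure.dirac ()
  sf := inferInstance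
  P _ := 1
  w _ := 1
  P_meas := measurable_const
  w_meas := measurable_const
  P_pos _ := one_pos
  int1 := integrable_const _
  int2 := integrable_const _

theorem ker1_hat : ker1.hat = 1 := by
  show ∫ _ : Unit, ((((1 : ℝ) ^ (-(4 / 3) : ℝ) : ℝ) : ℂ) * 1) ∂Measure.dirac () = 1
  simp

open Classical in
/-- the indicator of the basic congruence conditions at the primes dividing `Q` -/
noncomputable def phi0 (K : Type) [Field K] [NumberField K] [Dat K] (k : ℕ) : K → K → ℂ :=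
  fun c d => if c / lv K k ∈ Si K ∧ (d - 1) / lv K k ∈ Si K then 1 else 0

theorem fam_phi0 (k : ℕ) : Fam k (phi0 K k) := by
  refine ⟨⟨1, fun c d => ?_⟩, fun c d h => ?_, fun c d s t hs ht => ?_⟩
  · unfold phi0; split_ifs <;> simp
  · have h1 : c / lv K k ∈ Si K ∧ (d - 1) / lv K k ∈ Si K := by
      by_contra h2; exact h (if_neg h2)
    have hl := lv_ne (K := K) k
    have hc : c ∈ Si K := by
      have := mul_mem (Rw.lv_Si k) h1.1
      rwa [mul_div_cancel₀ _ hl] at this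
    have hd : d ∈ Si K := by
      have := add_mem (mul_mem (Rw.lv_Si k) h1.2) (one_mem _)
      rwa [mul_div_cancel₀ _ hl, sub_add_cancel] at this
    exact ⟨mul_mem (Rw.lv_Si k) hc, mul_mem (Rw.lv_Si k) hd, (Rw.inv_Si h1.2).2,
      by rw [div_eq_mul_inv]; exact mul_mem (Rw.lv_Si k) (Rw.inv_Si h1.2).1⟩
  · have e : ((c + s) / lv K k ∈ Si K ∧ (d + t - 1) / lv K k ∈ Si K) =
        (c / lv K k ∈ Si K ∧ (d - 1) / lv K k ∈ Si K) := by
      rw [add_div, show (d + t - 1) / lv K k = (d - 1) / lv K k + t / lv K k by ring]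
      have a : ∀ x y : K, y ∈ Si K → (x + y ∈ Si K ↔ x ∈ Si K) := fun x y hy =>
        ⟨fun h => by simpa using sub_mem h hy, fun h => add_mem h hy⟩
      rw [a _ _ hs, a _ _ ht]
    unfold phi0
    by_cases h : c / lv K k ∈ Si K ∧ (d - 1) / lv K k ∈ Si K
    · rw [if_pos h, if_pos (e ▸ h)]
    · rw [if_neg h, if_neg (e ▸ h)]

theorem a0_eq (S : Sy K) (k : ℕ) : S.a0 k = S.ap (phi0 K k) := by
  funext c d
  unfold Sy.a0 Sy.ap phi0
  by_cases h : Cop c d
  · by_cases h1 : c ∈ Lat (lv K k) ∧ d - 1 ∈ Lat (lv K k)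
    · rw [if_pos h1, if_pos ⟨Rw.Lat_Si h1.1, Rw.Lat_Si h1.2⟩, mul_one]
    · rw [if_neg h1, if_neg fun h2 => h1 ⟨Rw.Lat_of h.1 h2.1,
        Rw.Lat_of (sub_mem h.2.1 (one_mem _)) h2.2⟩, mul_zero]
  · rw [S.s_zero c d h, ite_self, zero_mul]

theorem per_a0 (S : Sy K) (hR : ROW1 S) {k : ℕ} (hk : 1 ≤ k) : Per (Lat (lv K k)) (S.a0 k) := by
  intro c d t ht
  have hg : KU.tr t ∈ Gam K k := by
    refine ⟨?_, ht, ?_, ?_⟩
    · rw [tr_00, sub_self]; exact zero_mem _
    · rw [tr_10]; exact zero_mem _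
    · rw [tr_11, sub_self]; exact zero_mem _
  have h := hR.2.2.1 k hk _ hg c d
  have h1 : S.kub (KU.tr t) = 1 :=
    Rw.s_unit S (x := 0) (u := 1) (zero_mem _) (one_mem _) (by rw [inv_one]; exact one_mem _)
      one_ne_zero
  rw [h1, one_mul] at h
  rw [← h]
  simp only [act, tr_00, tr_01, tr_10, tr_11, mul_one, mul_zero, add_zero, add_comm]

theorem kub_inv (S : Sy K) (hR : ROW1 S) {g : SL2 K} (hg : g ∈ Gam K 1) :
    S.kub g⁻¹ = conj (S.kub g) := by
  have h0 : ∀ g ∈ Gam K 1, S.kub g ≠ 0 := fun g hg h => by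
    have := hR.2.1 g hg
    rw [h, norm_zero] at this
    exact zero_ne_one this
  have h1 : S.kub 1 = 1 := by
    have := hR.1 1 (one_mem _) 1 (one_mem _)
    rw [mul_one] at this
    exact (mul_eq_left₀ (h0 1 (one_mem _))).1 this.symm
  have h2 := hR.1 g hg g⁻¹ (inv_mem hg)
  rw [mul_inv_cancel, h1] at h2
  rw [← Complex.inv_eq_conj (hR.2.1 g hg)]
  exact eq_inv_of_mul_eq_one_right h2.symm

end Nz

open Nz

theorem thu (hE : EIS K) (h4 : CNT4 K) : THU K :=
  ⟨fun _ _ _ _ h h' => th_unique hE h4 h h', fun _ _ g h => th_act hE g h,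
    fun _ _ z h => th_smul z h⟩

theorem isIntegral_of_Dual {k : ℕ} {ν : K} (h : ν ∈ Dual (lv K k)) :
    IsIntegral ℤ (lv K (k + 1) * ν) := by
  have h1 := Dat.dual (K := K) (lv K k * ν) fun o => by
    obtain ⟨n, hn⟩ := ee_eq_one_iff.1 (h (lv K k * o) (mul_mem_Lat_self o.2))
    refine ⟨n, ?_⟩
    rw [trR, show ν * (lv K k * o) = lv K k * ν * o by ring] at hn
    exact_mod_cast hn
  rwa [show lv K (k + 1) * ν = (Q K : K) * (lv K k * ν) by rw [lv, lv]; ring]

theorem mem_R_of_Dual {k : ℕ} {ν : K} (h : ν ∈ Dual (lv K k)) : ν ∈ R K :=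
  mem_R.2 ⟨k + 1 + 1, isIntegral_of_Dual h⟩

/-- automorphy of the limit function -/
theorem aut_of (S : Sy K) (hU : THU K) (hA : RESA K) (hR : ROW1 S) {a : K → K → ℂ}
    {θ : HK K → ℂ} (ha : Nice a) (hθ : IsTh a θ) {j : ℕ} (hj : 1 ≤ j)
    (h : ∀ g ∈ Gam K j, ∀ c d, act a g c d = S.kub g * a c d) {g : SL2 K} (hg : g ∈ Gam K j)
    (w : HK K) : θ (g • w) = conj (S.kub g) * θ w := by
  have h1 := hU.2.1 a θ g hθ
  have e : act a g⁻¹ = conj (S.kub g) • a := by
    funext c d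
    rw [h _ (inv_mem hg), kub_inv S hR (Rw.Gam_mono hj hg)]
    rfl
  rw [e] at h1
  exact congrFun (hU.1 _ _ _ (hA.2.2.2.2.2.2.1 a _ ha) h1 (hU.2.2 a θ _ hθ)) w

theorem hasRes_of_tendsto {S : ℝ → ℂ} (hS : Tame S) {C : ℝ}
    (hC : ∀ X, 0 < X → ‖S X‖ ≤ C * X ^ (4 / 3 : ℝ)) {b : ℂ}
    (hb : Tendsto (fun X : ℝ => ((X ^ (-(4 / 3) : ℝ) : ℝ) : ℂ) * S X) atTop (𝓝 b)) :
    HasRes S b :=
  ⟨hS, ker1, by rw [ker1_hat]; exact one_ne_zero, ker1.lim_of_tendsto hS.1 hC hb⟩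

theorem nz0 (S : Sy K) (hU : THU K) (hX : THX S) (hA : RESA K) (hR : ROW1 S) (hR2 : ROW2 S)
    (hM : MEAN S) (hF : FOUR K) : NZ0 S := by
  have hE : S.Eqv (S.a0 1) := by rw [a0_eq]; exact hR2.1 1 _ (fam_phi0 1)
  obtain ⟨hN, hk⟩ := hX _ hE
  obtain ⟨k, cv, τ, θ, hcv, hθ, hexp, -, hsupp, hres⟩ := hk.exists
  have hcv' : (cv : ℂ) ≠ 0 := ofReal_ne_zero.2 hcv.ne'
  obtain ⟨κ, hκ, C, hC, hlim, -⟩ := hM 1 le_rfl
  have hadm := hR.2.2.2.2 1 le_rfl
  have hper := per_a0 S hR le_rfl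
  have htame := (hF _ (lv_ne 1) _ (isCell_cel (lv_ne 1)) 1 _ hadm hper 0 (dual_zero _)).1
  have h0 := (hA.1 _ 1 0 κ hadm hper (dual_zero _) (hasRes_of_tendsto htame hC hlim)).unique
    (hres 0 (dual_zero _))
  have hτ0 : τ 0 ≠ 0 := by
    intro h
    rw [h, mul_zero, div_eq_zero_iff] at h0
    exact h0.elim (ofReal_ne_zero.2 hκ.ne') (nmC_ne (lv_ne 1))
  have hex : ∃ ν, ν ≠ 0 ∧ τ ν ≠ 0 := by
    by_contra hcon
    push Not at hcon
    have e : ∀ w, ‖θ w‖ = ‖τ 0‖ *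
        (SG.G 0 ^ Fintype.card (io K) * (∏ j, HS.v w j) ^ (2 / 3 : ℝ)) := by
      intro w
      have h1 := (hexp w).unique (hasSum_single 0 fun ν hν => by rw [hcon ν hν, zero_mul, zero_mul])
      rw [h1, norm_mul, norm_mul, CM.norm_ch, mul_one, map_zero, Complex.norm_real,
        Real.norm_of_nonneg (WW_pos _ (HS.v_pos w)).le, WW_zero _ (HS.v_pos w)]
    let γ : SL2 K := KU.mk2 1 0 (lv K 1) 1 (by ring)
    have hγ : γ ∈ Gam K 1 := by
      refine ⟨?_, zero_mem _, ?_, ?_⟩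
      · show (1 : K) - 1 ∈ _
        rw [sub_self]; exact zero_mem _
      · show IsIntegral ℤ (lv K 1 / lv K 1)
        rw [div_self (lv_ne 1)]; exact isIntegral_one
      · show (1 : K) - 1 ∈ _
        rw [sub_self]; exact zero_mem _
    let w : HK K := (cmK K).pt 0 fun _ => 1
    have hv : HS.v w = fun _ => 1 := (cmK K).pt_v 0 fun _ => one_pos
    have hz : HS.z w = 0 := (cmK K).pt_z _ _
    have h2 := congrArg norm (aut_of S hU hA hR hN hθ le_rfl (hR.2.2.1 1 le_rfl) hγ w)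
    rw [norm_mul, RCLike.norm_conj, hR.2.1 γ hγ, one_mul, e, e] at h2
    have h3 : 0 < SG.G 0 ^ Fintype.card (io K) := by
      have := WW_pos (0 : io K → ℂ) (v := fun _ => 1) fun _ => one_pos
      rw [WW_zero _ fun _ => one_pos] at this
      simpa using this
    have h4 := mul_left_cancel₀ h3.ne' (mul_left_cancel₀ (norm_ne_zero_iff.2 hτ0) h2)
    refine absurd h4 (ne_of_lt (Real.rpow_lt_rpow
      (Finset.prod_nonneg fun j _ => (HS.v_pos _ j).le) ?_ (by norm_num)))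
    refine Finset.prod_lt_prod_of_nonempty (fun j _ => HS.v_pos _ j) (fun j _ => ?_)
      Finset.univ_nonempty
    rw [(cmK K).v_smul, Cnt.Qv_def, hv, hz]
    show ((normSq ((cmK K).sig j (lv K 1) * 0 + (cmK K).sig j 1) +
      normSq ((cmK K).sig j (lv K 1)) * 1 ^ 2) / 1)⁻¹ < 1
    have h5 : 0 < normSq ((cmK K).sig j (lv K 1)) :=
      normSq_pos.2 ((map_ne_zero _).2 (lv_ne 1))
    refine inv_lt_one_of_one_lt₀ ?_
    simp [h5]
  obtain ⟨ν, hν, hτ⟩ := hex
  refine ⟨1, phi0 K 1, ⟨ν, mem_R_of_Dual (hsupp ν hτ)⟩, cv * τ ν, fam_phi0 1,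
    fun h => hν (congrArg Subtype.val h), mul_ne_zero hcv' hτ, ?_⟩
  rw [← a0_eq]
  exact hres ν (hsupp ν hτ)

end Vale.Agent.P016Z.TH
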