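import Vale.Agent.P016Z.TH.Defs

/-!
P016, block THETA: sums of periodic functions over the classes modulo a subgroup of `K`.
-/

namespace Vale.Agent.P016Z.TH

open NumberField Complex
open scoped ComplexConjugate

set_option linter.unusedSectionVars false

section generic

theorem finsum_prod_mul {α β : Type*} (g : α → ℂ) (h : β → ℂ) :
    ∑ᶠ p : α × β, g p.1 * h p.2 = (∑ᶠ a, g a) * ∑ᶠ b, h b := by
  by_cases hf : (Function.support fun p : α × β => g p.1 * h p.2).Finite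
  · rw [finsum_curry _ hf, finsum_mul]
    exact finsum_congr fun a => (mul_finsum h (g a)).symm
  · rw [finsum_of_infinite_support hf]
    by_cases hg : (Function.support g).Finite
    · by_cases hh : (Function.support h).Finite
      · refine (hf ((hg.prod hh).subset fun p hp => ?_)).elim
        exact ⟨left_ne_zero_of_mul hp, right_ne_zero_of_mul hp⟩
      · rw [finsum_of_infinite_support hh, mul_zero]
    · rw [finsum_of_infinite_support hg, zero_mul]

theorem finsum_one_eq_card (β : Type*) : ∑ᶠ _ : β, (1 : ℂ) = (Nat.card β : ℂ) := by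
  rcases finite_or_infinite β with h | h
  · have := Fintype.ofFinite β
    rw [finsum_eq_sum_of_fintype, Nat.card_eq_fintype_card]
    simp
  · rw [Nat.card_eq_zero_of_infinite, finsum_of_infinite_support, Nat.cast_zero]
    rw [Function.support_const one_ne_zero]
    exact Set.infinite_univ

end generic

variable {K : Type} [Field K] [NumberField K] [Dat K]

/-- periodic functions -/
def PerL (L : AddSubgroup K) (f : K → ℂ) : Prop := ∀ x, ∀ t ∈ L, f (x + t) = f x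

/-- finitely many classes contribute -/
def FinL (L : AddSubgroup K) (f : K → ℂ) : Prop :=
  (Function.support fun q : K ⧸ L => f q.out).Finite

section per

variable {L L' : AddSubgroup K} {f g : K → ℂ}

theorem out_sub_mem (L : AddSubgroup K) (x : K) : ((x : K ⧸ L)).out - x ∈ L := by
  have h : (((x : K ⧸ L)).out : K ⧸ L) = (x : K ⧸ L) := QuotientAddGroup.out_eq' _
  exact QuotientAddGroup.eq_iff_sub_mem.1 h

theorem PerL.of_sub (hf : PerL L f) {x y : K} (h : x - y ∈ L) : f x = f y := by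
  rw [← hf y _ h, add_sub_cancel]

theorem PerL.out (hf : PerL L f) (x : K) : f ((x : K ⧸ L)).out = f x :=
  hf.of_sub (out_sub_mem L x)

theorem PerL.mono (hf : PerL L f) (h : L' ≤ L) : PerL L' f := fun x t ht => hf x t (h ht)

theorem perL_const (L : AddSubgroup K) (c : ℂ) : PerL L fun _ => c := fun _ _ _ => rfl

theorem PerL.mul (hf : PerL L f) (hg : PerL L g) : PerL L fun x => f x * g x := fun x t ht => by
  simp only [hf x t ht, hg x t ht]

theorem PerL.add (hf : PerL L f) (hg : PerL L g) : PerL L fun x => f x + g x := fun x t ht => by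
  simp only [hf x t ht, hg x t ht]

theorem PerL.sub (hf : PerL L f) (hg : PerL L g) : PerL L fun x => f x - g x := fun x t ht => by
  simp only [hf x t ht, hg x t ht]

theorem PerL.const_mul (hf : PerL L f) (c : ℂ) : PerL L fun x => c * f x :=
  (perL_const L c).mul hf

theorem PerL.conj (hf : PerL L f) : PerL L fun x => conj (f x) := fun x t ht => by
  simp only [hf x t ht]

theorem PerL.comp_add (hf : PerL L f) (t₀ : K) : PerL L fun x => f (x + t₀) := fun x t ht => by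
  simp only [add_right_comm x t t₀, hf _ t ht]

theorem PerL.comp_mul (hf : PerL L f) {x : K} (h : ∀ t ∈ L', x * t ∈ L) :
    PerL L' fun t => f (x * t) := fun y t ht => by
  simp only [mul_add, hf _ _ (h t ht)]

theorem PerL.sup (hf : PerL L f) (hg : PerL L' f) : PerL (L ⊔ L') f := by
  intro x t ht
  obtain ⟨a, ha, b, hb, rfl⟩ := AddSubgroup.mem_sup.1 ht
  rw [← add_assoc, hg _ _ hb, hf _ _ ha]

theorem FinL.mul_right (hf : FinL L f) (g : K → ℂ) : FinL L fun x => f x * g x :=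
  hf.subset fun _ hq => left_ne_zero_of_mul hq

theorem FinL.mul_left (hf : FinL L f) (g : K → ℂ) : FinL L fun x => g x * f x :=
  hf.subset fun _ hq => right_ne_zero_of_mul hq

theorem FinL.of_supp (hf : FinL L f) (h : ∀ x, g x ≠ 0 → f x ≠ 0) : FinL L g :=
  hf.subset fun _ hq => h _ hq

theorem FinL.add (hf : FinL L f) (hg : FinL L g) : FinL L fun x => f x + g x :=
  (hf.union hg).subset (Function.support_add _ _)

/-- the classes modulo `L` contained in `L₀` -/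
theorem range_emb {L L₀ : AddSubgroup K} (h : L ≤ L₀) :
    ∃ e : L₀ ⧸ L.addSubgroupOf L₀ → K ⧸ L, Function.Injective e ∧
      (∀ y : L₀, e (y : L₀ ⧸ L.addSubgroupOf L₀) = ((y : K) : K ⧸ L)) ∧
      ∀ q : K ⧸ L, q ∈ Set.range e ↔ q.out ∈ L₀ := by
  have hk : ∀ y : L₀, y ∈ L.addSubgroupOf L₀ → (QuotientAddGroup.mk' L).comp L₀.subtype y = 0 :=
    fun y hy => (QuotientAddGroup.eq_zero_iff _).2 hy
  refine ⟨QuotientAddGroup.lift _ _ hk, ?_, fun y => rfl, fun q => ⟨?_, fun hq => ?_⟩⟩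
  · rw [injective_iff_map_eq_zero]
    intro a ha
    obtain ⟨y, rfl⟩ := QuotientAddGroup.mk_surjective a
    exact (QuotientAddGroup.eq_zero_iff _).2 ((QuotientAddGroup.eq_zero_iff (y : K)).1 ha)
  · rintro ⟨a, rfl⟩
    obtain ⟨y, rfl⟩ := QuotientAddGroup.mk_surjective a
    have h1 := add_mem (h (out_sub_mem L (y : K))) y.2
    rwa [sub_add_cancel] at h1
  · exact ⟨((⟨q.out, hq⟩ : L₀) : L₀ ⧸ L.addSubgroupOf L₀), QuotientAddGroup.out_eq' q⟩

theorem finL_of_supp {L L₀ : AddSubgroup K} (h : L ≤ L₀) (hi : L.relIndex L₀ ≠ 0)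
    (hs : ∀ x, f x ≠ 0 → x ∈ L₀) : FinL L f := by
  obtain ⟨e, -, -, he⟩ := range_emb h
  have : Finite (L₀ ⧸ L.addSubgroupOf L₀) := Nat.finite_of_card_ne_zero hi
  exact (Set.finite_range e).subset fun q hq => (he q).2 (hs _ hq)

/-- the sum as a sum over the classes in a subgroup containing the support -/
theorem qs_eq_of_supp {L L₀ : AddSubgroup K} (h : L ≤ L₀) (hf : PerL L f)
    (hs : ∀ x, f x ≠ 0 → x ∈ L₀) :
    qs L f = ∑ᶠ a : L₀ ⧸ L.addSubgroupOf L₀, f (a.out : L₀) := by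
  obtain ⟨e, hi, h1, he⟩ := range_emb h
  rw [qs, ← finsum_mem_support, finsum_mem_inter_support_eq' _ _ (Set.range e), finsum_mem_range hi]
  · refine finsum_congr fun a => ?_
    conv_lhs => rw [← QuotientAddGroup.out_eq' a, h1, hf.out]
  · intro q hq
    exact ⟨fun _ => (he q).2 (hs _ hq), fun _ => hq⟩

theorem norm_qs_le {L L₀ : AddSubgroup K} (h : L ≤ L₀) (hi : L.relIndex L₀ ≠ 0)
    (hs : ∀ x, f x ≠ 0 → x ∈ L₀) {B : ℝ} (hB : ∀ x, ‖f x‖ ≤ B) :
    ‖qs L f‖ ≤ L.relIndex L₀ * B := by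
  obtain ⟨e, he0, -, he⟩ := range_emb h
  have : Finite (L₀ ⧸ L.addSubgroupOf L₀) := Nat.finite_of_card_ne_zero hi
  have := Fintype.ofFinite (L₀ ⧸ L.addSubgroupOf L₀)
  have h1 : qs L f = ∑ a, f (e a).out := by
    rw [qs, ← finsum_mem_support, finsum_mem_inter_support_eq' _ _ (Set.range e),
      finsum_mem_range he0, finsum_eq_sum_of_fintype]
    intro q hq
    exact ⟨fun _ => (he q).2 (hs _ hq), fun _ => hq⟩
  rw [h1, AddSubgroup.relIndex, AddSubgroup.index, Nat.card_eq_fintype_card, ← Finset.card_univ,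
    ← nsmul_eq_mul]
  exact (norm_sum_le _ _).trans (Finset.sum_le_card_nsmul _ _ _ fun x _ => hB _)

theorem qs_congr (h : ∀ x, f x = g x) : qs L f = qs L g := by
  rw [show f = g from funext h]

theorem qs_zero_fun (L : AddSubgroup K) : qs L (fun _ => 0) = 0 := finsum_zero

theorem qs_eq_zero (h : ∀ x, f x = 0) : qs L f = 0 := (qs_congr h).trans (qs_zero_fun L)

theorem qs_const_mul (L : AddSubgroup K) (c : ℂ) (f : K → ℂ) :
    qs L (fun x => c * f x) = c * qs L f := by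
  rw [qs, qs, mul_finsum]

theorem qs_mul_const (L : AddSubgroup K) (c : ℂ) (f : K → ℂ) :
    qs L (fun x => f x * c) = qs L f * c := by
  rw [qs, qs, finsum_mul]

theorem qs_conj (L : AddSubgroup K) (f : K → ℂ) :
    qs L (fun x => conj (f x)) = conj (qs L f) :=
  ((starRingEnd ℂ).toAddMonoidHom.map_finsum_of_injective (RingHom.injective _) _).symm

theorem qs_add (hf : FinL L f) (hg : FinL L g) :
    qs L (fun x => f x + g x) = qs L f + qs L g :=
  finsum_add_distrib hf hg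

theorem qs_sub (hf : FinL L f) (hg : FinL L g) :
    qs L (fun x => f x - g x) = qs L f - qs L g :=
  finsum_sub_distrib hf hg

theorem qs_sum {β : Type*} (s : Finset β) {h : β → K → ℂ} (hh : ∀ i ∈ s, FinL L (h i)) :
    qs L (fun x => ∑ i ∈ s, h i x) = ∑ i ∈ s, qs L (h i) :=
  finsum_sum_comm s (fun (q : K ⧸ L) i => h i q.out) hh

/-- change of variables -/
theorem qs_equiv (hf : PerL L f) (e : K → K) (he : Function.Surjective e)
    (hL : ∀ x y, x - y ∈ L' ↔ e x - e y ∈ L) : qs L' (fun x => f (e x)) = qs L f := by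
  refine finsum_eq_of_bijective (fun q : K ⧸ L' => (e q.out : K ⧸ L)) ⟨?_, ?_⟩ fun q => ?_
  · intro q q' h
    rw [← QuotientAddGroup.out_eq' q, ← QuotientAddGroup.out_eq' q',
      QuotientAddGroup.eq_iff_sub_mem, hL]
    exact QuotientAddGroup.eq_iff_sub_mem.1 h
  · intro q
    obtain ⟨x, hx⟩ := he q.out
    refine ⟨(x : K ⧸ L'), ?_⟩
    rw [← QuotientAddGroup.out_eq' q, ← hx]
    exact QuotientAddGroup.eq_iff_sub_mem.2 ((hL _ _).1 (out_sub_mem L' x))
  · exact (hf.out _).symm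

theorem qs_shift (hf : PerL L f) (t₀ : K) : qs L (fun x => f (x + t₀)) = qs L f :=
  qs_equiv hf (fun x => x + t₀) (add_right_surjective t₀) fun x y => by
    rw [add_sub_add_right_eq_sub]

theorem qs_neg (hf : PerL L f) : qs L (fun x => f (-x)) = qs L f :=
  qs_equiv hf (fun x => -x) neg_surjective fun x y => by
    rw [neg_sub_neg, ← neg_sub, neg_mem_iff]

/-- the substitution `t ↦ x t` -/
theorem qs_mul (hf : PerL L f) {x : K} (hx : x ≠ 0) (hL : ∀ t, t ∈ L' ↔ x * t ∈ L) :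
    qs L' (fun t => f (x * t)) = qs L f :=
  qs_equiv hf (fun t => x * t) (mul_left_surjective₀ hx) fun s t => by rw [← mul_sub, hL]

theorem qs_zero (hf : PerL L f) {t₀ : K} {z : ℂ} (h : ∀ x, f (x + t₀) = z * f x) (hz : z ≠ 1) :
    qs L f = 0 := by
  have h1 := qs_shift hf t₀
  rw [qs_congr h, qs_const_mul] at h1
  by_contra hne
  exact hz (mul_right_cancel₀ hne (h1.trans (one_mul _).symm))

theorem qs_zero_mul (hf : PerL L f) {u : K} (hu : u ≠ 0) (hL : ∀ t, t ∈ L ↔ u * t ∈ L) {z : ℂ}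
    (h : ∀ x, f (u * x) = z * f x) (hz : z ≠ 1) : qs L f = 0 := by
  have h1 := qs_mul hf hu hL
  rw [qs_congr h, qs_const_mul] at h1
  by_contra hne
  exact hz (mul_right_cancel₀ hne (h1.trans (one_mul _).symm))

/-- passage to a smaller subgroup -/
theorem qs_index (h : L' ≤ L) (hf : PerL L f) : qs L' f = (L'.relIndex L : ℂ) * qs L f := by
  have h1 := finsum_prod_mul (fun q : K ⧸ L => f q.out) (fun _ : L ⧸ L'.addSubgroupOf L => 1)
  rw [finsum_one_eq_card] at h1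
  rw [mul_comm, qs, qs, AddSubgroup.relIndex, AddSubgroup.index, ← h1]
  refine finsum_eq_of_bijective (AddSubgroup.quotientEquivProdOfLE h)
    (AddSubgroup.quotientEquivProdOfLE h).bijective fun q => ?_
  obtain ⟨x, rfl⟩ := QuotientAddGroup.mk_surjective q
  rw [mul_one, (hf.mono h).out]
  exact (hf.out x).symm

/-- the Chinese remainder theorem -/
theorem qs_crt {L₁ L₂ : AddSubgroup K} (h : L₁ ⊔ L₂ = ⊤) {f₁ f₂ : K → ℂ} (h₁ : PerL L₁ f₁)
    (h₂ : PerL L₂ f₂) : qs (L₁ ⊓ L₂) (fun x => f₁ x * f₂ x) = qs L₁ f₁ * qs L₂ f₂ := by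
  rw [qs, qs, qs, ← finsum_prod_mul]
  refine finsum_eq_of_bijective
    (fun q : K ⧸ (L₁ ⊓ L₂) => ((q.out : K ⧸ L₁), (q.out : K ⧸ L₂))) ⟨?_, ?_⟩ fun q => ?_
  · intro q q' hq
    rw [← QuotientAddGroup.out_eq' q, ← QuotientAddGroup.out_eq' q',
      QuotientAddGroup.eq_iff_sub_mem]
    exact ⟨QuotientAddGroup.eq_iff_sub_mem.1 (congrArg Prod.fst hq),
      QuotientAddGroup.eq_iff_sub_mem.1 (congrArg Prod.snd hq)⟩
  · rintro ⟨a, b⟩
    obtain ⟨a, rfl⟩ := QuotientAddGroup.mk_surjective a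
    obtain ⟨b, rfl⟩ := QuotientAddGroup.mk_surjective b
    have h3 : b - a ∈ L₁ ⊔ L₂ := h ▸ AddSubgroup.mem_top _
    obtain ⟨s, hs, t, ht, hst⟩ := AddSubgroup.mem_sup.1 h3
    have h4 := out_sub_mem (L₁ ⊓ L₂) (a + s)
    refine ⟨((a + s : K) : K ⧸ (L₁ ⊓ L₂)), Prod.ext ?_ ?_⟩
    · refine QuotientAddGroup.eq_iff_sub_mem.2 ?_
      have := add_mem (AddSubgroup.mem_inf.1 h4).1 hs
      rwa [show ∀ y : K, y - (a + s) + s = y - a from fun y => by ring] at this
    · refine QuotientAddGroup.eq_iff_sub_mem.2 ?_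
      have := sub_mem (AddSubgroup.mem_inf.1 h4).2 ht
      rwa [show ∀ y : K, y - (a + s) - t = y - b from fun y => by
        linear_combination -hst] at this
  · simp only [h₁.out, h₂.out]

open Classical in
theorem qs_indicator {L L₀ : AddSubgroup K} (h : L ≤ L₀) :
    qs L (fun x => if x ∈ L₀ then 1 else 0) = L.relIndex L₀ := by
  rw [qs_eq_of_supp h, AddSubgroup.relIndex, AddSubgroup.index, ← finsum_one_eq_card]
  · exact finsum_congr fun a => if_pos (a.out).2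
  · intro x t ht
    simp only [add_mem_cancel_right (h ht)]
  · intro x hx
    by_contra hn
    exact hx (if_neg hn)

end per

/-! ### the lattices -/

section lat

variable {A : Subalgebra (𝓞 K) K}

theorem Lat_eq_inf (m : K) : Lat m = Scl (R K) m ⊓ Scl (Si K) m := by
  ext x
  exact ⟨fun h => ⟨mem_R_of_isIntegral h, mem_Si_of_isIntegral h⟩,
    fun h => isIntegral_of_mem h.1 h.2⟩

theorem mem_Scl_one {x : K} : x ∈ Scl A 1 ↔ x ∈ A := by rw [mem_Scl, div_one]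

theorem mem_Lat_one {x : K} : x ∈ Lat (1 : K) ↔ IsIntegral ℤ x := by rw [mem_Lat, div_one]

theorem mul_mem_Scl {m x y : K} (hx : x ∈ A) (hy : y ∈ Scl A m) : x * y ∈ Scl A m := by
  rw [mem_Scl, mul_div_assoc]; exact mul_mem hx hy

theorem mul_mem_Scl_self {m x : K} (hx : x ∈ A) : m * x ∈ Scl A m := by
  rw [mem_Scl]
  by_cases hm : m = 0
  · rw [hm, div_zero]; exact zero_mem _
  · rwa [mul_div_cancel_left₀ _ hm]

theorem mul_mem_Lat_self {m x : K} (hx : IsIntegral ℤ x) : m * x ∈ Lat m := by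
  rw [mem_Lat]
  by_cases hm : m = 0
  · rw [hm, div_zero]; exact isIntegral_zero
  · rwa [mul_div_cancel_left₀ _ hm]

theorem mem_Scl_div {m x t : K} : t ∈ Scl A (m / x) ↔ x * t ∈ Scl A m := by
  rw [mem_Scl, mem_Scl, div_div_eq_mul_div, mul_comm]

theorem mem_Lat_div {m x t : K} : t ∈ Lat (m / x) ↔ x * t ∈ Lat m := by
  rw [mem_Lat, mem_Lat, div_div_eq_mul_div, mul_comm]

theorem mem_Scl_mul {m x t : K} (hx : x ≠ 0) : t ∈ Scl A m ↔ x * t ∈ Scl A (x * m) := by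
  rw [mem_Scl, mem_Scl, mul_div_mul_left _ _ hx]

theorem mem_Lat_mul {m x t : K} (hx : x ≠ 0) : t ∈ Lat m ↔ x * t ∈ Lat (x * m) := by
  rw [mem_Lat, mem_Lat, mul_div_mul_left _ _ hx]

theorem Scl_le {m m' : K} (hm' : m' ≠ 0) (h : m' / m ∈ A) : Scl A m' ≤ Scl A m := by
  intro x hx
  rw [mem_Scl, show x / m = m' / m * (x / m') by field_simp]
  exact mul_mem h hx

theorem Lat_le {m m' : K} (hm' : m' ≠ 0) (h : IsIntegral ℤ (m' / m)) : Lat m' ≤ Lat m := by
  intro x hx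
  rw [mem_Lat, show x / m = m' / m * (x / m') by field_simp]
  exact h.mul hx

theorem Scl_mul_le {m x : K} (hx : x ∈ A) (hx0 : x ≠ 0) : Scl A (m * x) ≤ Scl A m := by
  intro t ht
  rw [mem_Scl, show t / m = x * (t / (m * x)) by field_simp]
  exact mul_mem hx ht

theorem Lat_mul_le {m x : K} (hx : IsIntegral ℤ x) (hx0 : x ≠ 0) : Lat (m * x) ≤ Lat m := by
  intro t ht
  rw [mem_Lat, show t / m = x * (t / (m * x)) by field_simp]
  exact hx.mul ht

theorem Scl_mul_unit {m u : K} (hu : u ∈ A) (hu' : u⁻¹ ∈ A) (hu0 : u ≠ 0) :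
    Scl A (m * u) = Scl A m := by
  refine le_antisymm (Scl_mul_le hu hu0) ?_
  have := Scl_mul_le (m := m * u) hu' (inv_ne_zero hu0)
  rwa [mul_inv_cancel_right₀ hu0] at this

theorem lv_mem_R (k : ℕ) : lv K k ∈ R K := mem_R_of_isIntegral (isIntegral_lv k)

theorem lv_mem_Si (k : ℕ) : lv K k ∈ Si K := mem_Si_of_isIntegral (isIntegral_lv k)

theorem inv_lv_mem_R (k : ℕ) : (lv K k)⁻¹ ∈ R K := by
  rw [lv, ← inv_pow]; exact pow_mem inv_Q_mem_R _

theorem Scl_R_mul_lv (m : K) (k : ℕ) : Scl (R K) (m * lv K k) = Scl (R K) m :=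
  Scl_mul_unit (lv_mem_R k) (inv_lv_mem_R k) (lv_ne k)

theorem Scl_R_lv_mul (m : K) (k : ℕ) : Scl (R K) (lv K k * m) = Scl (R K) m := by
  rw [mul_comm, Scl_R_mul_lv]

theorem Scl_R_lv (k : ℕ) : Scl (R K) (lv K k) = Scl (R K) 1 := by
  rw [← Scl_R_mul_lv 1 k, one_mul]

theorem lv_eq_mul {j k : ℕ} (h : j ≤ k) : lv K k = lv K j * (Q K : K) ^ (k - j) := by
  rw [lv, lv, ← pow_add]; congr 1; omega

theorem Lat_lv_le {j k : ℕ} (h : j ≤ k) : Lat (lv K k) ≤ Lat (lv K j) := by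
  rw [lv_eq_mul h]
  exact Lat_mul_le ((isIntegral_natCast _).pow _) (pow_ne_zero _ (QK_ne K))

theorem Scl_lv_le {j k : ℕ} (h : j ≤ k) : Scl A (lv K k) ≤ Scl A (lv K j) := by
  rw [lv_eq_mul h]
  exact Scl_mul_le (pow_mem (natCast_mem _ _) _) (pow_ne_zero _ (QK_ne K))

theorem Scl_sup {m m' : K} (hm : m ≠ 0) (hm' : m' ≠ 0) :
    Scl (R K) m ⊔ Scl (Si K) m' = ⊤ := by
  rw [eq_top_iff]
  intro x _
  obtain ⟨y, hy, h⟩ := exists_R_near (x / m) (div_ne_zero hm' hm)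
  refine AddSubgroup.mem_sup.2 ⟨m * y, mul_mem_Scl_self hy, x - m * y, ?_, by ring⟩
  rw [mem_Scl, show (x - m * y) / m' = -((y - x / m) / (m' / m)) by field_simp; ring]
  exact neg_mem h

theorem qs_scale {m x : K} (hx : x ≠ 0) {f : K → ℂ} (hf : PerL (Scl A m) f) :
    qs (Scl A m) f = qs (Scl A (m / x)) fun t => f (x * t) :=
  (qs_mul hf hx fun _ => mem_Scl_div).symm

theorem qs_scale_Lat {m x : K} (hx : x ≠ 0) {f : K → ℂ} (hf : PerL (Lat m) f) :
    qs (Lat m) f = qs (Lat (m / x)) fun t => f (x * t) :=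
  (qs_mul hf hx fun _ => mem_Lat_div).symm

theorem qs_scale' {m x : K} (hx : x ≠ 0) {f : K → ℂ} (hf : PerL (Scl A (x * m)) f) :
    qs (Scl A (x * m)) f = qs (Scl A m) fun t => f (x * t) :=
  (qs_mul hf hx fun _ => mem_Scl_mul hx).symm

theorem qs_scale_Lat' {m x : K} (hx : x ≠ 0) {f : K → ℂ} (hf : PerL (Lat (x * m)) f) :
    qs (Lat (x * m)) f = qs (Lat m) fun t => f (x * t) :=
  (qs_mul hf hx fun _ => mem_Lat_mul hx).symm

/-- the factorisation of a sum modulo `m O` -/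
theorem qs_Lat_crt {m : K} (hm : m ≠ 0) {f₁ f₂ : K → ℂ} (h₁ : PerL (Scl (R K) m) f₁)
    (h₂ : PerL (Scl (Si K) m) f₂) :
    qs (Lat m) (fun x => f₁ x * f₂ x) = qs (Scl (R K) m) f₁ * qs (Scl (Si K) m) f₂ := by
  rw [Lat_eq_inf, qs_crt (Scl_sup hm hm) h₁ h₂]

theorem relIndex_aux {B : Type} [CommRing B] (φ : B →+* K) (hφ : Function.Injective φ) {m : K}
    (hm : m ≠ 0) {x : B} (hx : x ≠ 0) {L L' : AddSubgroup K}
    (hL : ∀ y, y ∈ L ↔ y / m ∈ φ.range) (hL' : ∀ y, y ∈ L' ↔ y / (m * φ x) ∈ φ.range) :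
    L'.relIndex L = Nq x := by
  have hx' : φ x ≠ 0 := fun h => hx (hφ (h.trans (map_zero φ).symm))
  let ψ : B →+ K := (AddMonoidHom.mulLeft m).comp φ.toAddMonoidHom
  have hψ : Function.Injective ψ := (mul_right_injective₀ hm).comp hφ
  have hψ' : ∀ b, ψ b = m * φ b := fun _ => rfl
  have h1 := AddSubgroup.relIndex_map_map_of_injective
    (Ideal.span ({x} : Set B)).toAddSubgroup ⊤ hψ
  have h2 : (Ideal.span ({x} : Set B)).toAddSubgroup.map ψ = L' := by
    ext y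
    rw [hL', AddSubgroup.mem_map]
    constructor
    · rintro ⟨b, hb, rfl⟩
      obtain ⟨t, rfl⟩ := Ideal.mem_span_singleton.1 hb
      exact ⟨t, by rw [hψ', map_mul]; field_simp⟩
    · rintro ⟨t, ht⟩
      exact ⟨x * t, Ideal.mem_span_singleton.2 (dvd_mul_right _ _), by
        rw [hψ', map_mul, ht]; field_simp⟩
  have h3 : (⊤ : AddSubgroup B).map ψ = L := by
    ext y
    rw [hL, AddSubgroup.mem_map]
    constructor
    · rintro ⟨b, -, rfl⟩
      exact ⟨b, by rw [hψ']; field_simp⟩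
    · rintro ⟨t, ht⟩
      exact ⟨t, trivial, by rw [hψ', ht]; field_simp⟩
  rw [h2, h3, AddSubgroup.relIndex_top_right] at h1
  exact h1

theorem relIndex_Scl {m : K} (hm : m ≠ 0) {x : A} (hx : x ≠ 0) :
    (Scl A (m * x)).relIndex (Scl A m) = Nq x := by
  have h : ∀ y : K, y ∈ A ↔ y ∈ (A.val : A →+* K).range := fun y =>
    ⟨fun h => ⟨⟨y, h⟩, rfl⟩, fun ⟨t, ht⟩ => ht ▸ t.2⟩
  exact relIndex_aux (A.val : A →+* K) Subtype.val_injective hm hx (fun y => h _) fun y => h _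

theorem relIndex_R {m : K} (hm : m ≠ 0) {x : R K} (hx : x ≠ 0) :
    (Scl (R K) (m * x)).relIndex (Scl (R K) m) = Nr x := relIndex_Scl hm hx

theorem relIndex_Si {m : K} (hm : m ≠ 0) {x : Si K} (hx : x ≠ 0) :
    (Scl (Si K) (m * x)).relIndex (Scl (Si K) m) = Ns x := relIndex_Scl hm hx

theorem relIndex_Lat {m x : K} (hm : m ≠ 0) (hx : IsIntegral ℤ x) (hx0 : x ≠ 0) :
    ((Lat (m * x)).relIndex (Lat m) : ℝ) = nm x := by
  have h : ∀ y : K, IsIntegral ℤ y ↔ y ∈ (algebraMap (𝓞 K) K).range := fun y =>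
    ⟨fun h => ⟨⟨y, h⟩, rfl⟩, fun ⟨t, ht⟩ => ht ▸ t.isIntegral_coe⟩
  have h0 : (⟨x, hx⟩ : 𝓞 K) ≠ 0 := fun h => hx0 (congrArg (fun t : 𝓞 K => (t : K)) h)
  have h1 := relIndex_aux (algebraMap (𝓞 K) K) RingOfIntegers.coe_injective hm h0
    (L := Lat m) (L' := Lat (m * x)) (fun y => h _) fun y => h _
  have h2 := nm_eq_absNorm (⟨x, hx⟩ : 𝓞 K)
  rw [h1]
  exact h2.symm

theorem relIndex_Lat_ne {m x : K} (hm : m ≠ 0) (hx : IsIntegral ℤ x) (hx0 : x ≠ 0) :
    (Lat (m * x)).relIndex (Lat m) ≠ 0 := by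
  intro h
  have h1 := relIndex_Lat hm hx hx0
  rw [h, Nat.cast_zero] at h1
  exact ((cmK K).nm_pos hx0).ne h1

theorem Ns_ne_zero {n : Si K} (hn : n ≠ 0) : Ns n ≠ 0 := by
  obtain ⟨m, hm, h⟩ := n.2
  have hm0 : (m : K) ≠ 0 := by exact_mod_cast ne_zero_of_coprime hm
  have hn0 : (n : K) ≠ 0 := fun h => hn (Subtype.ext h)
  have h0 : (⟨_, h⟩ : 𝓞 K) ≠ 0 := fun h' =>
    mul_ne_zero hm0 hn0 (congrArg (fun t : 𝓞 K => (t : K)) h')
  have h1 := nm_eq_mul h0
  have h2 : toSi (⟨_, h⟩ : 𝓞 K) = (m : Si K) * n := Subtype.ext (by push_cast; rfl)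
  rw [h2, Ns, Nq_mul] at h1
  intro h3
  rw [show Nq n = 0 from h3] at h1
  have h4 := (cmK K).nm_pos (mul_ne_zero hm0 hn0)
  simp only [mul_zero, Nat.cast_zero] at h1
  exact h4.ne' h1

theorem qs_Scl_mul {m : K} (hm : m ≠ 0) {x : A} (hx : x ≠ 0) {f : K → ℂ}
    (hf : PerL (Scl A m) f) : qs (Scl A (m * x)) f = (Nq x : ℂ) * qs (Scl A m) f := by
  rw [qs_index (Scl_mul_le x.2 fun h => hx (Subtype.ext h)) hf, relIndex_Scl hm hx]

theorem qs_Lat_mul {m x : K} (hm : m ≠ 0) (hx : IsIntegral ℤ x) (hx0 : x ≠ 0) {f : K → ℂ}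
    (hf : PerL (Lat m) f) : qs (Lat (m * x)) f = (nm x : ℂ) * qs (Lat m) f := by
  rw [qs_index (Lat_mul_le hx hx0) hf, ← relIndex_Lat hm hx hx0, ofReal_natCast]

theorem nmC_ne {x : K} (hx : x ≠ 0) : (nm x : ℂ) ≠ 0 :=
  ofReal_ne_zero.2 ((cmK K).nm_pos hx).ne'

theorem NrC_ne {x : R K} (hx : x ≠ 0) : (Nr x : ℂ) ≠ 0 := Nat.cast_ne_zero.2 (Nr_ne_zero hx)

/-- the normalised sums do not depend on the lattice -/
theorem qs_Lat_div {m m' : K} (hm : m ≠ 0) (hm' : m' ≠ 0) {f : K → ℂ} (hf : PerL (Lat m) f)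
    (hf' : PerL (Lat m') f) : qs (Lat m') f / (nm m' : ℂ) = qs (Lat m) f / (nm m : ℂ) := by
  obtain ⟨d, hd, h⟩ := exists_den (m' / m)
  have hd0 : (d : K) ≠ 0 := by exact_mod_cast hd
  have h1 := qs_Lat_mul hm h (mul_ne_zero hd0 (div_ne_zero hm' hm)) hf
  have h2 := qs_Lat_mul hm' (isIntegral_natCast d) hd0 hf'
  rw [show m * (d * (m' / m)) = m' * d by field_simp, h2, nm, nm, (cmK K).nm_mul,
    (cmK K).nm_div] at h1
  have h3 := nmC_ne hd0
  have h4 := nmC_ne hm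
  have h5 := nmC_ne hm'
  push_cast at h1
  field_simp
  field_simp at h1
  linear_combination h1

/-- the generalised index of `x Si` in `Si` for `x ∈ R` -/
theorem qs_Si_mul_R {m : K} (hm : m ≠ 0) {x : R K} (hx : x ≠ 0) {f : K → ℂ}
    (hf : PerL (Scl (Si K) m) f) (hf' : PerL (Scl (Si K) (m * x)) f) :
    qs (Scl (Si K) (m * x)) f = (nm (x : K) : ℂ) / (Nr x : ℂ) * qs (Scl (Si K) m) f := by
  obtain ⟨i, hi⟩ := mem_R.1 x.2
  have hx' := coe_ne_zero hx
  have hQ : (Q K : K) ^ i ≠ 0 := pow_ne_zero _ (QK_ne K)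
  let x₀ : 𝓞 K := ⟨_, hi⟩
  let q : 𝓞 K := (Q K : 𝓞 K) ^ i
  have e₀ : (x₀ : K) = (Q K : K) ^ i * x := rfl
  have e₁ : (q : K) = (Q K : K) ^ i := by simp [q]
  have hx₀ : x₀ ≠ 0 := fun h => mul_ne_zero hQ hx' (congrArg (fun t : 𝓞 K => (t : K)) h)
  have hq : q ≠ 0 := fun h => hQ (by rw [← e₁, h]; rfl)
  have hS₀ : toSi x₀ ≠ 0 := fun h => mul_ne_zero hQ hx' (congrArg (fun t : Si K => (t : K)) h)
  have hS₁ : toSi q ≠ 0 := fun h => hQ (by rw [← e₁, ← coe_toSi, h]; rfl)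
  have h1 := qs_Scl_mul hm hS₀ hf
  have h2 := qs_Scl_mul (mul_ne_zero hm hx') hS₁ hf'
  rw [coe_toSi, e₀] at h1
  rw [coe_toSi, e₁, mul_assoc, mul_comm (x : K), h1] at h2
  have h3 := nm_eq_mul hx₀
  have h4 := nm_eq_mul hq
  have hu : IsUnit (toR q) := by
    have : toR q = (Q K : R K) ^ i := by simp [q]
    rw [this]; exact isUnit_Q.pow i
  have h5 : Nr (toR x₀) = Nr x := by
    have : toR x₀ = toR q * x := Subtype.ext (by
      change (x₀ : K) = (q : K) * x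
      rw [e₀, e₁])
    rw [this, Nr_mul, show Nr (toR q) = 1 from Nq_eq_one_iff.2 hu, one_mul]
  rw [show Nr (toR q) = 1 from Nq_eq_one_iff.2 hu, Nat.cast_one, one_mul] at h4
  rw [h5, e₀, ← e₁, (cmK K).nm_mul, h4] at h3
  have h6 := congrArg (fun t : ℝ => (t : ℂ)) h3
  push_cast at h6
  have h7 := NrC_ne hx
  have h8 : (Ns (toSi q) : ℂ) ≠ 0 := Nat.cast_ne_zero.2 (Ns_ne_zero hS₁)
  refine mul_left_cancel₀ h8 ?_
  rw [← h2]
  field_simp
  linear_combination (-qs (Scl (Si K) m) f) * h6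

/-- sums over classes as sums over a residue ring -/
theorem qs_eq_rsum {m : K} (hm : m ≠ 0) {c : A} (hc : c ≠ 0) {f : K → ℂ}
    (hf : PerL (Scl A (m * c)) f) (hs : ∀ x, f x ≠ 0 → x ∈ Scl A m) :
    qs (Scl A (m * c)) f = rsum c fun d => f (m * d) := by
  have hc' : (c : K) ≠ 0 := fun h => hc (Subtype.ext h)
  have key : ∀ a b : A, m * (a : K) - m * b ∈ Scl A (m * c) ↔ c ∣ a - b := by
    intro a b
    rw [mem_Scl, ← mul_sub, mul_div_mul_left _ _ hm]
    constructor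
    · intro h
      exact ⟨⟨_, h⟩, Subtype.ext (by push_cast; field_simp)⟩
    · rintro ⟨t, ht⟩
      have := congrArg (fun y : A => (y : K)) ht
      push_cast at this
      rw [this, mul_div_cancel_left₀ _ hc']
      exact t.2
  let e : Rs c → K ⧸ Scl A (m * c) := fun d => ((m * (d.out : A) : K) : K ⧸ Scl A (m * c))
  have he : Function.Injective e := by
    intro a b h
    rw [← rs_out a, ← rs_out b, rs_eq, ← key]
    exact QuotientAddGroup.eq_iff_sub_mem.1 h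
  rw [qs, ← finsum_mem_support, finsum_mem_inter_support_eq' _ _ (Set.range e),
    finsum_mem_range he, rsum]
  · exact finsum_congr fun d => hf.out _
  · intro q hq
    refine ⟨fun _ => ⟨rs c ⟨_, hs _ hq⟩, ?_⟩, fun _ => hq⟩
    refine Eq.trans ?_ (QuotientAddGroup.out_eq' q)
    refine QuotientAddGroup.eq_iff_sub_mem.2 ?_
    have h1 := (key (rs c ⟨_, hs _ hq⟩).out ⟨_, hs _ hq⟩).2 (by rw [← rs_eq, rs_out])
    rwa [show m * ((⟨_, hs _ hq⟩ : A) : K) = q.out from mul_div_cancel₀ _ hm] at h1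

end lat

/-! ### the exponential `eT` -/

theorem eT_add (x y : K) : eT (x + y) = eT x * eT y := by rw [eT, eT, eT, trR_add, ee_add]

theorem eT_zero : eT (0 : K) = 1 := by rw [eT, trR_zero, ee_zero]

theorem eT_neg (x : K) : eT (-x) = conj (eT x) := by rw [eT, eT, trR_neg, ee_neg]

theorem norm_eT (x : K) : ‖eT x‖ = 1 := norm_ee _

theorem eT_ne_zero (x : K) : eT x ≠ 0 := ee_ne _

theorem eT_of_isIntegral {x : K} (hx : IsIntegral ℤ x) : eT x = 1 := by
  obtain ⟨n, hn⟩ := trR_int hx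
  rw [eT, hn, ee_int]

theorem mem_Dual_of_isIntegral {m ν : K} (hm : m ≠ 0) (h : IsIntegral ℤ (ν * m)) : ν ∈ Dual m := by
  intro t ht
  rw [show ν * t = ν * m * (t / m) by field_simp]
  exact eT_of_isIntegral (h.mul ht)

theorem perL_eT {m ν : K} (h : ν ∈ Dual m) : PerL (Lat m) fun t => eT (ν * t) := fun x t ht => by
  simp only [mul_add, eT_add, h t ht, mul_one]

theorem Dual_mono {m m' : K} (h : Lat m' ≤ Lat m) : Dual m ⊆ Dual m' := fun _ hν t ht =>
  hν t (h ht)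

theorem perL_psi {m ν : K} (hm : m ≠ 0) (h : ν * m ∈ R K) :
    PerL (Scl (R K) m) fun t => psi (ν * t) := fun x t ht => by
  simp only [mul_add]
  refine psi_add_R _ ?_
  rw [show ν * t = ν * m * (t / m) by field_simp]
  exact mul_mem h ht

/-- the summand of a Gauss sum is periodic -/
theorem perL_gs {m ν : K} {a : K → K → ℂ} (ha : Per (Lat m) a) (hν : ν ∈ Dual m) (c : K) :
    PerL (Lat m) fun t => a c (c * t) * eT (ν * t) :=
  PerL.mul (fun x t ht => by simp only [mul_add, ha c _ t ht]) (perL_eT hν)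

/-! ### the cubic Gauss sum -/

theorem cop_iff {x y : R K} : Cop (x : K) (y : K) ↔ y ≠ 0 ∧ IsCoprime x y := by
  constructor
  · rintro ⟨-, -, h0, a, ha, b, hb, h⟩
    exact ⟨fun h => h0 (by rw [h]; rfl), ⟨a, ha⟩, ⟨b, hb⟩, Subtype.ext h⟩
  · rintro ⟨h0, a, b, h⟩
    exact ⟨x.2, y.2, coe_ne_zero h0, a, a.2, b, b.2, congrArg (fun t : R K => (t : K)) h⟩

theorem Cop.symm {x y : K} (h : Cop x y) (hx : x ≠ 0) : Cop y x := by
  obtain ⟨h1, h2, -, a, ha, b, hb, h⟩ := h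
  exact ⟨h2, h1, hx, b, hb, a, ha, by rw [add_comm, h]⟩

namespace Sy

variable (S : Sy K)

theorem cop_of_ne {x y : K} (h : S.s x y ≠ 0) : Cop x y := by
  by_contra hn
  exact h (S.s_zero x y hn)

theorem perL_s (c : K) : PerL (Scl (R K) 1) fun t => S.s (c * t) c := fun x t ht => by
  simp only [mul_add, S.s_add _ _ _ (mem_Scl_one.1 ht)]

theorem perL_G {ν : K} (hν : ν ∈ R K) (c : K) :
    PerL (Scl (R K) 1) fun t => S.s (c * t) c * psi (ν * t) :=
  (S.perL_s c).mul (perL_psi one_ne_zero (by rwa [mul_one]))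

theorem G_of_notMem (ν : K) {c : K} (hc : c ∉ R K) : S.G ν c = 0 :=
  qs_eq_zero fun t => by rw [S.s_zero _ _ fun h => hc h.2.1, zero_mul]

theorem G_zero (ν : K) : S.G ν 0 = 0 :=
  qs_eq_zero fun t => by rw [S.s_zero _ _ fun h => h.2.2.1 rfl, zero_mul]

theorem G_eq_rsum {ν : K} (hν : ν ∈ R K) {c : R K} (hc : c ≠ 0) :
    S.G ν c = rsum c fun d => S.s d c * psi (ν * d / c) := by
  have hc' := coe_ne_zero hc
  have h1 := qs_eq_rsum (inv_ne_zero hc') hc (f := fun t => S.s (c * t) c * psi (ν * t))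
    (by rw [inv_mul_cancel₀ hc']; exact S.perL_G hν c) fun t ht => by
      rw [mem_Scl, div_inv_eq_mul, mul_comm]
      exact (S.cop_of_ne (left_ne_zero_of_mul ht)).1
  rw [inv_mul_cancel₀ hc'] at h1
  rw [G, h1]
  refine rsum_congr fun d => ?_
  rw [mul_inv_cancel_left₀ hc', mul_div_assoc, div_eq_inv_mul]

theorem G_eq_rsum_E (ν : R K) {c : R K} (hc : c ≠ 0) :
    S.G ν c = rsum c fun d => S.s d c * E c (d * ν) := by
  rw [S.G_eq_rsum ν.2 hc]
  refine rsum_congr fun d => ?_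
  rw [E, mul_comm (ν : K)]; rfl

end Sy

end Vale.Agent.P016Z.TH
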