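import Vale.Agent.P016Z.TH.Gram
import Vale.Agent.P016Z.TH.LimA
import Vale.Agent.P016Z.TH.Qs

/-!
P016, block THETA: all equivariant row functions are good.
-/

namespace Vale.Agent.P016Z.TH

open NumberField MeasureTheory Filter Topology Complex
open Vale.Agent.P006
open scoped ENNReal ComplexConjugate

set_option linter.unusedSectionVars false

variable {K : Type} [Field K] [NumberField K] [Dat K] {S : Sy K}

namespace Gd

theorem n2_add (A : Set (HK K)) {f g : HK K → ℂ} (hf : Measurable f) (hg : Measurable g) :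
    n2 A (fun w => f w + g w) ≤ 2 * n2 A f + 2 * n2 A g := lintegral_add_sq_le hf hg

theorem n2_mul (A : Set (HK K)) (z : ℂ) (f : HK K → ℂ) :
    n2 A (fun w => z * f w) = ‖z‖ₑ ^ 2 * n2 A f := by
  unfold n2
  rw [← lintegral_const_mul' _ _ (by simp)]
  simp only [enorm_mul, mul_pow]

theorem n2_smul (A : Set (HK K)) (g : SL2 K) (f : HK K → ℂ) :
    n2 A (fun w => f (g • w)) = n2 ((fun w => g • w) '' A) f :=
  ((cmK K).measurePreserving_smul' g).setLIntegral_comp_emb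
    (MeasurableEquiv.smul g).measurableEmbedding (fun w => ‖f w‖ₑ ^ 2) A

/-- convergence to zero along a filter -/
def LT {ι : Type} (l : Filter ι) (f : ι → HK K → ℂ) : Prop :=
  ∀ A : Set (HK K), IsCompact A → Tendsto (fun i => n2 A (f i)) l (𝓝 0)

section lt

variable {ι : Type} {l : Filter ι} {f g : ι → HK K → ℂ}

theorem LT.add (hf : LT l f) (hg : LT l g) (mf : ∀ i, Measurable (f i))
    (mg : ∀ i, Measurable (g i)) : LT l fun i w => f i w + g i w := by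
  intro A hA
  have h := (ENNReal.Tendsto.const_mul (a := 2) (hf A hA) (Or.inr (by simp))).add
    (ENNReal.Tendsto.const_mul (a := 2) (hg A hA) (Or.inr (by simp)))
  rw [mul_zero, add_zero] at h
  exact tendsto_of_tendsto_of_tendsto_of_le_of_le tendsto_const_nhds h (fun _ => zero_le)
    fun i => n2_add A (mf i) (mg i)

theorem LT.mul (hf : LT l f) (z : ℂ) : LT l fun i w => z * f i w := by
  intro A hA
  have h := ENNReal.Tendsto.const_mul (a := ‖z‖ₑ ^ 2) (hf A hA) (Or.inr (by simp))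
  rw [mul_zero] at h
  simpa only [n2_mul] using h

theorem LT.smul (hf : LT l f) (γ : SL2 K) : LT l fun i w => f i (γ • w) := by
  intro A hA
  simpa only [n2_smul] using hf _ (hA.image (continuous_const_smul γ))

end lt

theorem lb_add {f g : ℝ → HK K → ℂ} (hf : LB f) (hg : LB g) (mf : ∀ i, Measurable (f i))
    (mg : ∀ i, Measurable (g i)) : LB fun i w => f i w + g i w := by
  intro γ r
  obtain ⟨C, hC⟩ := hf γ r
  obtain ⟨D, hD⟩ := hg γ r
  refine ⟨2 * max C 0 + 2 * max D 0, fun Y hY => ?_⟩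
  filter_upwards [hC Y hY, hD Y hY] with X h1 h2
  have h5 : 0 ≤ ∏ j, Y j ^ 2 := Finset.prod_nonneg fun j _ => sq_nonneg _
  refine (n2_add _ ((mf X).comp (measurable_const_smul γ))
    ((mg X).comp (measurable_const_smul γ))).trans ?_
  rw [add_mul, ENNReal.ofReal_add (by positivity) (by positivity), mul_assoc, mul_assoc,
    ENNReal.ofReal_mul zero_le_two, ENNReal.ofReal_mul zero_le_two, ENNReal.ofReal_ofNat]
  gcongr
  · exact h1.trans (ENNReal.ofReal_le_ofReal (by gcongr; exact le_max_left _ _))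
  · exact h2.trans (ENNReal.ofReal_le_ofReal (by gcongr; exact le_max_left _ _))

theorem lb_mul {f : ℝ → HK K → ℂ} (hf : LB f) (z : ℂ) : LB fun i w => z * f i w := by
  intro γ r
  obtain ⟨C, hC⟩ := hf γ r
  refine ⟨‖z‖ ^ 2 * C, fun Y hY => ?_⟩
  filter_upwards [hC Y hY] with X h1
  rw [n2_mul _ z fun w => f X (γ • w), mul_assoc, ENNReal.ofReal_mul (sq_nonneg _),
    ENNReal.ofReal_pow (norm_nonneg _), ofReal_norm]
  gcongr

theorem lb_smul {f : ℝ → HK K → ℂ} (hf : LB f) (g : SL2 K) : LB fun i w => f i (g • w) := by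
  intro γ r
  simpa only [mul_smul] using hf (g * γ) r

theorem F_act (hE : EIS K) (k : ℕ) (a : K → K → ℂ) (g : SL2 K) :
    F k (act a g) = fun X w => F k a X (g⁻¹ • w) := by
  funext X w
  unfold F
  rw [hE.2.1]

theorem F_add (hE : EIS K) (k : ℕ) {a b : K → K → ℂ} (ha : Bnd a) (hb : Bnd b) :
    F k (a + b) = fun X w => F k a X w + F k b X w := by
  funext X w
  unfold F
  rw [hE.2.2.1 k a b X w ha hb, mul_add]

theorem F_smul (k : ℕ) (a : K → K → ℂ) (z : ℂ) :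
    F k (z • a) = fun X w => z * F k a X w := by
  funext X w
  unfold F
  rw [show z • a = fun c d => z * a c d from rfl, Es_const_mul, mul_left_comm]

theorem bnd_add {a b : K → K → ℂ} (ha : Bnd a) (hb : Bnd b) : Bnd (a + b) := by
  obtain ⟨⟨A, hA⟩, i, hi⟩ := ha
  obtain ⟨⟨B, hB⟩, j, hj⟩ := hb
  have mono : ∀ {i j : ℕ} {c d : K}, i ≤ j → Row (lv K i) c d → Row (lv K j) c d := by
    rintro i j c d h ⟨g, hg, h1, h2⟩
    refine ⟨g, fun s t => ?_, h1, h2⟩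
    rw [lv_eq_mul h, mul_comm (lv K i), mul_assoc]
    exact ((isIntegral_natCast _).pow _).mul (hg s t)
  refine ⟨⟨A + B, fun c d => (norm_add_le _ _).trans (add_le_add (hA c d) (hB c d))⟩,
    max i j, fun c d h => ?_⟩
  by_cases h1 : a c d = 0
  · refine mono (le_max_right _ _) (hj c d fun h2 => h ?_)
    show a c d + b c d = 0
    rw [h1, h2, add_zero]
  · exact mono (le_max_left _ _) (hi c d h1)

theorem bnd_cen {a : K → K → ℂ} (ha : Bnd a) (p : R K) (c₀ d₀ : K) : Bnd (cen a p c₀ d₀) := by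
  have e : cen a p c₀ d₀ = (fun c d => a c d * ln (p : K) c₀ d₀ c d) +
      fun c d => (-((Nr p : ℂ) + 1)⁻¹) * a c d := by
    funext c d
    simp only [cen, Pi.add_apply]; ring
  rw [e]
  exact bnd_add (ha.mul_ln _ _ _) (ha.const_mul _)

theorem good_add (hE : EIS K) {k : ℕ} {a b : K → K → ℂ} (ha : Bnd a) (hb : Bnd b)
    (ga : Good k a) (gb : Good k b) : Good k (a + b) := by
  have m := measurable_F hE k
  refine ⟨?_, ?_, fun p hp c₀ d₀ h => ?_⟩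
  · have h := LT.add (l := atTop) (f := fun (p : ℝ × ℝ) w => F k a p.1 w - F k a p.2 w)
      (g := fun (p : ℝ × ℝ) w => F k b p.1 w - F k b p.2 w) ga.lc gb.lc
      (fun _ => (m _ _).sub (m _ _)) fun _ => (m _ _).sub (m _ _)
    rw [F_add hE k ha hb]
    intro A hA
    simpa only [add_sub_add_comm] using h A hA
  · rw [F_add hE k ha hb]
    exact lb_add ga.lb gb.lb (m _) (m _)
  · have e : cen (a + b) p c₀ d₀ = cen a p c₀ d₀ + cen b p c₀ d₀ := by
      funext c d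
      simp only [cen, Pi.add_apply, add_mul]
    rw [e, F_add hE k (bnd_cen ha _ _ _) (bnd_cen hb _ _ _)]
    exact LT.add (ga.lz p hp c₀ d₀ h) (gb.lz p hp c₀ d₀ h) (m _) (m _)

theorem good_smul {k : ℕ} {a : K → K → ℂ} (ga : Good k a) (z : ℂ) : Good k (z • a) := by
  refine ⟨?_, ?_, fun p hp c₀ d₀ h => ?_⟩
  · have h := LT.mul (l := atTop) (f := fun (p : ℝ × ℝ) w => F k a p.1 w - F k a p.2 w) ga.lc z
    rw [F_smul]
    intro A hA
    simpa only [mul_sub] using h A hA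
  · rw [F_smul]
    exact lb_mul ga.lb z
  · have e : cen (z • a) p c₀ d₀ = z • cen a p c₀ d₀ := by
      funext c d
      simp only [cen, Pi.smul_apply, smul_eq_mul, mul_assoc]
    rw [e, F_smul]
    exact LT.mul (ga.lz p hp c₀ d₀ h) z

theorem act_cen (a : K → K → ℂ) (p : R K) (c₀ d₀ : K) (g : SL2 K) :
    act (cen a p (c₀ * g 0 0 + d₀ * g 1 0) (c₀ * g 0 1 + d₀ * g 1 1)) g =
      cen (act a g) p c₀ d₀ := by
  funext c d
  have e : (c * g 0 0 + d * g 1 0) * (c₀ * g 0 1 + d₀ * g 1 1) -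
      (c * g 0 1 + d * g 1 1) * (c₀ * g 0 0 + d₀ * g 1 0) = c * d₀ - d * c₀ := by
    linear_combination (c * d₀ - d * c₀) * KU.det_eq g
  unfold act cen ln
  rw [e]

theorem good_act (hE : EIS K) {k : ℕ} {a : K → K → ℂ} (ga : Good k a) {g : SL2 K}
    (hg : g ∈ SLr K) : Good k (act a g) := by
  refine ⟨?_, ?_, fun p hp c₀ d₀ h => ?_⟩
  · rw [F_act hE]
    exact LT.smul (l := atTop) (f := fun (p : ℝ × ℝ) w => F k a p.1 w - F k a p.2 w) ga.lc g⁻¹
  · rw [F_act hE]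
    exact lb_smul ga.lb g⁻¹
  · rw [← act_cen, F_act hE]
    let g₁ : R K := ⟨_, hg.1⟩
    let g₂ : R K := ⟨_, hg.2.1⟩
    let g₃ : R K := ⟨_, hg.2.2.1⟩
    let g₄ : R K := ⟨_, hg.2.2.2⟩
    have hd : g₁ * g₄ - g₂ * g₃ = 1 := Subtype.ext (KU.det_eq g)
    refine LT.smul (ga.lz p hp (c₀ * g₁ + d₀ * g₃) (c₀ * g₂ + d₀ * g₄) fun h' => h ⟨?_, ?_⟩) g⁻¹
    · have := (h'.1.mul_right g₄).sub (h'.2.mul_right g₃)
      rwa [show (c₀ * g₁ + d₀ * g₃) * g₄ - (c₀ * g₂ + d₀ * g₄) * g₃ = c₀ by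
        linear_combination c₀ * hd] at this
    · have := (h'.2.mul_right g₁).sub (h'.1.mul_right g₂)
      rwa [show (c₀ * g₂ + d₀ * g₄) * g₁ - (c₀ * g₁ + d₀ * g₃) * g₂ = d₀ by
        linear_combination d₀ * hd] at this

theorem line_imp {p c₀ d₀ c₁ d₁ c d : R K} (hp : Prime p) (h0 : ¬ (p ∣ c₀ ∧ p ∣ d₀))
    (h : p ∣ c₀ * d₁ - d₀ * c₁) (h1 : p ∣ c * d₀ - d * c₀) : p ∣ c * d₁ - d * c₁ := by
  by_contra h2
  refine h0 ⟨(hp.dvd_or_dvd (b := c * d₁ - d * c₁) ?_).resolve_right h2,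
    (hp.dvd_or_dvd (b := c * d₁ - d * c₁) ?_).resolve_right h2⟩
  · rw [show c₀ * (c * d₁ - d * c₁) = c₁ * (c * d₀ - d * c₀) + c * (c₀ * d₁ - d₀ * c₁) by ring]
    exact (h1.mul_left _).add (h.mul_left _)
  · rw [show d₀ * (c * d₁ - d * c₁) = d₁ * (c * d₀ - d * c₀) + d * (c₀ * d₁ - d₀ * c₁) by ring]
    exact (h1.mul_left _).add (h.mul_left _)

theorem ln_eq {p c₀ d₀ c₁ d₁ : R K} (hp : Prime p) (h0 : ¬ (p ∣ c₀ ∧ p ∣ d₀))
    (h1 : ¬ (p ∣ c₁ ∧ p ∣ d₁)) (h : p ∣ c₀ * d₁ - d₀ * c₁) (c d : R K) :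
    ln (p : K) c₀ d₀ c d = ln (p : K) c₁ d₁ c d := by
  have h' : p ∣ c₁ * d₀ - d₁ * c₀ := by
    rw [show c₁ * d₀ - d₁ * c₀ = -(c₀ * d₁ - d₀ * c₁) by ring]; exact h.neg_right
  have e : ∀ x y : R K, ((c : K) * y - d * x) / p ∈ R K ↔ p ∣ c * y - d * x := fun x y => by
    rw [dvd_iff_div_mem hp.ne_zero]; push_cast; rfl
  unfold ln
  by_cases h2 : p ∣ c * d₀ - d * c₀
  · rw [if_pos ((e _ _).2 h2), if_pos ((e _ _).2 (line_imp hp h0 h h2))]
  · rw [if_neg fun h3 => h2 ((e _ _).1 h3),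
      if_neg fun h3 => h2 (line_imp hp h1 h' ((e _ _).1 h3))]

theorem exists_lat (k : ℕ) (x : R K) {p : R K} (hp : p ≠ 0) :
    ∃ m : R K, (m : K) ∈ Lat (lv K k) ∧ p ∣ m - x := by
  obtain ⟨y, hy⟩ := exists_small_mod x p hp (k + 1)
  refine ⟨_, ?_, hy⟩
  have e : (((Q K : R K) ^ (k + 1) * algebraMap (𝓞 K) (R K) y : R K) : K) = lv K k * y := by
    push_cast; rfl
  rw [e]
  exact mul_mem_Lat_self y.isIntegral_coe

theorem exists_line (k : ℕ) {p c₀ d₀ : R K} (hp : Prime p) :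
    ∃ γ ∈ Gam K k, ∃ c₁ d₁ : R K, γ 1 0 = c₁ ∧ γ 1 1 = d₁ ∧ ¬ (p ∣ c₁ ∧ p ∣ d₁) ∧
      p ∣ c₀ * d₁ - d₀ * c₁ := by
  by_cases h : p ∣ c₀
  · refine ⟨1, one_mem _, 0, 1, by simp, by simp, fun h => hp.not_dvd_one h.2, by simpa using h⟩
  · obtain ⟨s, u, e⟩ := hp.irreducible.coprime_iff_not_dvd.2 h
    obtain ⟨m, hm, x, hx⟩ := exists_lat k c₀ hp.ne_zero
    obtain ⟨n, hn, y, hy⟩ := exists_lat k (u * (d₀ - 1)) hp.ne_zero
    refine ⟨KU.mk2 1 n m (m * n + 1) (by ring), ⟨?_, hn, hm, ?_⟩, m, m * n + 1, rfl,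
      by push_cast; rfl, fun h' => h ?_, ?_⟩
    · show (1 : K) - 1 ∈ _
      rw [sub_self]; exact zero_mem _
    · show (m : K) * n + 1 - 1 ∈ _
      rw [add_sub_cancel_right]
      exact mul_mem_Lat (isIntegral_of_mem_Lat hm) hn
    · rw [show c₀ = m - p * x by linear_combination -hx]
      exact h'.1.sub (dvd_mul_right _ _)
    · refine ⟨c₀ * m * y + x * (c₀ * u * (d₀ - 1) - d₀) - c₀ * s * (d₀ - 1), ?_⟩
      linear_combination (c₀ * m) * hy + (c₀ * u * (d₀ - 1) - d₀) * hx + (c₀ * (d₀ - 1)) * e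

theorem good_a0 (hE : EIS K) (hR : ROW1 S) (hG : GRAM S) {k : ℕ} (hk : 1 ≤ k) :
    Good k (S.a0 k) := by
  obtain ⟨h1, h2, h3⟩ := hG k hk
  refine ⟨h1, h2, fun p hp c₀ d₀ h => ?_⟩
  obtain ⟨γ, hγ, c₁, d₁, e1, e2, h4, h5⟩ := exists_line k (c₀ := c₀) (d₀ := d₀) hp
  have h6 := act_cen (S.a0 k) p c₁ d₁ γ⁻¹
  have hd := KU.det_eq γ
  rw [KU.inv_00, KU.inv_01, KU.inv_10, KU.inv_11, ← e1, ← e2,
    show γ 1 0 * γ 1 1 + γ 1 1 * -γ 1 0 = 0 by ring,
    show γ 1 0 * -γ 0 1 + γ 1 1 * γ 0 0 = 1 by linear_combination hd, e1, e2] at h6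
  have hγ1 := Gam_mono hk hγ
  have e : cen (S.a0 k) p c₀ d₀ = S.kub γ • act (cen (S.a0 k) p 0 1) γ⁻¹ := by
    rw [h6]
    funext c d
    simp only [cen, Pi.smul_apply, smul_eq_mul]
    rw [hR.2.2.1 k hk _ (inv_mem hγ), ← mul_assoc, ← mul_assoc, ← hR.1 _ hγ1 _ (inv_mem hγ1),
      mul_inv_cancel, kub_one hR, one_mul]
    by_cases h0 : S.a0 k c d = 0
    · rw [h0, zero_mul, zero_mul]
    · rw [ln_eq hp h h4 h5 ⟨c, mem_R_of_isIntegral (isIntegral_of_mem_Lat (a0_int h0).1)⟩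
        ⟨d, mem_R_of_isIntegral (isIntegral_of_sub_one (a0_int h0).2)⟩]
  rw [e, F_smul, F_act hE]
  exact LT.mul (LT.smul (h3 p hp) γ⁻¹⁻¹) _

end Gd

open Gd in
theorem good (hE : EIS K) (hR : ROW1 S) (hR2 : ROW2 S) (hG : GRAM S) : GOOD S := by
  intro a ha
  filter_upwards [hR2.2.2.1 a ha, eventually_ge_atTop 1] with k h hk
  have h0 : S.Eqv (S.a0 k) := ⟨(hR.2.2.2.2 k hk).toBnd, k, hR.2.2.1 k hk⟩
  have hz : (0 : K → K → ℂ) = (0 : ℂ) • S.a0 k := (zero_smul _ _).symm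
  have hs : ∀ (z : ℂ) (b : K → K → ℂ), Adm k b ∧ Good k b → Adm k (z • b) ∧ Good k (z • b) :=
    fun z b hb => ⟨⟨hb.1.toBnd.const_mul z, fun u hu c d => by
      simp only [Pi.smul_apply, hb.1.unit u hu]⟩, good_smul hb.2 z⟩
  clear ha
  induction h using Submodule.span_induction with
  | mem b hb =>
    obtain ⟨g, hg, rfl⟩ := hb
    refine ⟨⟨(hR2.2.1 _ h0 g hg).toBnd, fun u hu c d => ?_⟩,
      good_act hE (good_a0 hE hR hG hk) hg⟩
    unfold act
    rw [← (hR.2.2.2.2 k hk).unit u hu (c * g 0 0 + d * g 1 0)]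
    congr 1 <;> ring
  | zero => rw [hz]; exact hs _ _ ⟨hR.2.2.2.2 k hk, good_a0 hE hR hG hk⟩
  | add b c _ _ hb hc =>
    exact ⟨⟨bnd_add hb.1.toBnd hc.1.toBnd, fun u hu x y => by
      simp only [Pi.add_apply, hb.1.unit u hu, hc.1.unit u hu]⟩,
      good_add hE hb.1.toBnd hc.1.toBnd hb.2 hc.2⟩
  | smul z b _ hb => exact hs z b hb

end Vale.Agent.P016Z.TH
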