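import Vale.Agent.P016Z.TH.ResA
import Vale.Agent.P016Z.TH.Good
import Vale.Agent.P016Z.TH.Row1

/-!
P016, block THETA: existence of the limit functions and of the residues, equidistribution, and
the vanishing of the residues at `ν p²`.
-/

namespace Vale.Agent.P016Z.TH

open NumberField MeasureTheory Filter Topology Complex
open Vale.Agent.P006
open scoped ENNReal ComplexConjugate

set_option linter.unusedSectionVars false

variable {K : Type} [Field K] [NumberField K] [Dat K] {S : Sy K}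

theorem thx (hE : EIS K) (hR : ROW1 S) (hG : GOOD S) (hL : LIM K) (hA : RESA K) : THX S := by
  intro a ha
  obtain ⟨j, hj⟩ := ha.eqv
  have hN : ∀ᶠ k in atTop, (Adm k a ∧ Per (Lat (lv K k)) a) ∧ Good k a := by
    filter_upwards [hG a ha, eventually_ge_atTop j] with k h hk
    exact ⟨⟨h.1, per_of_eqv hR fun g hg => hj g (Gam_mono hk (Tr_le_Gam k hg))⟩, h.2⟩
  refine ⟨hN.mono fun k h => h.1, ?_⟩
  filter_upwards [hN] with k ⟨⟨h1, h2⟩, h3⟩
  obtain ⟨cv, c0, h⟩ := hL _ (lv_ne k)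
  obtain ⟨τ, θ, t1, t2, t3, t4, t5, t6⟩ := h k a h1 h2 h3.lc h3.lb
  refine ⟨cv / nm (lv K k), τ, θ, div_pos c0 ((cmK K).nm_pos (lv_ne k)), ⟨t1, ?_⟩, t2, t4, t5,
    fun ν hν => ?_⟩
  · filter_upwards [eventually_ge_atTop k] with i hi
    have e : F i a = F k a := by
      funext X w
      unfold F
      rw [hE.2.2.2.1 k i a hi h1]
    rw [e]; exact t3
  · rw [ofReal_div, div_mul_eq_mul_div]
    exact hA.1 a k ν _ h1 h2 hν (t6 ν hν)

namespace RB

theorem res_ex (hX : THX S) {a : K → K → ℂ} (ha : S.Eqv a) {ν : K} (hν : ν ∈ R K) :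
    ∃ ρ, Res a ν ρ := by
  obtain ⟨k, ⟨cv, τ, -, -, -, -, -, -, h⟩, hk⟩ := ((hX a ha).2.and (ResAux.dual_ev hν)).exists
  exact ⟨_, h ν hk⟩

theorem q_ne (p : R K) : (Nr p : ℂ) + 1 ≠ 0 := by exact_mod_cast Nat.succ_ne_zero (Nr p)

theorem res_pin (hX : THX S) (hG : GOOD S) (hL : LIM0 K) (hA : RESA K) {a : K → K → ℂ}
    (ha : S.Eqv a) {ν : K} (hν : ν ∈ R K) {ρ : ℂ} (hρ : Res a ν ρ) {p : R K} (hp : Prime p) :
    Res (pin (p : K) a) ν (ρ / ((Nr p : ℂ) + 1)) ∧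
      Res (pout (p : K) a) ν ((Nr p : ℂ) * ρ / ((Nr p : ℂ) + 1)) := by
  obtain ⟨A1, A2, A3, -, -, A6, A7, A8, -⟩ := hA
  have hN := (hX a ha).1
  have hq := q_ne p
  have e1 : cen a p 0 1 = pin (p : K) a + (-((Nr p : ℂ) + 1)⁻¹) • a := by
    funext c d
    simp only [cen, pin, ln01, Pi.add_apply, Pi.smul_apply, smul_eq_mul]
    split_ifs <;> ring
  have hc : Nice (cen a p 0 1) := by
    rw [e1]; exact A6 _ _ (A8 a p hN).1 (A7 a _ hN)
  obtain ⟨k, ⟨h1, h2⟩, h3⟩ := ((hc.and (hG a ha)).and (ResAux.dual_ev hν)).exists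
  have h4 := A1 _ k ν 0 h1.1 h1.2 h3 (hL _ (lv_ne k) k _ h1.1 h1.2
    (h2.2.lz p hp 0 1 fun h => hp.not_dvd_one h.2) ν h3)
  have e2 : pin (p : K) a = cen a p 0 1 + ((Nr p : ℂ) + 1)⁻¹ • a := by
    rw [e1, neg_smul, neg_add_cancel_right]
  have h5 : Res (pin (p : K) a) ν (ρ / ((Nr p : ℂ) + 1)) := by
    have := A2 _ _ ν _ _ hc (A7 a _ hN) h4 (A3 a ν ρ ((Nr p : ℂ) + 1)⁻¹ hρ)
    rwa [← e2, zero_div, zero_add, ← div_eq_inv_mul] at this
  refine ⟨h5, ?_⟩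
  have e3 : pout (p : K) a = a + (-1 : ℂ) • pin (p : K) a := by
    funext c d
    simp only [pout, pin, Pi.add_apply, Pi.smul_apply, smul_eq_mul]
    split_ifs <;> ring
  have := A2 _ _ ν _ _ hN (A7 _ (-1) (A8 a p hN).1) hρ (A3 _ ν _ (-1) h5)
  rwa [← e3, show ρ + -1 * (ρ / ((Nr p : ℂ) + 1)) = (Nr p : ℂ) * ρ / ((Nr p : ℂ) + 1) by
    field_simp; ring] at this

theorem ln_shift {p c d t : K} (hc : c ∈ R K) (ht : t / p ∈ R K) :
    ln p 1 0 c (d + c * t) = ln p 1 0 c d := by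
  have e : (c * 0 - (d + c * t) * 1) / p = (c * 0 - d * 1) / p - c * (t / p) := by ring
  unfold ln
  rw [e]
  by_cases h : (c * 0 - d * 1) / p ∈ R K
  · rw [if_pos h, if_pos (sub_mem h (mul_mem hc ht))]
  · rw [if_neg h, if_neg fun h' => h (by simpa using add_mem h' (mul_mem hc ht))]

theorem res_sq (h1 : CNT1 K) (hX : THX S) (hG : GOOD S) (hL : LIM0 K) (hA : RESA K)
    (hR2 : ROW2 S) (h2 : GAU2 S) (h3 : GAU3 S) {j : ℕ} {φ : K → K → ℂ} (hφ : Fam j φ)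
    {p ν : R K} (hp : Prime p) (hν : ¬ p ∣ ν) : Res (S.ap φ) (ν * p ^ 2) 0 := by
  have hp0 := coe_ne_zero hp.ne_zero
  have hν' : (ν : K) * p ^ 2 ∈ R K := mul_mem ν.2 (pow_mem p.2 2)
  obtain ⟨ρ, hρ⟩ := res_ex hX (hR2.1 j φ hφ) hν'
  have h4 := (res_pin hX hG hL hA (hR2.1 j φ hφ) hν' hρ hp).2
  obtain ⟨j', hj'⟩ := (h3.1 j φ hφ p hp0).2
  have ha := hR2.1 j' _ hj'
  set a := S.ap (Cb p φ) with ha_def
  obtain ⟨i, -, hi⟩ := (hX a ha).1.exists
  obtain ⟨k, ⟨⟨⟨⟨g1, g2⟩, g3⟩, κ, hκ, g4⟩, g5⟩, g6⟩ := (((((hG a ha).and h4).and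
    ((h2 j φ hφ ν).2.2 p hp hν)).and (Rw.ev_int ν.2)).and
      (Rw.ev_int (Rw.div_lv_R p.2 i))).exists
  have hm : lv K k * p ≠ 0 := mul_ne_zero (lv_ne k) hp0
  have hper : Per (Lat (lv K k * p)) a := fun c d t ht =>
    hi c d t (Lat_le hm (by rwa [mul_div_assoc]) ht)
  have hperc : Per (Lat (lv K k * p)) (cen a p 1 0) := by
    intro c d t ht
    unfold cen
    rw [hper c d t ht]
    by_cases h0 : a c d = 0
    · rw [h0, zero_mul, zero_mul]
    · rw [ln_shift (S.cop_of_ne (left_ne_zero_of_mul h0)).1]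
      have := lv_ne (K := K) k
      rw [show t / p = lv K k * (t / (lv K k * p)) by field_simp]
      exact mul_mem (lv_mem_R k) (mem_R_of_isIntegral ht)
  have hadm : Adm k (cen a p 1 0) := ⟨Gd.bnd_cen g1.toBnd p 1 0, fun u hu c d => by
    unfold cen
    rw [g1.unit u hu, ln_unit hu.1]⟩
  have hd : (ν : K) / p ∈ Dual (lv K k * p) := mem_Dual_of_isIntegral hm (by
    rwa [show (ν : K) / p * (lv K k * p) = lv K k * ν by field_simp])
  have h5 := hL _ hm k _ hadm hperc (g2.lz p hp 1 0 fun h => hp.not_dvd_one h.1) _ hd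
  have e : Sg k (Lat (lv K k * p)) (cen a p 1 0) (ν / p) =
      fun x => κ * Sn k (pout (p : K) (S.ap φ)) (ν * p ^ 2) x := by
    funext x
    refine ResAux.us_cut_congr k κ (fun c hc => ?_) x
    obtain ⟨g7, g8⟩ := g4 c hc
    have f1 := ResAux.finL_gs h1 hm g1.toBnd hper (ν / p) hc
    have e1 : gs (Lat (lv K k * p)) (cen a p 1 0) (ν / p) c =
        gs (Lat (lv K k * p)) (fun c d => a c d * ln (p : K) 1 0 c d) (ν / p) c +
          -((Nr p : ℂ) + 1)⁻¹ * gs (Lat (lv K k * p)) a (ν / p) c := by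
      unfold gs
      rw [← qs_const_mul, ← qs_add (f1.of_supp fun t h => mul_ne_zero
        (left_ne_zero_of_mul (left_ne_zero_of_mul h)) (right_ne_zero_of_mul h))
        (f1.mul_left fun _ => -((Nr p : ℂ) + 1)⁻¹)]
      refine qs_congr fun t => ?_
      unfold cen
      ring
    rw [e1, g7, g8, mul_zero, add_zero]
    congr 1
    by_cases hc' : c ∈ R K
    · have e2 : p ∣ ⟨c, hc'⟩ ↔ c / p ∈ R K := dvd_iff_div_mem hp.ne_zero
      by_cases h6 : c / p ∈ R K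
      · rw [gn_pout_pos h6, if_neg fun h => ?_]
        exact hp.irreducible.coprime_iff_not_dvd.1 ((cop_iff (x := p) (y := ⟨c, hc'⟩)).1 h).2
          (e2.2 h6)
      · rw [gn_pout_neg h6, if_pos]
        exact (cop_iff (x := p) (y := ⟨c, hc'⟩)).2 ⟨fun h => hc (congrArg Subtype.val h),
          hp.irreducible.coprime_iff_not_dvd.2 fun h => h6 (e2.1 h)⟩
    · rw [if_neg fun h => hc' h.2.1]
      by_cases h6 : c / p ∈ R K
      · rw [gn_pout_pos h6]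
      · rw [gn_pout_neg h6, gn_ap_of_notMem S φ hc']
  rw [e] at h5
  have h7 := h5.unique (g3.const_mul κ)
  have h8 : ρ = 0 :=
    (mul_eq_zero.1 ((div_eq_zero_iff.1 ((mul_eq_zero.1 h7.symm).resolve_left hκ)).resolve_right
      (q_ne p))).resolve_left (NrC_ne hp.ne_zero)
  rwa [h8] at hρ

end RB

theorem resb (h1 : CNT1 K) (hX : THX S) (hG : GOOD S) (hL : LIM0 K) (hA : RESA K)
    (hR2 : ROW2 S) (h2 : GAU2 S) (h3 : GAU3 S) : RESB S :=
  ⟨fun a ha => (hX a ha).1, fun _ ha _ hν => RB.res_ex hX ha hν,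
    fun _ ha _ hν _ hρ _ hp => RB.res_pin hX hG hL hA ha hν hρ hp,
    fun _ _ hφ _ _ hp hν => RB.res_sq h1 hX hG hL hA hR2 h2 h3 hφ hp hν⟩

end Vale.Agent.P016Z.TH
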