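import Vale.Agent.P016Z.TH.NSl
import Vale.Agent.P016Z.TH.Gau1

/-!
P016, block THETA: squarefree frequencies and the scalar operators.
-/

namespace Vale.Agent.P016Z.TH

open NumberField Filter Complex
open scoped ComplexConjugate

set_option linter.unusedSectionVars false

variable {K : Type} [Field K] [NumberField K] [Dat K]

namespace Sqf

theorem exists_cube {x : ℝ} (hx : 0 < x) : ∃ a : ℝ, 0 < a ∧ x = a ^ 3 :=
  ⟨x ^ ((3 : ℕ)⁻¹ : ℝ), Real.rpow_pos_of_pos hx _,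
    (Real.rpow_inv_natCast_pow hx.le (by norm_num)).symm⟩

theorem cube_rpow {a : ℝ} (ha : 0 < a) (r : ℝ) (n : ℤ) (h : 3 * r = n) : (a ^ 3) ^ r = a ^ n := by
  rw [← Real.rpow_natCast, ← Real.rpow_mul ha.le, ← Real.rpow_intCast, ← h]
  norm_num

theorem r43 {a : ℝ} (ha : 0 < a) : (a ^ 3) ^ (-(4 / 3) : ℝ) = (a ^ 4)⁻¹ := by
  rw [cube_rpow ha _ (-4) (by norm_num)]; rfl

theorem r23 {a : ℝ} (ha : 0 < a) : (a ^ 3) ^ (-(2 / 3) : ℝ) = (a ^ 2)⁻¹ := by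
  rw [cube_rpow ha _ (-2) (by norm_num)]; rfl

theorem r73 {a : ℝ} (ha : 0 < a) : (a ^ 3) ^ (7 / 3 : ℝ) = a ^ 7 := by
  rw [cube_rpow ha _ 7 (by norm_num)]; rfl

theorem nm_eq {x : R K} (hx : x ≠ 0) : nm (x : K) = Nr x * NS x := by
  rw [NS, mul_div_cancel₀ _ (Nat.cast_pos.2 (Nr_pos hx)).ne']

/-- cube roots of the two parts of the norm -/
theorem roots {x : R K} (hx : x ≠ 0) : ∃ a t : ℝ, 0 < a ∧ 0 < t ∧ (Nr x : ℝ) = a ^ 3 ∧
    NS x = t ^ 3 ∧ nm (x : K) = (a * t) ^ 3 ∧ (Nr x : ℂ) = (a : ℂ) ^ 3 := by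
  obtain ⟨a, ha, h1⟩ := exists_cube (Nat.cast_pos.2 (Nr_pos hx) : (0 : ℝ) < Nr x)
  obtain ⟨t, ht, h2⟩ := exists_cube (NS_pos hx)
  refine ⟨a, t, ha, ht, h1, h2, by rw [nm_eq hx, h1, h2, mul_pow], ?_⟩
  exact_mod_cast congrArg (fun y : ℝ => (y : ℂ)) h1

theorem fam0 {j : ℕ} {φ : K → K → ℂ} (hφ : Fam j φ) (c : K) : φ c 0 = 0 := by
  by_contra h
  exact (hφ.supp c 0 h).2.2.1 rfl

theorem notMem_div {c : K} {p : R K} (hp : p ≠ 0) (hc : c ∉ R K) : c / p ∉ R K := fun h =>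
  hc (by simpa [mul_div_cancel₀ _ (coe_ne_zero hp)] using mul_mem p.2 h)

theorem cop_unit {u : R K} (hu : IsUnit u) {c : K} (hc : c ∈ R K) (h0 : c ≠ 0) :
    Cop (u : K) c := by
  obtain ⟨v, hv⟩ := hu.exists_left_inv
  exact (cop_iff (x := u) (y := ⟨c, hc⟩)).2 ⟨fun h => h0 (congrArg Subtype.val h),
    v, 0, by rw [hv, zero_mul, add_zero]⟩

theorem mul_notMem {u : R K} (hu : IsUnit u) {c : K} (hc : c ∉ R K) : (u : K) * c ∉ R K := by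
  intro h
  obtain ⟨v, hv⟩ := hu.exists_left_inv
  have h1 : (v : K) * u = 1 := by exact_mod_cast congrArg (fun t : R K => (t : K)) hv
  have h2 := mul_mem v.2 h
  rw [← mul_assoc, h1, one_mul] at h2
  exact hc h2

variable (S : Sy K)

theorem h_swap {x y : K} (hx : x ≠ 0) (hy : y ≠ 0) : S.h x y * S.h y x = 1 := by
  have h := S.h_self (x * y) (mul_ne_zero hx hy)
  rw [S.h_mul_left _ _ _ hx hy (mul_ne_zero hx hy), S.h_mul_right _ _ _ hx hx hy,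
    S.h_mul_right _ _ _ hy hx hy, S.h_self x hx, S.h_self y hy] at h
  linear_combination h

theorem conj_h {x y : K} (hx : x ≠ 0) (hy : y ≠ 0) : conj (S.h x y) = S.h y x := by
  rw [conj_of_cube (S.h_cube x y hx hy)]
  linear_combination (-S.h x y ^ 2) * h_swap S hx hy + S.h y x * S.h_cube x y hx hy

theorem h_cube_left {x y : K} (hx : x ≠ 0) (hy : y ≠ 0) : S.h (x ^ 3) y = 1 := by
  rw [show x ^ 3 = x * x * x by ring, S.h_mul_left _ _ _ (mul_ne_zero hx hx) hx hy,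
    S.h_mul_left _ _ _ hx hx hy, ← S.h_cube x y hx hy]
  ring

theorem T_mul {j : ℕ} {φ : K → K → ℂ} (hφ : Fam j φ) {x y : K} (hx : x ≠ 0) (hy : y ≠ 0) :
    S.ap (S.T (x * y) φ) = S.h y x • S.ap (S.T x (S.T y φ)) := by
  funext c d
  simp only [Sy.ap, Sy.T, Pi.smul_apply, smul_eq_mul]
  by_cases hd : d = 0
  · simp [hd, fam0 hφ]
  · rw [S.h_mul_left _ _ _ hx hy hd, S.h_mul_right _ _ _ hy (pow_ne_zero 2 hx) hd, sq x,
      S.h_mul_right _ _ _ hy hx hx, show x * y * c = y * (x * c) by ring,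
      show (x * y) ^ 2 * d = y ^ 2 * (x * x * d) by ring]
    linear_combination (-S.s c d * φ (y * (x * c)) (y ^ 2 * (x * x * d)) * S.h x d * S.h y d) *
      S.h_cube y x hy hx

theorem Zs_eq {j : ℕ} {φ : K → K → ℂ} (hφ : Fam j φ) {x : K} (hx : x ≠ 0) :
    Cb x (S.T (x ^ 3) φ) = Zs (x ^ 3) φ := by
  funext c d
  simp only [Cb, Sy.T, Zs]
  by_cases hd : d = 0
  · simp [hd, fam0 hφ]
  · rw [h_cube_left S hx (div_ne_zero hd (pow_ne_zero 3 hx)), mul_one]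
    congr 1
    field_simp

theorem Zs_eq' {j : ℕ} {φ : K → K → ℂ} (hφ : Fam j φ) {x : K} (hx : x ≠ 0) :
    Cb x (S.T (x ^ 2) (S.T x φ)) = Zs (x ^ 3) φ := by
  funext c d
  simp only [Cb, Sy.T, Zs]
  by_cases hd : d = 0
  · simp [hd, fam0 hφ]
  · have he : d / x ^ 3 ≠ 0 := div_ne_zero hd (pow_ne_zero 3 hx)
    have h1 : S.h x ((x ^ 2) ^ 2 * (d / x ^ 3)) = S.h x (d / x ^ 3) := by
      rw [show (x ^ 2) ^ 2 * (d / x ^ 3) = x * (x * (x * (x * (d / x ^ 3)))) by ring]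
      simp only [S.h_mul_right, hx, he, ne_eq, not_false_eq_true, mul_eq_zero, or_self,
        S.h_self x hx, one_mul]
    have h2 : S.h (x ^ 2) (d / x ^ 3) = S.h x (d / x ^ 3) * S.h x (d / x ^ 3) := by
      rw [sq x, S.h_mul_left _ _ _ hx hx he]
    rw [h1, h2, show x * (x ^ 2 * c) = x ^ 3 * c by ring,
      show x ^ 2 * ((x ^ 2) ^ 2 * (d / x ^ 3)) = x ^ 3 * d by field_simp]
    linear_combination φ (x ^ 3 * c) (x ^ 3 * d) * S.h_cube x _ hx he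

theorem fam_Zs (h3 : GAU3 S) {j : ℕ} {φ : K → K → ℂ} (hφ : Fam j φ) {x : K} (hx : x ≠ 0) :
    ∃ j', Fam j' (Zs (x ^ 3) φ) := by
  obtain ⟨j₁, h⟩ := (h3.1 j φ hφ _ (pow_ne_zero 3 hx)).1
  rw [← Zs_eq S hφ hx]
  exact (h3.1 j₁ _ h x hx).2

theorem gn_pout_notMem (ψ : K → K → ℂ) {p : R K} (hp : p ≠ 0) {c : K} (hc : c ∉ R K) (k : ℕ)
    (ν : K) : gn k (pout (p : K) (S.ap ψ)) ν c = 0 := by
  rw [gn_pout_neg (notMem_div hp hc), gn_ap_of_notMem S ψ hc]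

variable {S} (hA : RESA K) (hB : RESB S) (hR2 : ROW2 S) (h1 : GAU1 S) (h2 : GAU2 S) (h3 : GAU3 S)

include hA hB in
/-- comparison of the rows with `p ∣ c` of `a` and the rows with `p ∤ c` of `b` -/
theorem link {a b : K → K → ℂ} (ha : S.Eqv a) (hb : S.Eqv b) {p : R K} (hp : Prime p)
    {ν μ x : K} (hν : ν ∈ R K) (hμ : μ ∈ R K) (hx : x ≠ 0) {z ρ σ : ℂ}
    (h : ∀ᶠ k in atTop, ∀ c, c ≠ 0 → gn k (pin (p : K) a) ν (x * c) =
      z * gn k (pout (p : K) b) μ c) (hρ : Res a ν ρ) (hσ : Res b μ σ) :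
    ρ = z * ((nm x ^ (-(4 / 3) : ℝ) : ℝ) : ℂ) * (Nr p * σ) := by
  have e := (hB.2.2.1 a ha ν hν ρ hρ p hp).1.unique
    (hA.2.2.2.2.1 _ _ ν μ x z _ (hA.2.2.2.2.2.2.2.1 b p (hB.1 b hb)).2 hx h
      (hB.2.2.1 b hb μ hμ σ hσ p hp).2)
  have h0 : (Nr p : ℂ) + 1 ≠ 0 := by exact_mod_cast Nat.succ_ne_zero (Nr p)
  rw [← mul_div_assoc] at e
  exact (div_left_inj' h0).1 e

include hA hB hR2 h1 h2 h3 in
theorem step_prime {j : ℕ} {φ : K → K → ℂ} (hφ : Fam j φ) {p ν : R K} (hp : Prime p)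
    (hν : ¬ p ∣ ν) {ρ : ℂ} (hρ : Res (S.ap φ) ν ρ) :
    Res (S.ap (S.T p φ)) (ν * p) (conj (S.G ν p) * (((Nr p : ℝ) ^ (-(2 / 3) : ℝ) : ℝ) : ℂ) *
      ((NS p ^ (7 / 3 : ℝ) : ℝ) : ℂ) * ρ) := by
  have hp0 := coe_ne_zero hp.ne_zero
  obtain ⟨j', hψ⟩ := (h3.1 j φ hφ _ hp0).1
  obtain ⟨σ, hσ⟩ := hB.2.1 _ (hR2.1 _ _ hψ) _ (mul_mem ν.2 p.2)
  have e := link hA hB (hR2.1 _ _ hφ) (hR2.1 _ _ hψ) hp ν.2 (mul_mem ν.2 p.2) hp0
    (z := S.G ν p * ((Nr p : ℂ) / (nm (p : K) : ℂ))) (by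
      filter_upwards [(h2 j φ hφ ν).1, (h2 j φ hφ ν).2.1 p hp.ne_zero] with k g1 g2 c hc
      have e1 : (p : K) * c / p = c := mul_div_cancel_left₀ _ hp0
      by_cases hR : c ∈ R K
      · rw [gn_pin_pos (by rwa [e1])]
        lift c to R K using hR
        have hc0 : c ≠ 0 := fun h => hc (by rw [h]; rfl)
        by_cases hd : p ∣ c
        · rw [gn_pout_pos ((dvd_iff_div_mem hp.ne_zero).1 hd), mul_zero]
          obtain ⟨c₁, rfl⟩ := hd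
          refine g1 _ (mul_ne_zero hp0 hc) ?_
          rw [← (h1.2.2 p ν hp hν).2.2.1 c₁ (right_ne_zero_of_mul hc0)]
          congr 1
          push_cast; ring
        · rw [gn_pout_neg fun h => hd ((dvd_iff_div_mem hp.ne_zero).2 h)]
          exact (g2 c ((cop_of_prime hp hd).symm hc)).1
      · rw [gn_pin_neg (by rwa [e1]), gn_pout_notMem S _ hp.ne_zero hR, mul_zero]) hρ hσ
  obtain ⟨a, t, ha, ht, e1, e2, e3, e4⟩ := roots hp.ne_zero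
  have e5 := (h1.2.2 p ν hp hν).1
  have ha' : (a : ℂ) ≠ 0 := ofReal_ne_zero.2 ha.ne'
  have ht' : (t : ℂ) ≠ 0 := ofReal_ne_zero.2 ht.ne'
  have : conj (S.G ν p) * (((Nr p : ℝ) ^ (-(2 / 3) : ℝ) : ℝ) : ℂ) *
      ((NS p ^ (7 / 3 : ℝ) : ℝ) : ℂ) * ρ = σ := by
    rw [e, e1, e2, e3, r23 ha, r73 ht, r43 (mul_pos ha ht), e4]
    rw [e4] at e5
    push_cast
    field_simp
    linear_combination σ * e5
  rwa [this]

include hA hB hR2 h1 h2 h3 in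
theorem step_unit {j : ℕ} {φ : K → K → ℂ} (hφ : Fam j φ) {u : R K} (hu : IsUnit u) {ρ : ℂ}
    (hρ : Res (S.ap φ) 1 ρ) :
    Res (S.ap (S.T u φ)) u (conj (S.G 1 u) * (((Nr u : ℝ) ^ (-(2 / 3) : ℝ) : ℝ) : ℂ) *
      ((NS u ^ (7 / 3 : ℝ) : ℝ) : ℂ) * ρ) := by
  have hu0 := coe_ne_zero hu.ne_zero
  obtain ⟨j', hψ⟩ := (h3.1 j φ hφ _ hu0).1
  obtain ⟨σ, hσ⟩ := hB.2.1 _ (hR2.1 _ _ hψ) _ u.2
  have hG : S.G 1 u = 1 := h1.1 1 (one_mem _) _ ((isUnit_R_iff hu0).1 hu)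
  have hN : Nr u = 1 := Nq_eq_one_iff.2 hu
  have e := hρ.unique (hA.2.2.2.2.1 _ _ 1 u u ((nm (u : K) : ℂ))⁻¹ σ (hB.1 _ (hR2.1 _ _ hψ)) hu0 (by
    filter_upwards [(h2 j φ hφ 1).2.1 u hu.ne_zero] with k g2 c hc
    by_cases hR : c ∈ R K
    · have := (g2 c (cop_unit hu hR hc)).1
      simpa [hG, hN] using this
    · rw [gn_ap_of_notMem S _ hR, gn_ap_of_notMem S _ (mul_notMem hu hR), mul_zero]) hσ)
  obtain ⟨t, ht, e2⟩ := exists_cube (NS_pos hu.ne_zero)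
  have ht' : (t : ℂ) ≠ 0 := ofReal_ne_zero.2 ht.ne'
  have : conj (S.G 1 u) * (((Nr u : ℝ) ^ (-(2 / 3) : ℝ) : ℝ) : ℂ) *
      ((NS u ^ (7 / 3 : ℝ) : ℝ) : ℂ) * ρ = σ := by
    rw [e, hG, hN, ← NS_unit hu, e2, r73 ht, r43 ht]
    simp only [map_one, Nat.cast_one, Real.one_rpow]
    push_cast
    field_simp
  rwa [this]

include hA hB hR2 h1 h2 h3 in
theorem scal_unit {j : ℕ} {φ : K → K → ℂ} (hφ : Fam j φ) {u : R K} (hu : IsUnit u) {ρ : ℂ}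
    (hρ : Res (S.ap φ) 1 ρ) : Res (S.ap (Zs ((u : K) ^ 3) φ)) 1 ((NS u : ℂ) ^ 4 * ρ) := by
  have hu0 := coe_ne_zero hu.ne_zero
  obtain ⟨j', hψ⟩ := (h3.1 j φ hφ _ (pow_ne_zero 3 hu0)).1
  obtain ⟨j'', hχ⟩ := fam_Zs S h3 hφ hu0
  obtain ⟨σ, hσ⟩ := hB.2.1 _ (hR2.1 _ _ hχ) _ (one_mem _)
  have hG : S.G 1 ((u : K) ^ 3) = 1 :=
    h1.1 1 (one_mem _) _ ((isUnit_R_iff (coe_ne_zero (hu.pow 3).ne_zero)).1 (hu.pow 3))
  have hN : Nr u = 1 := Nq_eq_one_iff.2 hu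
  have hn := nmC_ne hu0
  have e := hρ.unique (hA.2.2.2.2.1 _ _ 1 1 ((u : K) ^ 3) 1 σ (hB.1 _ (hR2.1 _ _ hχ))
    (pow_ne_zero 3 hu0) (by
    filter_upwards [(h2 j φ hφ 1).2.1 (u ^ 3) (hu.pow 3).ne_zero,
      (h2 j' _ hψ 1).2.1 u hu.ne_zero] with k g2 g3 c hc
    by_cases hR : c ∈ R K
    · have a1 := (g2 c (cop_unit (hu.pow 3) hR hc)).1
      have a2 := (g3 c (cop_unit hu hR hc)).2
      rw [Zs_eq S hφ hu0] at a2
      simp only [OneMemClass.coe_one, SubmonoidClass.coe_pow, Nr_pow, hN, hG, nm,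
        CM.nm_pow] at a1 a2
      rw [a1, a2]
      push_cast
      field_simp
    · have := mul_notMem (hu.pow 3) hR
      rw [gn_ap_of_notMem S _ hR, gn_ap_of_notMem S _ (by simpa using this), mul_zero]) hσ)
  have ht := NS_pos hu.ne_zero
  have ht' := NSC_ne hu.ne_zero
  have : (NS u : ℂ) ^ 4 * ρ = σ := by
    rw [e, nm, CM.nm_pow, ← nm, ← NS_unit hu, r43 ht]
    push_cast
    field_simp
  rwa [this]

include hA hB hR2 h1 h2 h3 in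
theorem scal_prime {j : ℕ} {φ : K → K → ℂ} (hφ : Fam j φ) {p : R K} (hp : Prime p) {ρ : ℂ}
    (hρ : Res (S.ap φ) 1 ρ) : Res (S.ap (Zs ((p : K) ^ 3) φ)) 1 ((NS p : ℂ) ^ 4 * ρ) := by
  have hp0 := coe_ne_zero hp.ne_zero
  have hν : ¬ p ∣ 1 := hp.not_dvd_one
  obtain ⟨j₁, hψ⟩ := (h3.1 j φ hφ _ hp0).1
  obtain ⟨j₂, hψ₂⟩ := (h3.1 j₁ _ hψ _ (pow_ne_zero 2 hp0)).1
  obtain ⟨j₃, hχ⟩ := fam_Zs S h3 hφ hp0
  obtain ⟨σ, hσ⟩ := hB.2.1 _ (hR2.1 _ _ hχ) _ (one_mem _)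
  have hρ₁ := step_prime hA hB hR2 h1 h2 h3 hφ hp hν hρ
  obtain ⟨e5, e6, -, e7, e8⟩ := h1.2.2 p 1 hp hν
  simp only [OneMemClass.coe_one, one_mul] at hρ₁ e5 e6 e7 e8
  have hn := nmC_ne hp0
  have hq := NrC_ne hp.ne_zero
  have e := link hA hB (hR2.1 _ _ hψ) (hR2.1 _ _ hχ) hp p.2 (one_mem _) (pow_ne_zero 2 hp0)
    (z := conj (S.G 1 p) * (nm (p : K) : ℂ)) (by
      filter_upwards [(h2 j₁ _ hψ p).1, (h2 j₁ _ hψ p).2.1 (p ^ 2) (pow_ne_zero 2 hp.ne_zero),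
        (h2 j₂ _ hψ₂ 1).2.1 p hp.ne_zero] with k g1 g2 g3 c hc
      have e1 : (p : K) ^ 2 * c / p = p * c := by field_simp
      by_cases hR : c ∈ R K
      · rw [gn_pin_pos (by rw [e1]; exact mul_mem p.2 hR)]
        lift c to R K using hR
        have hc0 : c ≠ 0 := fun h => hc (by rw [h]; rfl)
        by_cases hd : p ∣ c
        · rw [gn_pout_pos ((dvd_iff_div_mem hp.ne_zero).1 hd), mul_zero]
          obtain ⟨c₁, rfl⟩ := hd
          refine g1 _ (mul_ne_zero (pow_ne_zero 2 hp0) hc) ?_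
          rw [← e7 c₁ (right_ne_zero_of_mul hc0)]
          congr 1
          push_cast; ring
        · rw [gn_pout_neg fun h => hd ((dvd_iff_div_mem hp.ne_zero).2 h)]
          have hcop : IsCoprime p c := hp.coprime_iff_not_dvd.2 hd
          have a1 := (g2 c (cop_iff.2 ⟨hc0, hcop.pow_left⟩)).1
          have a2 := (g3 c (cop_iff.2 ⟨hc0, hcop⟩)).2
          rw [Zs_eq' S hφ hp0] at a2
          simp only [OneMemClass.coe_one, SubmonoidClass.coe_pow, Nr_pow, nm, CM.nm_pow, one_mul,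
            ← pow_succ'] at a1 a2
          rw [a1, a2, e6]
          push_cast
          field_simp
      · rw [gn_pout_notMem S _ hp.ne_zero hR, mul_zero]
        by_cases hR' : (p : K) * c ∈ R K
        · rw [gn_pin_pos (by rwa [e1])]
          refine g1 _ (mul_ne_zero (pow_ne_zero 2 hp0) hc) ?_
          rw [← e8 ⟨_, hR'⟩ fun h => hR (by
            simpa [mul_div_cancel_left₀ _ hp0] using (dvd_iff_div_mem hp.ne_zero).1 h)]
          congr 1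
          ring
        · exact gn_pin_neg (by rwa [e1]) _ _ _) hρ₁ hσ
  obtain ⟨a, t, ha, ht, e1, e2, e3, e4⟩ := roots hp.ne_zero
  have ha' : (a : ℂ) ≠ 0 := ofReal_ne_zero.2 ha.ne'
  have ht' : (t : ℂ) ≠ 0 := ofReal_ne_zero.2 ht.ne'
  have hG : conj (S.G 1 p) ≠ 0 := right_ne_zero_of_mul (by rw [e5]; exact hq)
  have e9 : nm ((p : K) ^ 2) = ((a * t) ^ 2) ^ 3 := by rw [nm, CM.nm_pow, ← nm, e3]; ring
  have : (NS p : ℂ) ^ 4 * ρ = σ := by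
    rw [e9, e1, e2, e3, r23 ha, r73 ht, r43 (by positivity), e4] at e
    rw [e2]
    push_cast at e ⊢
    field_simp at e
    linear_combination e
  rwa [this]

end Sqf

open Sqf

theorem sqf (S : Sy K) (hA : RESA K) (hB : RESB S) (hR2 : ROW2 S) (h1 : GAU1 S) (h2 : GAU2 S)
    (h3 : GAU3 S) : SQF S := by
  intro j φ hφ n ρ hn hρ
  induction n using UniqueFactorizationMonoid.induction_on_prime with
  | h₁ => exact absurd hn not_squarefree_zero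
  | h₂ u hu => exact step_unit hA hB hR2 h1 h2 h3 hφ hu hρ
  | h₃ m p hm hp ih =>
    have hd : ¬ p ∣ m := fun h => hp.not_isUnit (hn p (mul_dvd_mul_left p h))
    have hp0 := coe_ne_zero hp.ne_zero
    have hm0 := coe_ne_zero hm
    obtain ⟨j', hψ⟩ := (h3.1 j φ hφ _ hm0).1
    have a1 := hA.2.2.1 _ _ _ (S.h m p)
      (step_prime hA hB hR2 h1 h2 h3 hψ hp hd (ih (hn.of_mul_right)))
    rw [← T_mul S hφ hp0 hm0, mul_comm (m : K)] at a1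
    have a2 := h1.2.1 1 (one_mem _) m p hm0 (cop_of_prime hp hd)
    rw [one_mul, mul_comm (m : K)] at a2
    rw [MulMemClass.coe_mul, a2, Nr_mul, NS_mul, Nat.cast_mul,
      Real.mul_rpow (Nat.cast_nonneg _) (Nat.cast_nonneg _),
      Real.mul_rpow (NS_pos hp.ne_zero).le (NS_pos hm).le, map_mul, map_mul, conj_h S hp0 hm0]
    refine Eq.mp (congrArg _ ?_) a1
    push_cast
    ring

theorem scal (S : Sy K) (hA : RESA K) (hB : RESB S) (hR2 : ROW2 S) (h1 : GAU1 S) (h2 : GAU2 S)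
    (h3 : GAU3 S) : SCAL S := by
  intro j φ hφ b ρ hb hρ
  induction b using UniqueFactorizationMonoid.induction_on_prime with
  | h₁ => exact absurd rfl hb
  | h₂ u hu => exact scal_unit hA hB hR2 h1 h2 h3 hφ hu hρ
  | h₃ m p hm hp ih =>
    obtain ⟨j', hψ⟩ := fam_Zs S h3 hφ (coe_ne_zero hm)
    have a1 := scal_prime hA hB hR2 h1 h2 h3 hψ hp (ih hm)
    have a2 : Zs ((p : K) ^ 3) (Zs ((m : K) ^ 3) φ) = Zs (((p * m : R K) : K) ^ 3) φ := by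
      funext c d
      simp only [Zs]
      congr 1 <;> push_cast <;> ring
    rw [a2] at a1
    refine Eq.mp (congrArg _ ?_) a1
    rw [NS_mul]
    push_cast
    ring

end Vale.Agent.P016Z.TH
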