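import Vale.Agent.P016Z.TH.GramC

/-!
P016, block THETA: the Gram computation for the basic row function.
-/

namespace Vale.Agent.P016Z.TH

open NumberField MeasureTheory Filter Topology Complex
open Vale.Agent.P006
open scoped ENNReal ComplexConjugate

set_option linter.unusedSectionVars false

variable {K : Type} [Field K] [NumberField K] [Dat K] {S : Sy K}

theorem Lat_lv_mono {j k : ℕ} (h : j ≤ k) : Lat (lv K k) ≤ Lat (lv K j) := by
  intro x hx
  obtain ⟨d, rfl⟩ := Nat.exists_eq_add_of_le h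
  have hQ := QK_ne K
  have e : x / lv K j = (Q K : K) ^ d * (x / lv K (j + d)) := by
    unfold lv; field_simp; ring
  rw [mem_Lat, e]
  exact ((isIntegral_natCast (Q K)).pow d).mul hx

theorem Gam_mono {j k : ℕ} (h : j ≤ k) : Gam K k ≤ Gam K j := fun _ hg =>
  ⟨Lat_lv_mono h hg.1, Lat_lv_mono h hg.2.1, Lat_lv_mono h hg.2.2.1, Lat_lv_mono h hg.2.2.2⟩

theorem Es_const_mul (k : ℕ) (a : K → K → ℂ) (z : ℂ) (X : ℝ) (w : HK K) :
    Es k (fun c d => z * a c d) X w = z * Es k a X w := by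
  unfold Es
  rw [← tsum_mul_left]
  exact tsum_congr fun x => by ring

theorem kub_one (hR : ROW1 S) : S.kub 1 = 1 := by
  have h1 := hR.1 1 (one_mem _) 1 (one_mem _)
  have h2 := hR.2.1 1 (one_mem _)
  rw [mul_one] at h1
  have h3 : S.kub 1 ≠ 0 := by
    intro h; rw [h, norm_zero] at h2; exact zero_ne_one h2
  exact (mul_eq_left₀ h3).1 h1.symm

theorem kub_inv (hR : ROW1 S) {g : SL2 K} (hg : g ∈ Gam K 1) : S.kub g⁻¹ = conj (S.kub g) := by
  have h1 := hR.1 g⁻¹ (inv_mem hg) g hg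
  rw [inv_mul_cancel, kub_one hR] at h1
  have h2 : conj (S.kub g) * S.kub g = 1 := by
    rw [Complex.conj_mul', hR.2.1 g hg]; simp
  calc S.kub g⁻¹ = S.kub g⁻¹ * (conj (S.kub g) * S.kub g) := by rw [h2, mul_one]
    _ = conj (S.kub g) * (S.kub g⁻¹ * S.kub g) := by ring
    _ = _ := by rw [← h1, mul_one]

theorem Es_aut (hR : ROW1 S) (hE : EIS K) {k : ℕ} {a : K → K → ℂ} {g : SL2 K}
    (hg : g ∈ Gam K 1) (e : ∀ c d, act a g⁻¹ c d = S.kub g⁻¹ * a c d) (X : ℝ) (w : HK K) :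
    Es k a X (g • w) = conj (S.kub g) * Es k a X w := by
  have h1 := hE.2.1 k a X g⁻¹ w
  rw [inv_inv] at h1
  rw [← h1, ← kub_inv hR hg, ← Es_const_mul]
  congr 1
  funext c d
  exact e c d

/-- one orbit of rows -/
structure Orb (S : Sy K) (k : ℕ) (B : Subgroup (SL2 K)) (b : K → K → ℂ) : Prop where
  le : B ≤ Gam K k
  tr : Tr (lv K k) ≤ B
  supp : ∀ c d, b c d ≠ 0 → ∃ g ∈ B, g 1 0 = c ∧ g 1 1 = d
  val : ∀ g ∈ B, b (g 1 0) (g 1 1) = S.kub g

/-- the measure on the quotient -/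
noncomputable def qB (W : HK K → ℝ≥0∞) (B : Subgroup (SL2 K)) : Measure (HK K) :=
  H9.qm (G := SLO K) (cmK K).mu W (B.subgroupOf (SLO K))

section unfold

variable {k : ℕ} (hk : 1 ≤ k) {V : Subgroup Kˣ} {κ : ℝ} (hb : Part V κ (bet K k)) (hE : EIS K)
  (hR : ROW1 S) {W : HK K → ℝ≥0∞} (hW : H9.IsBase (SLO K) W)
  {A : Set (io K → ℂ)} (hA : IsCell (lv K k) A)
  {B : Subgroup (SL2 K)} {b : K → K → ℂ} (hB : Orb S k B b)
  {a : K → K → ℂ} (ha : IAdm k a) (he : ∀ g ∈ B, ∀ c d, act a g c d = S.kub g * a c d)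

include hk hb hE hR hW hA hB ha he

theorem unfold_orb (X : ℝ) {Y : ℝ} (hY : 0 < Y) :
    Integrable (fun w => Es k b Y w * conj (Es k a X w)) (qB W B) ∧
      ∫ w, Es k b Y w * conj (Es k a X w) ∂(qB W B) =
        ∫ w in HS.z ⁻¹' A, (cut K k Y (HS.v w) : ℂ) * conj (Es k a X w) ∂(cmK K).mu := by
  have hB1 : B ≤ Gam K 1 := hB.le.trans (Gam_mono hk)
  have hBO : B ≤ SLO K := hB.le.trans (Gam_le_SLO k)
  choose r hr1 hr2 hr3 using fun x : {x : K × K // b x.1 x.2 ≠ 0} => hB.supp x.1.1 x.1.2 x.2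
  let r' : {x : K × K // b x.1 x.2 ≠ 0} → SLO K := fun x => ⟨r x, hBO (hr1 x)⟩
  have htr : H9.IsTransversal ((Tr (lv K k)).subgroupOf (SLO K)) (B.subgroupOf (SLO K)) r' := by
    refine ⟨fun g hg => hB.tr hg, fun x => hr1 x, fun g hg => ?_, fun x y t ht e => ?_⟩
    · have hg' : (g : SL2 K) ∈ B := hg
      have hne : b ((g : SL2 K) 1 0) ((g : SL2 K) 1 1) ≠ 0 := by
        rw [hB.val _ hg']
        intro h
        have := hR.2.1 _ (hB1 hg')
        rw [h, norm_zero] at this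
        exact zero_ne_one this
      let x : {x : K × K // b x.1 x.2 ≠ 0} := ⟨((g : SL2 K) 1 0, (g : SL2 K) 1 1), hne⟩
      refine ⟨g * (r' x)⁻¹, ?_, x, by simp⟩
      have h1 : (g : SL2 K) * (r x)⁻¹ ∈ Gam K k := hB.le (mul_mem hg' (inv_mem (hr1 x)))
      refine ⟨((g : SL2 K) * (r x)⁻¹) 0 1, h1.2.1, ?_⟩
      show (g : SL2 K) * (r x)⁻¹ = _
      have d1 := KU.det_eq (r x)
      have d2 := KU.det_eq (g : SL2 K)
      have e2 : r x 1 0 = (g : SL2 K) 1 0 := hr2 x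
      have e3 : r x 1 1 = (g : SL2 K) 1 1 := hr3 x
      refine KU.ext2 ?_ rfl ?_ ?_
      · rw [KU.mul_00, KU.inv_00, KU.inv_10, tr_00, e2, e3]; linear_combination d2
      · rw [KU.mul_10, KU.inv_00, KU.inv_10, tr_10, e2, e3]; ring
      · rw [KU.mul_11, KU.inv_01, KU.inv_11, tr_11, ← e2, ← e3]; linear_combination d1
    · obtain ⟨s, -, hs⟩ := ht
      have hs : ((t : SLO K) : SL2 K) = KU.tr s := hs
      have e' : r x = KU.tr s * r y := by rw [← hs]; exact congrArg Subtype.val e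
      refine Subtype.ext (Prod.ext ?_ ?_)
      · rw [← hr2 x, ← hr2 y, e', KU.mul_10, tr_10, tr_11]; ring
      · rw [← hr3 x, ← hr3 y, e', KU.mul_11, tr_10, tr_11]; ring
  have hm : Measurable fun w : HK K => (cut K k Y (HS.v w) : ℂ) :=
    Complex.measurable_ofReal.comp ((measurable_cut hb Y).comp HS.continuous_v.measurable)
  have h := H9.unfold_Eis (G := SLO K) hW htr (fd_strip hA (hB.tr.trans hBO))
    (χ := fun g : SLO K => conj (S.kub g)) (ψ := fun w : HK K => (cut K k Y (HS.v w) : ℂ))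
    (F := Es k a X) ?_ hm ?_ (hE.1 k a X) ?_ (integrable_strip hb hE ha hA X hY)
  · have e : ∀ w : HK K, H9.Eis r' (fun g : SLO K => conj (S.kub g))
        (fun w : HK K => (cut K k Y (HS.v w) : ℂ)) w = Es k b Y w := by
      intro w
      unfold H9.Eis Es
      rw [← tsum_subtype_eq_of_support_subset (s := {x : K × K | b x.1 x.2 ≠ 0})
        (fun x hx => left_ne_zero_of_mul (left_ne_zero_of_mul hx))]
      refine tsum_congr fun x => ?_
      have e1 : S.kub (r x) = b x.1.1 x.1.2 := by rw [← hB.val _ (hr1 x), hr2, hr3]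
      show conj (conj (S.kub (r x))) * (cut K k Y (HS.v (r x • w)) : ℂ) = _
      rw [Complex.conj_conj, e1, ← cut_eq, CM.Qv_smul, CM.QQ_smul, mul_assoc]
      simp only [zero_mul, one_mul, zero_add, hr2, hr3]
    simp only [e] at h
    exact h
  · rintro t ⟨s, -, hs⟩
    have hs : ((t : SLO K) : SL2 K) = KU.tr s := hs
    show conj (S.kub (t : SL2 K)) = 1
    have : S.kub (t : SL2 K) = S.kub 1 := by rw [hs]; rfl
    rw [this, kub_one hR, map_one]
  · rintro t ⟨s, -, hs⟩ w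
    have hs : ((t : SLO K) : SL2 K) = KU.tr s := hs
    show (cut K k Y (HS.v ((t : SL2 K) • w)) : ℂ) = _
    rw [hs, CM.tr_smul_v]
  · intro g hg w
    have hg' : (g : SL2 K) ∈ B := hg
    exact Es_aut hR hE (hB1 hg') (he _ (inv_mem hg')) X w

/-- the asymptotic Gram formula -/
theorem gram_orb (hF : FOUR K) {C : ℝ} {α : ℂ}
    (h1 : ∀ x : ℝ, 0 < x → ‖Sg k (Lat (lv K k)) a 0 x‖ ≤ C * x ^ (4 / 3 : ℝ))
    (h2 : Tendsto (fun x : ℝ => ((x ^ (-(4 / 3) : ℝ) : ℝ) : ℂ) * Sg k (Lat (lv K k)) a 0 x)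
      atTop (𝓝 α)) :
    (∀ X Y : ℝ, 0 < Y → Integrable (fun w => F k b Y w * conj (F k a X w)) (qB W B)) ∧
      Tendsto (fun p : ℝ × ℝ => ∫ w, F k b p.2 w * conj (F k a p.1 w) ∂(qB W B)) atTop
        (𝓝 (conj (α * (ker0 hb).hat))) := by
  have e : ∀ X Y w, F k b Y w * conj (F k a X w) =
      ((X ^ (-(4 / 3) : ℝ) * Y ^ (-(4 / 3) : ℝ) : ℝ) : ℂ) * (Es k b Y w * conj (Es k a X w)) := by
    intro X Y w
    simp only [F, map_mul, conj_ofReal, ofReal_mul]; ring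
  simp only [e]
  refine ⟨fun X Y hY => (unfold_orb hk hb hE hR hW hA hB ha he X hY).1.const_mul _, ?_⟩
  obtain ⟨D, hD⟩ := strip_eq hb hE ha hF hA
  have hT := (hF _ (lv_ne k) A hA k a ha.adm ha.per 0 (zero_mem_Dual _)).1
  have hl := ((ker0 hb).lim_of_asymp hT.1 h1 h2).2
  have hmul : Tendsto (fun p : ℝ × ℝ => p.1 * p.2) atTop atTop := by
    rw [← prod_atTop_atTop_eq]
    exact tendsto_fst.atTop_mul_atTop₀ tendsto_snd
  have hmin : Tendsto (fun p : ℝ × ℝ => min p.1 p.2) atTop atTop := by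
    rw [← prod_atTop_atTop_eq]
    exact tendsto_atTop.2 fun t => ((tendsto_atTop.1 tendsto_fst t).and
      (tendsto_atTop.1 tendsto_snd t)).mono fun p hp => le_min hp.1 hp.2
  have h3 := (Complex.continuous_conj.tendsto _).comp (hl.comp hmul)
  have h4 : Tendsto (fun p : ℝ × ℝ => D * min p.1 p.2 ^ (-(2 / 3) : ℝ)) atTop (𝓝 0) := by
    simpa using ((tendsto_rpow_neg_atTop (y := 2 / 3) (by norm_num)).comp hmin).const_mul D
  refine h3.congr_dist (squeeze_zero' (Eventually.of_forall fun _ => dist_nonneg) ?_ h4)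
  filter_upwards [hmin.eventually (eventually_gt_atTop 0)] with p hp
  have hX : 0 < p.1 := hp.trans_le (min_le_left _ _)
  have hY : 0 < p.2 := hp.trans_le (min_le_right _ _)
  have hD0 : 0 ≤ D := by
    have := (norm_nonneg _).trans (hD 1 1 one_pos one_pos)
    simpa using this
  rw [dist_comm, dist_eq_norm, integral_const_mul,
    (unfold_orb hk hb hE hR hW hA hB ha he p.1 hY).2]
  simp only [Function.comp, map_mul, conj_ofReal]
  rw [Real.mul_rpow hX.le hY.le, ← mul_sub, norm_mul, Complex.norm_real,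
    Real.norm_of_nonneg (by positivity)]
  refine (mul_le_mul_of_nonneg_left (hD _ _ hX hY) (by positivity)).trans ?_
  have g1 : p.1 ^ (-(4 / 3) : ℝ) ≤ min p.1 p.2 ^ (-(4 / 3) : ℝ) :=
    Real.rpow_le_rpow_of_nonpos hp (min_le_left _ _) (by norm_num)
  have g2 : p.2 ^ (-(4 / 3) : ℝ) ≤ min p.1 p.2 ^ (-(4 / 3) : ℝ) :=
    Real.rpow_le_rpow_of_nonpos hp (min_le_right _ _) (by norm_num)
  calc p.1 ^ (-(4 / 3) : ℝ) * p.2 ^ (-(4 / 3) : ℝ) * (D * min p.1 p.2 ^ 2)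
      ≤ min p.1 p.2 ^ (-(4 / 3) : ℝ) * min p.1 p.2 ^ (-(4 / 3) : ℝ) * (D * min p.1 p.2 ^ 2) := by
        gcongr
    _ = D * (min p.1 p.2 ^ (-(4 / 3) : ℝ) * min p.1 p.2 ^ (-(4 / 3) : ℝ) *
          min p.1 p.2 ^ (2 : ℝ)) := by rw [Real.rpow_two]; ring
    _ = _ := by rw [← Real.rpow_add hp, ← Real.rpow_add hp]; norm_num

end unfold

end Vale.Agent.P016Z.TH
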