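import Vale.Agent.P016Z.TH.RelDefs
import Vale.Agent.P016Z.TH.GramD

/-!
P016, block THETA: the final statement from the blocks.
-/

namespace Vale.Agent.P016Z.TH

open NumberField MeasureTheory Filter Topology Complex
open Vale.Agent.P006
open scoped ENNReal ComplexConjugate

set_option linter.unusedSectionVars false

variable {K : Type} [Field K] [NumberField K] [Dat K] {S : Sy K}

namespace ThA

theorem lv_succ (k : ℕ) : lv K (k + 1) = (Q K : K) * lv K k := by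
  rw [lv, lv, pow_succ' _ (k + 1)]

theorem int_of_dual {k : ℕ} {ν : K} (h : ν ∈ Dual (lv K k)) :
    IsIntegral ℤ (lv K (k + 1) * ν) := by
  rw [lv_succ, mul_assoc]
  refine Dat.dual _ fun o => ?_
  obtain ⟨n, hn⟩ := ee_eq_one_iff.1 (h _ (mul_mem_Lat_self (m := lv K k) o.isIntegral_coe))
  refine ⟨n, ?_⟩
  rw [trR, show ν * (lv K k * (o : K)) = lv K k * ν * o by ring] at hn
  exact_mod_cast hn

theorem dual_cube {k : ℕ} {l : Kˣ} (hl : l ∈ P K (k + 1)) {ν : K} (h1 : ν ∈ R K)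
    (h2 : (l : K) ^ 3 * ν ∈ R K) (h : ν ∈ Dual (lv K k)) : (l : K) ^ 3 * ν ∈ Dual (lv K k) := by
  intro t ht
  have ht' := isIntegral_of_mem_Lat ht
  have h3 : ((l : K) ^ 3 - 1) / lv K (k + 1) ∈ Si K := by
    have := pow_mem hl 3
    rw [mem_P] at this
    push_cast at this
    exact this
  have h4 : IsIntegral ℤ (((l : K) ^ 3 - 1) * ν * t) := by
    refine isIntegral_of_mem ?_ ?_
    · rw [sub_mul, one_mul]
      exact mul_mem (sub_mem h2 h1) (mem_R_of_isIntegral ht')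
    · have := lv_ne (K := K) (k + 1)
      rw [show ((l : K) ^ 3 - 1) * ν * t =
        ((l : K) ^ 3 - 1) / lv K (k + 1) * (lv K (k + 1) * ν) * t by field_simp]
      exact mul_mem (mul_mem h3 (mem_Si_of_isIntegral (int_of_dual h)))
        (mem_Si_of_isIntegral ht')
  rw [show (l : K) ^ 3 * ν * t = ν * t + ((l : K) ^ 3 - 1) * ν * t by ring, eT_add, h t ht,
    eT_of_isIntegral h4, mul_one]

theorem act_one (a : K → K → ℂ) : act a (1 : SL2 K)⁻¹ = a := by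
  funext c d
  simp [act]

end ThA

open ThA in
theorem theta_of (hU : THU K) (hX : THX S) (hM : MAINR S) (hC : CUSP S) (hR : ROW1 S)
    (hR2 : ROW2 S) : THETA S := by
  obtain ⟨M₀, hM⟩ := hM
  refine ⟨M₀, fun k₀ hk₀ => ?_⟩
  obtain ⟨j, ψ, T, hψ, hT, hres⟩ := hM k₀ hk₀
  have ha : S.Eqv (S.ap ψ) := hR2.1 j ψ hψ
  set a := S.ap ψ with ha_def
  obtain ⟨i, hi⟩ := exists_pow_mul_mem_Si k₀
  have hg : ∀ g ∈ SLr K, S.Eqv (act a g⁻¹) := fun g hg => hR2.2.1 a ha _ (inv_mem hg)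
  obtain ⟨_, -, -, θ, -, hθ, -⟩ := (hX a ha).2.exists
  have key : ∀ g : SL2 K, ∃ (k : ℕ) (cv : ℝ) (τ : K → ℂ), g ∈ SLr K → i ≤ k ∧ 0 < cv ∧
      IsExp τ (fun w => θ (g • w)) ∧ RS τ ∧ (∀ ν, τ ν ≠ 0 → ν ∈ Dual (lv K k)) ∧
      ∀ ν ∈ Dual (lv K k), Res (act a g⁻¹) ν (cv * τ ν) := by
    intro g
    by_cases h : g ∈ SLr K
    · obtain ⟨hN, h1⟩ := hX _ (hg g h)
      obtain ⟨k, ⟨cv, τ, θ', h2, h3, h4, h5, h6, h7⟩, hk⟩ :=
        (h1.and (eventually_ge_atTop i)).exists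
      have e := hU.1 _ _ _ hN h3 (hU.2.1 a θ g hθ)
      exact ⟨k, cv, τ, fun _ => ⟨hk, h2, e ▸ h4, h5, h6, h7⟩⟩
    · exact ⟨0, 0, 0, fun h' => (h h').elim⟩
  choose k cv τ key using key
  obtain ⟨j', hj'⟩ := ha.eqv
  obtain ⟨k1, c1, -, -, -, r1⟩ := key 1 (one_mem _)
  have c1' : (cv 1 : ℂ) ≠ 0 := ofReal_ne_zero.2 c1.ne'
  refine ⟨θ, max 1 j', T / cv 1, τ, div_ne_zero hT c1', le_max_left _ _, hθ.1,
    fun γ hγ w => ?_, fun g hg' => ?_, fun n b hn hb hc => ?_⟩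
  · have h1 : γ ∈ Gam K 1 := Gam_mono (le_max_left _ _) hγ
    have h2 : γ ∈ Gam K j' := Gam_mono (le_max_right _ _) hγ
    have e : act a γ⁻¹ = conj (S.kub γ) • a := by
      funext c d
      rw [hj' _ (inv_mem h2), kub_inv hR h1]; rfl
    have h3 := hU.2.2 a θ (conj (S.kub γ)) hθ
    rw [← e] at h3
    exact congrFun (hU.1 _ _ _ (hX _ (hg γ (SLO_le_SLr (Gam_le_SLO _ h1)))).1
      (hU.2.1 a θ γ hθ) h3) w
  · obtain ⟨-, c0, h1, h2, h3, h4⟩ := key g hg'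
    have c0' : (cv g : ℂ) ≠ 0 := ofReal_ne_zero.2 c0.ne'
    obtain ⟨h5, h6⟩ := hC _ (hg g hg')
    obtain ⟨j₁, h5⟩ := h5 (k g + 1)
    refine ⟨h1, h2, max (k g + 1) j₁, fun ν hν => ?_, fun l hl ν hν hν' => ?_,
      fun p ν i hp hν => ?_⟩
    · rw [lv_eq_mul (le_max_left (k g + 1) j₁), mul_comm (lv K _), mul_assoc]
      exact ((isIntegral_natCast _).pow _).mul (int_of_dual (h3 ν hν))
    · have hl1 : l ∈ P K (k g + 1) := P_mono (le_max_left _ _) hl
      by_cases h : ν ∈ Dual (lv K (k g))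
      · have h7 := h5 l (P_mono (le_max_right _ _) hl) ν hν hν'
          (mem_Si_of_isIntegral (int_of_dual h)) _ (h4 ν h)
        exact mul_left_cancel₀ c0' ((h4 _ (dual_cube hl1 hν hν' h)).unique h7)
      · have e : ((l⁻¹ : Kˣ) : K) ^ 3 * ((l : K) ^ 3 * ν) = ν := by
          rw [← mul_assoc, ← mul_pow, Units.inv_mul, one_pow, one_mul]
        have h7 : (l : K) ^ 3 * ν ∉ Dual (lv K (k g)) := fun h' =>
          h (e ▸ dual_cube (inv_mem hl1) hν' (e.symm ▸ hν) h')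
        rw [not_not.1 fun h' => h (h3 ν h'), not_not.1 fun h' => h7 (h3 _ h')]
    · by_contra h
      exact h ((mul_eq_zero.1 ((h4 _ (h3 _ h)).unique (h6 p ν i hp hν))).resolve_left c0')
  · have h1 : (n : K) * (b : K) ^ 3 ∈ Dual (lv K (k 1)) := by
      refine mem_Dual_of_isIntegral (lv_ne _) (isIntegral_of_mem ?_ ?_)
      · exact mul_mem (mul_mem n.2 (pow_mem b.2 3)) (lv_mem_R _)
      · have h2 := lv_ne (K := K) M₀
        rw [show (n : K) * (b : K) ^ 3 * lv K (k 1) =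
          (((n : K) * (b : K) ^ 3 / k₀ - 1) / lv K M₀ * lv K M₀ + 1) * (lv K (k 1) * k₀) by
            field_simp; ring]
        exact mul_mem (add_mem (mul_mem hc (lv_mem_Si _)) (one_mem _))
          (pow_mul_mem_Si_mono hi (by omega))
    have h2 := r1 _ h1
    rw [act_one] at h2
    have h3 := h2.unique (hres n b hn hb hc)
    field_simp
    linear_combination h3

end Vale.Agent.P016Z.TH
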