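import Vale.Agent.P016Z.TH.Uncond
import Vale.Agent.P016Z.TH.ResB
import Vale.Agent.P016Z.TH.Nz
import Vale.Agent.P016Z.TH.Cube
import Vale.Agent.P016Z.TH.Sqf
import Vale.Agent.P016Z.TH.MainR
import Vale.Agent.P016Z.TH.ThetaA

/-!
P016, block THETA: the cubic theta function over a number field containing the twelfth roots of
unity, with its Fourier coefficients.
-/

namespace Vale.Agent.P016Z.TH

variable {K : Type} [Field K] [NumberField K] [Dat K]

theorem goodU (S : Sy K) : GOOD S := good eisU (row1 S) (row2 S) (gramU S)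

theorem resaU : RESA K := resa part resel cnt1

theorem thxU (S : Sy K) : THX S := thx eisU (row1 S) (goodU S) limU resaU

theorem thuU : THU K := thu eisU cnt4

theorem resbU (S : Sy K) : RESB S :=
  resb cnt1 (thxU S) (goodU S) lim0U resaU (row2 S) (gau2U S) (gau3 S)

theorem nz0U (S : Sy K) : NZ0 S := nz0 S thuU (thxU S) resaU (row1 S) (row2 S) (meanU S) fourU

theorem cubeU (S : Sy K) : CUBE S := cubeRel S resaU (resbU S) (row2 S) (gau2U S)

theorem cuspU (S : Sy K) : CUSP S := cusp S resaU (resbU S) (row2 S) (cubeU S)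

theorem sqfU (S : Sy K) : SQF S := sqf S resaU (resbU S) (row2 S) (gau1 S) (gau2U S) (gau3 S)

theorem scalU (S : Sy K) : SCAL S := scal S resaU (resbU S) (row2 S) (gau1 S) (gau2U S) (gau3 S)

theorem mainrU (S : Sy K) : MAINR S :=
  mainr S (resbU S) (row2 S) (gau3 S) (cubeU S) (sqfU S) (scalU S) (nz0U S)

/-- the cubic theta function -/
theorem theta (S : Sy K) : THETA S :=
  theta_of thuU (thxU S) (mainrU S) (cuspU S) (row1 S) (row2 S)

end Vale.Agent.P016Z.TH
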