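import Vale.Agent.P016Z.TH.Emb

/-!
P016, block THETA: lattice points in a balanced box.
-/

namespace Vale.Agent.P016Z.TH

open Complex Finset NumberField Module

namespace CM

variable {K : Type} [Field K] {ι : Type} [Fintype ι] (C : CM K ι) [NumberField K]

theorem abs_pr_le (u z : ι → ℂ) {r : ℝ} (hz : ∀ j, ‖z j‖ ≤ r) :
    |pr u z| ≤ (∑ j, 2 * ‖u j‖) * r := by
  rw [pr, sum_mul]
  refine (abs_sum_le_sum_abs _ _).trans (sum_le_sum fun j _ => ?_)
  rw [abs_mul, abs_two, mul_assoc]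
  refine mul_le_mul_of_nonneg_left ((abs_re_le_norm _).trans ?_) zero_le_two
  rw [norm_mul]
  exact mul_le_mul_of_nonneg_left (hz j) (norm_nonneg _)

theorem card_Icc_le (r : ℝ) {M : ℝ} (hM : 0 ≤ M) :
    ((Finset.Icc ⌈r - M⌉ ⌊r + M⌋).card : ℝ) ≤ 2 * M + 1 := by
  rw [Int.card_Icc]
  rcases le_total (⌊r + M⌋ + 1 - ⌈r - M⌉) 0 with h | h
  · rw [Int.toNat_of_nonpos h]; push_cast; linarith
  · rw [← Int.cast_natCast, Int.toNat_of_nonneg h]
    push_cast
    linarith [Int.floor_le (r + M), Int.le_ceil (r - M)]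

/-- lattice points in a balanced box -/
theorem count_box {D : ℕ} (hD : D ≠ 0) : ∃ A : ℝ, 0 ≤ A ∧ ∀ T : ℝ, 0 ≤ T → ∀ a : ι → ℂ,
    ∀ s : Finset K, (∀ x ∈ s, IsIntegral ℤ ((D : K) * x) ∧ ∀ j, normSq (C.sig j x - a j) ≤ T) →
      (s.card : ℝ) ≤ A * (1 + T) ^ Fintype.card ι := by
  classical
  set b := integralBasis K with hb
  set u : _ → ι → ℂ := fun i => C.em ((D : K) * b i) with hu
  set c : ℝ := ∑ i, ∑ j, 2 * ‖u i j‖ with hc
  have hc0 : 0 ≤ c := by positivity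
  refine ⟨(4 * c ^ 2 + 1) ^ Fintype.card ι, by positivity, fun T hT a s hs => ?_⟩
  set n : K → _ → ℤ := fun x i => ⌊Algebra.trace ℚ K ((D : K) * b i * x)⌋ with hn
  have h1 : ∀ x ∈ s, ∀ i, (n x i : ℚ) = Algebra.trace ℚ K ((D : K) * b i * x) := fun x hx i => by
    have hi : IsIntegral ℤ ((D : K) * b i * x) := by
      rw [mul_right_comm, hb, integralBasis_apply]
      exact (hs x hx).1.mul (RingOfIntegers.isIntegral_coe _)
    obtain ⟨m, hm⟩ := IsIntegrallyClosed.isIntegral_iff.mp (Algebra.isIntegral_trace (L := ℚ) hi)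
    simp only [hn, ← hm, eq_intCast, Int.floor_intCast]
  have h2 : Set.InjOn n s := fun x hx y hy e => by
    refine mul_left_cancel₀ (Nat.cast_ne_zero.mpr hD : (D : K) ≠ 0) (b.traceDual.repr.injective ?_)
    ext i
    rw [Basis.traceDual_repr_apply, Basis.traceDual_repr_apply, Algebra.traceForm_apply,
      Algebra.traceForm_apply, mul_right_comm, mul_right_comm _ y, ← h1 x hx, ← h1 y hy, e]
  have h3 : ∀ x ∈ s, n x ∈ Fintype.piFinset fun i =>
      Finset.Icc ⌈pr (u i) a - c * √T⌉ ⌊pr (u i) a + c * √T⌋ := fun x hx => by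
    refine Fintype.mem_piFinset.mpr fun i => ?_
    have e : (n x i : ℝ) = pr (u i) (C.em x) := by
      rw [hu, C.pr_em, ← h1 x hx, Rat.cast_intCast]
    have h4 := abs_pr_le (u i) (C.em x - a) (r := √T) fun j => by
      rw [Complex.norm_def]; exact Real.sqrt_le_sqrt ((hs x hx).2 j)
    have h5 : ∑ j, 2 * ‖u i j‖ ≤ c :=
      single_le_sum (f := fun i => ∑ j, 2 * ‖u i j‖) (fun _ _ => by positivity) (mem_univ i)
    have h6 := abs_le.mp (h4.trans (mul_le_mul_of_nonneg_right h5 (Real.sqrt_nonneg T)))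
    rw [pr_sub_right, ← e] at h6
    rw [Finset.mem_Icc, Int.ceil_le, Int.le_floor]
    constructor <;> linarith [h6.1, h6.2]
  have h7 := card_le_card_of_injOn n h3 h2
  rw [Fintype.card_piFinset] at h7
  have h8 : (s.card : ℝ) ≤ (2 * (c * √T) + 1) ^ (2 * Fintype.card ι) := by
    refine (Nat.cast_le.mpr h7).trans ?_
    rw [Nat.cast_prod, C.card_eq, finrank_eq_card_basis b, ← card_univ, ← prod_const]
    exact prod_le_prod (fun _ _ => Nat.cast_nonneg _) fun i _ => card_Icc_le _ (by positivity)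
  refine h8.trans ?_
  rw [pow_mul, ← mul_pow]
  gcongr
  nlinarith [Real.sq_sqrt hT, sq_nonneg (2 * c - √T)]

theorem finite_box {D : ℕ} (hD : D ≠ 0) (T : ℝ) (a : ι → ℂ) :
    {x : K | IsIntegral ℤ ((D : K) * x) ∧ ∀ j, normSq (C.sig j x - a j) ≤ T}.Finite := by
  obtain ⟨A, -, h⟩ := C.count_box hD
  by_contra hi
  obtain ⟨n, hn⟩ := exists_nat_gt (A * (1 + max T 0) ^ Fintype.card ι)
  obtain ⟨s, hs, rfl⟩ := Set.Infinite.exists_subset_card_eq hi n
  exact hn.not_ge (h _ (le_max_right T 0) a s fun x hx =>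
    ⟨(hs hx).1, fun j => ((hs hx).2 j).trans (le_max_left _ _)⟩)

end CM

end Vale.Agent.P016Z.TH
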