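import Vale.Agent.P016Z.TH.Jac
import Vale.Agent.P006.H9.Measure
import Mathlib.MeasureTheory.Constructions.Pi
import Mathlib.MeasureTheory.Measure.OpenPos

/-!
P016, block THETA: the product of hyperbolic spaces, the action of `SL₂(K)`, the invariant measure
and the hermitian forms.
-/

namespace Vale.Agent.P016Z.TH

open MeasureTheory Set Filter Complex Finset Matrix
open scoped ENNReal
open Vale.Agent.P006 Vale.Agent.P006.H9

theorem nuV_Iic : nuV (Ioi (0 : ℝ))ᶜ = 0 := by
  refine withDensity_absolutelyContinuous _ _ ?_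
  rw [Measure.restrict_apply measurableSet_Ioi.compl, compl_inter_self, measure_empty]

theorem ae_nuV_pos : ∀ᵐ v ∂nuV, 0 < v := nuV_Iic

theorem restrict_ac_nuV : volume.restrict (Ioi (0 : ℝ)) ≪ nuV := by
  refine withDensity_absolutelyContinuous' (by fun_prop) ?_
  refine (ae_restrict_iff' measurableSet_Ioi).2 (Eventually.of_forall fun v hv => ?_)
  have hv : (0 : ℝ) < v := hv
  rw [Ne, ENNReal.ofReal_eq_zero, not_le]; positivity

theorem measurePreserving_of :
    MeasurePreserving (fun p : ℂ × ℝ => H3.of p.1 p.2) ((volume : Measure ℂ).prod nuV) muH :=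
  ⟨H3.measurable_of, rfl⟩

theorem map_coord : muH.map (fun w : H3 => (w.z, w.v)) = (volume : Measure ℂ).prod nuV := by
  have hm : Measurable fun w : H3 => (w.z, w.v) := H3.measurable_z.prodMk H3.measurable_v
  rw [muH, Measure.map_map hm H3.measurable_of]
  have : (fun w : H3 => (w.z, w.v)) ∘ (fun p : ℂ × ℝ => H3.of p.1 p.2) =ᵐ[(volume :
      Measure ℂ).prod nuV] id := by
    have h : ∀ᵐ p ∂((volume : Measure ℂ).prod nuV), 0 < p.2 :=
      Measure.quasiMeasurePreserving_snd.ae ae_nuV_pos
    filter_upwards [h] with p hp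
    simp [H3.of_v hp]
  rw [Measure.map_congr this, Measure.map_id]

instance : SigmaFinite muH := by
  have hm : Measurable fun w : H3 => (w.z, w.v) := H3.measurable_z.prodMk H3.measurable_v
  have : SigmaFinite (muH.map (fun w : H3 => (w.z, w.v))) := by rw [map_coord]; infer_instance
  exact SigmaFinite.of_map muH hm.aemeasurable this

instance : muH.IsOpenPosMeasure := by
  refine ⟨fun V hV hne h0 => ?_⟩
  obtain ⟨w0, hw0⟩ := hne
  have h1 : IsOpen {p : ℂ × ℝ | 0 < p.2} := isOpen_lt continuous_const continuous_snd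
  have hopen : IsOpen ((Subtype.val : H3 → ℂ × ℝ) '' V) := h1.isOpenMap_subtype_val V hV
  have h2 : ((volume : Measure ℂ).prod nuV) ((Subtype.val : H3 → ℂ × ℝ) '' V) = 0 := by
    rw [muH, Measure.map_apply H3.measurable_of hV.measurableSet] at h0
    refine measure_mono_null ?_ h0
    rintro _ ⟨w, hw, rfl⟩
    have e := H3.of_self (w : H3)
    show H3.of (H3.z w) (H3.v w) ∈ V
    exact e.symm ▸ hw
  have h3 : ((volume : Measure ℂ).prod (volume.restrict (Ioi (0 : ℝ))))
      ((Subtype.val : H3 → ℂ × ℝ) '' V) = 0 :=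
    (Measure.AbsolutelyContinuous.rfl.prod restrict_ac_nuV) h2
  rw [← Measure.restrict_univ (μ := (volume : Measure ℂ)), Measure.prod_restrict,
    Measure.restrict_apply hopen.measurableSet] at h3
  have h4 : (Subtype.val : H3 → ℂ × ℝ) '' V ∩ Set.univ ×ˢ Ioi (0 : ℝ) =
      (Subtype.val : H3 → ℂ × ℝ) '' V := by
    refine inter_eq_left.2 ?_
    rintro _ ⟨w, _, rfl⟩
    exact ⟨trivial, w.2⟩
  rw [h4] at h3
  exact hopen.measure_ne_zero _ ⟨_, w0, hw0, rfl⟩ h3

theorem Q_eq_P1 (w : H3) {c : ℂ} (hc : c ≠ 0) (d : ℂ) :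
    Q w c d = normSq c * P1 (w.z + d / c) w.v := by
  have : c * w.z + d = c * (w.z + d / c) := by field_simp
  rw [Q, den, P1, this, normSq_mul]; ring

variable {K : Type} [Field K] {ι : Type}

/-- the product of hyperbolic spaces, one for each place -/
def HS (_ : CM K ι) : Type := ι → H3

/-- the measure `∏ dv_j / v_j³` -/
noncomputable def nuP (ι : Type) [Fintype ι] : Measure (ι → ℝ) := Measure.pi fun _ => nuV

instance [Fintype ι] : SigmaFinite (nuP ι) := by unfold nuP; infer_instance

theorem ae_nuP_pos [Fintype ι] : ∀ᵐ v ∂(nuP ι), ∀ j, 0 < v j := by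
  rw [ae_all_iff]
  intro j
  exact (Measure.quasiMeasurePreserving_eval (fun _ : ι => nuV) j).ae ae_nuV_pos

namespace HS

variable {C : CM K ι}

instance : TopologicalSpace (HS C) := inferInstanceAs (TopologicalSpace (ι → H3))
instance : MeasurableSpace (HS C) := inferInstanceAs (MeasurableSpace (ι → H3))
instance [Fintype ι] : BorelSpace (HS C) := inferInstanceAs (BorelSpace (ι → H3))
instance [Fintype ι] : SecondCountableTopology (HS C) :=
  inferInstanceAs (SecondCountableTopology (ι → H3))
instance : T2Space (HS C) := inferInstanceAs (T2Space (ι → H3))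

/-- the complex coordinates -/
def z (w : HS C) : ι → ℂ := fun j => (w j).z

/-- the heights -/
def v (w : HS C) : ι → ℝ := fun j => (w j).v

theorem v_pos (w : HS C) (j : ι) : 0 < w.v j := (w j).v_pos

theorem ext' {w w' : HS C} (h1 : w.z = w'.z) (h2 : w.v = w'.v) : w = w' :=
  funext fun j => H3.ext (congrFun h1 j) (congrFun h2 j)

theorem continuous_at (j : ι) : Continuous fun w : HS C => w j := continuous_apply j

@[fun_prop] theorem continuous_z : Continuous (z : HS C → ι → ℂ) :=
  continuous_pi fun j => H3.continuous_z.comp (continuous_at j)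

@[fun_prop] theorem continuous_v : Continuous (v : HS C → ι → ℝ) :=
  continuous_pi fun j => H3.continuous_v.comp (continuous_at j)

@[fun_prop] theorem measurable_z : Measurable (z : HS C → ι → ℂ) :=
  measurable_pi_lambda _ fun j => H3.measurable_z.comp (measurable_pi_apply j)

@[fun_prop] theorem measurable_v : Measurable (v : HS C → ι → ℝ) :=
  measurable_pi_lambda _ fun j => H3.measurable_v.comp (measurable_pi_apply j)

end HS

namespace CM

variable (C : CM K ι)

/-- the point with given coordinates -/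
noncomputable def pt (z : ι → ℂ) (v : ι → ℝ) : HS C := fun j => H3.of (z j) (v j)

@[simp] theorem pt_z (z : ι → ℂ) (v : ι → ℝ) : (C.pt z v).z = z := funext fun _ => H3.of_z _ _

theorem pt_v (z : ι → ℂ) {v : ι → ℝ} (hv : ∀ j, 0 < v j) : (C.pt z v).v = v :=
  funext fun j => H3.of_v (hv j)

@[simp] theorem pt_self (w : HS C) : C.pt w.z w.v = w := funext fun _ => H3.of_self _

theorem measurable_pt : Measurable fun p : (ι → ℂ) × (ι → ℝ) => C.pt p.1 p.2 := by
  refine measurable_pi_lambda _ fun j => ?_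
  have h : Measurable fun p : (ι → ℂ) × (ι → ℝ) => ((p.1 j, p.2 j) : ℂ × ℝ) := by fun_prop
  exact H3.measurable_of.comp h

/-- the image of a matrix at all places -/
noncomputable def toP : SpecialLinearGroup (Fin 2) K →* (ι → SpecialLinearGroup (Fin 2) ℂ) :=
  MonoidHom.pi fun j => SpecialLinearGroup.map (C.sig j)

@[simp] theorem toP_apply (g : SpecialLinearGroup (Fin 2) K) (j : ι) (a b : Fin 2) :
    C.toP g j a b = C.sig j (g a b) := rfl

noncomputable instance : MulAction (SpecialLinearGroup (Fin 2) K) (HS C) :=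
  MulAction.compHom (ι → H3) C.toP

theorem smul_at (g : SpecialLinearGroup (Fin 2) K) (w : HS C) (j : ι) :
    (g • w) j = C.toP g j • w j := rfl

instance : ContinuousConstSMul (SpecialLinearGroup (Fin 2) K) (HS C) where
  continuous_const_smul g :=
    continuous_pi fun j => (continuous_const_smul (C.toP g j)).comp (HS.continuous_at j)

instance : MeasurableConstSMul (SpecialLinearGroup (Fin 2) K) (HS C) where
  measurable_const_smul g :=
    measurable_pi_lambda _ fun j =>
      (measurable_const_smul (C.toP g j)).comp (measurable_pi_apply j)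

/-- the values of the hermitian forms -/
noncomputable def Qv (w : HS C) (c d : K) : ι → ℝ := fun j => Q (w j) (C.sig j c) (C.sig j d)

theorem Qv_smul (g : SpecialLinearGroup (Fin 2) K) (w : HS C) (x y : K) :
    C.Qv (g • w) x y = C.Qv w (x * g 0 0 + y * g 1 0) (x * g 0 1 + y * g 1 1) := by
  funext j
  simp only [Qv, smul_at, Q_smulC, toP_apply, map_add, map_mul]

theorem Qv_pos (w : HS C) {c d : K} (h : c ≠ 0 ∨ d ≠ 0) (j : ι) : 0 < C.Qv w c d j :=
  Q_pos (h.imp (map_ne_zero _).2 (map_ne_zero _).2)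

theorem Qv_nonneg (w : HS C) (c d : K) (j : ι) : 0 ≤ C.Qv w c d j := Q_nonneg _ _ _

theorem Qv_zero_left (w : HS C) (d : K) (j : ι) :
    C.Qv w 0 d j = normSq (C.sig j d) / w.v j := by
  simp only [Qv, map_zero, Q_zero_left]; rfl

theorem Qv_zero_one (w : HS C) (j : ι) : C.Qv w 0 1 j = (w.v j)⁻¹ := by
  rw [Qv_zero_left]; simp

theorem Qv_eq (w : HS C) {c : K} (hc : c ≠ 0) (d : K) (j : ι) :
    C.Qv w c d j = normSq (C.sig j c) * P1 ((w.z + C.em (d / c)) j) (w.v j) := by
  simp only [Qv, Pi.add_apply, em_apply, map_div₀]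
  exact Q_eq_P1 _ ((map_ne_zero _).2 hc) _

theorem Qv_scale (w : HS C) (s c d : K) (j : ι) :
    C.Qv w (s * c) (s * d) j = normSq (C.sig j s) * C.Qv w c d j := by
  simp only [Qv, Q, den]
  rw [map_mul (C.sig j), map_mul (C.sig j), mul_assoc (C.sig j s), ← mul_add, normSq_mul,
    normSq_mul]
  ring

theorem continuous_Qv (c d : K) : Continuous fun w : HS C => C.Qv w c d :=
  continuous_pi fun j => (continuous_Q _ _).comp (HS.continuous_at j)

theorem v_smul (g : SpecialLinearGroup (Fin 2) K) (w : HS C) (j : ι) :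
    (g • w).v j = (C.Qv w (g 1 0) (g 1 1) j)⁻¹ := by
  show (C.toP g j • w j).v = _
  rw [v_smulC, one_div]; rfl

theorem tr_smul_z (x : K) (w : HS C) : (KU.tr x • w).z = w.z + C.em x := by
  funext j
  show (C.toP (KU.tr x) j • w j).z = _
  rw [z_smulC]; simp [KU.tr, den, HS.z]

theorem tr_smul_v (x : K) (w : HS C) : (KU.tr x • w).v = w.v := by
  funext j
  rw [v_smul]
  have h0 : KU.tr x 1 0 = 0 := rfl
  have h1 : KU.tr x 1 1 = 1 := rfl
  rw [h0, h1, Qv_zero_one, inv_inv]

theorem tr_smul_pt (x : K) (z : ι → ℂ) (v : ι → ℝ) :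
    KU.tr x • C.pt z v = C.pt (z + C.em x) v := by
  refine HS.ext' ?_ ?_
  · rw [tr_smul_z, pt_z, pt_z]
  · rw [tr_smul_v]
    funext j
    show (H3.of (z j) (v j)).v = (H3.of ((z + C.em x) j) (v j)).v
    unfold H3.of
    split <;> rfl

variable [Fintype ι]

/-- the product of the forms -/
noncomputable def QQ (w : HS C) (c d : K) : ℝ := ∏ j, C.Qv w c d j

theorem QQ_smul (g : SpecialLinearGroup (Fin 2) K) (w : HS C) (x y : K) :
    C.QQ (g • w) x y = C.QQ w (x * g 0 0 + y * g 1 0) (x * g 0 1 + y * g 1 1) := by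
  rw [QQ, Qv_smul, QQ]

theorem QQ_pos (w : HS C) {c d : K} (h : c ≠ 0 ∨ d ≠ 0) : 0 < C.QQ w c d :=
  prod_pos fun j _ => C.Qv_pos w h j

theorem QQ_eq (w : HS C) {c : K} (hc : c ≠ 0) (d : K) :
    C.QQ w c d = C.nm c * PP (w.z + C.em (d / c)) w.v := by
  simp only [QQ, C.Qv_eq w hc, prod_mul_distrib, nm, PP]

theorem QQ_zero_left (w : HS C) (d : K) : C.QQ w 0 d = C.nm d / ∏ j, w.v j := by
  simp only [QQ, Qv_zero_left, prod_div_distrib, nm]

theorem QQ_scale (w : HS C) (s c d : K) : C.QQ w (s * c) (s * d) = C.nm s * C.QQ w c d := by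
  simp only [QQ, Qv_scale, prod_mul_distrib, nm]

theorem continuous_QQ (c d : K) : Continuous fun w : HS C => C.QQ w c d :=
  continuous_finsetProd _ fun j _ => (continuous_apply j).comp (C.continuous_Qv c d)

/-- the invariant measure -/
noncomputable def mu : Measure (HS C) := (Measure.pi fun _ : ι => muH : Measure (ι → H3))

instance : SigmaFinite C.mu := inferInstanceAs (SigmaFinite (Measure.pi fun _ : ι => muH))

instance : C.mu.IsOpenPosMeasure :=
  inferInstanceAs (Measure.IsOpenPosMeasure (Measure.pi fun _ : ι => muH))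

theorem measurePreserving_smul' (g : SpecialLinearGroup (Fin 2) K) :
    MeasurePreserving (fun w : HS C => g • w) C.mu C.mu :=
  measurePreserving_pi (fun _ : ι => muH) (fun _ : ι => muH)
    (f := fun j w => C.toP g j • w) fun j => measurePreserving_smul (C.toP g j) muH

instance : SMulInvariantMeasure (SpecialLinearGroup (Fin 2) K) (HS C) C.mu where
  measure_preimage_smul g _ hs := (C.measurePreserving_smul' g).measure_preimage
    hs.nullMeasurableSet

/-- coordinates: `dμ = dz dv / v³` -/
theorem measurePreserving_pt :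
    MeasurePreserving (fun p : (ι → ℂ) × (ι → ℝ) => C.pt p.1 p.2)
      ((volume : Measure (ι → ℂ)).prod (nuP ι)) C.mu := by
  have h1 := (measurePreserving_arrowProdEquivProdArrow ℂ ℝ ι (fun _ => volume)
    (fun _ => nuV)).symm
  have h2 := measurePreserving_pi (fun _ : ι => (volume : Measure ℂ).prod nuV)
    (fun _ : ι => muH) (f := fun _ p => H3.of p.1 p.2) fun _ => measurePreserving_of
  exact h2.comp h1

end CM

end Vale.Agent.P016Z.TH
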