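import Mathlib.MeasureTheory.Integral.Prod
import Mathlib.MeasureTheory.Integral.DominatedConvergence
import Mathlib.Analysis.SpecialFunctions.Pow.Asymptotics
import Mathlib.MeasureTheory.Constructions.BorelSpace.Complex
import Mathlib.MeasureTheory.Function.SpecialFunctions.Basic
import Mathlib.Tactic

/-!
P016, block THETA: smoothed limits `X^{-4/3} ∫ S(X / P) w` and the residue attached to a summatory
function `S`. The residue is unique, additive, and scales as expected.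
-/

namespace Vale.Agent.P016Z.TH

open MeasureTheory Filter Topology

/-- a smoothing kernel -/
structure Ker : Type 1 where
  Om : Type
  ms : MeasurableSpace Om
  mu : Measure Om
  sf : SFinite mu
  P : Om → ℝ
  w : Om → ℂ
  P_meas : Measurable P
  w_meas : Measurable w
  P_pos : ∀ x, 0 < P x
  int1 : Integrable (fun x => P x ^ (-(4 / 3) : ℝ) * ‖w x‖) mu
  int2 : Integrable (fun x => P x ^ (-2 : ℝ) * ‖w x‖) mu

attribute [instance] Ker.ms Ker.sf

/-- measurable functions of at most quadratic growth -/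
def Tame (S : ℝ → ℂ) : Prop := Measurable S ∧ ∃ C : ℝ, ∀ x, 0 < x → ‖S x‖ ≤ C * x ^ 2

theorem Tame.add {S T : ℝ → ℂ} (hS : Tame S) (hT : Tame T) : Tame fun x => S x + T x := by
  obtain ⟨h1, C, hC⟩ := hS
  obtain ⟨h2, D, hD⟩ := hT
  refine ⟨h1.add h2, C + D, fun x hx => (norm_add_le _ _).trans ?_⟩
  have := hC x hx
  have := hD x hx
  linarith

theorem Tame.const_mul {S : ℝ → ℂ} (hS : Tame S) (a : ℂ) : Tame fun x => a * S x := by
  obtain ⟨h1, C, hC⟩ := hS
  refine ⟨h1.const_mul a, ‖a‖ * C, fun x hx => ?_⟩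
  rw [norm_mul, mul_assoc]
  exact mul_le_mul_of_nonneg_left (hC x hx) (norm_nonneg _)

theorem Tame.scale {S : ℝ → ℂ} (hS : Tame S) {t : ℝ} (ht : 0 < t) : Tame fun x => S (x / t) := by
  obtain ⟨h1, C, hC⟩ := hS
  refine ⟨h1.comp (measurable_id.div_const t), C / t ^ 2, fun x hx => ?_⟩
  refine (hC _ (div_pos hx ht)).trans (le_of_eq ?_)
  field_simp

namespace Ker

variable (k k' : Ker)

/-- the value of the kernel on the main term -/
noncomputable def hat : ℂ := ∫ x, ((k.P x ^ (-(4 / 3) : ℝ) : ℝ) : ℂ) * k.w x ∂k.mu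

/-- the smoothed function -/
noncomputable def sm (S : ℝ → ℂ) (X : ℝ) : ℂ := ∫ x, S (X / k.P x) * k.w x ∂k.mu

/-- the smoothed function is `O(X^{4/3})` and asymptotic to `b X^{4/3}` -/
def Lim (S : ℝ → ℂ) (b : ℂ) : Prop :=
  (∃ C : ℝ, ∀ X, 0 < X → ‖k.sm S X‖ ≤ C * X ^ (4 / 3 : ℝ)) ∧
    Tendsto (fun X : ℝ => ((X ^ (-(4 / 3) : ℝ) : ℝ) : ℂ) * k.sm S X) atTop (𝓝 b)

theorem int1C : Integrable (fun x => ((k.P x ^ (-(4 / 3) : ℝ) : ℝ) : ℂ) * k.w x) k.mu := by
  refine k.int1.mono' ?_ (Eventually.of_forall fun x => ?_)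
  · exact ((Complex.measurable_ofReal.comp (k.P_meas.pow_const _)).mul
      k.w_meas).aestronglyMeasurable
  · rw [norm_mul, Complex.norm_real, Real.norm_of_nonneg (Real.rpow_nonneg (k.P_pos x).le _)]

theorem integrable_sm {S : ℝ → ℂ} (hS : Tame S) {X : ℝ} (hX : 0 < X) :
    Integrable (fun x => S (X / k.P x) * k.w x) k.mu := by
  obtain ⟨h1, C, hC⟩ := hS
  refine (k.int2.const_mul (C * X ^ 2)).mono' ?_ (Eventually.of_forall fun x => ?_)
  · exact ((h1.comp (measurable_const.div k.P_meas)).mul k.w_meas).aestronglyMeasurable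
  · have hp := k.P_pos x
    rw [norm_mul, ← mul_assoc]
    refine mul_le_mul_of_nonneg_right ((hC _ (div_pos hX hp)).trans (le_of_eq ?_)) (norm_nonneg _)
    rw [Real.rpow_neg hp.le, Real.rpow_two]
    field_simp

/-- the multiplicative convolution of two kernels -/
noncomputable def prod : Ker where
  Om := k.Om × k'.Om
  ms := inferInstance
  mu := k.mu.prod k'.mu
  sf := inferInstance
  P x := k.P x.1 * k'.P x.2
  w x := k.w x.1 * k'.w x.2
  P_meas := (k.P_meas.comp measurable_fst).mul (k'.P_meas.comp measurable_snd)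
  w_meas := (k.w_meas.comp measurable_fst).mul (k'.w_meas.comp measurable_snd)
  P_pos x := mul_pos (k.P_pos _) (k'.P_pos _)
  int1 := by
    refine (k.int1.mul_prod k'.int1).congr (Eventually.of_forall fun x => ?_)
    simp only []
    rw [Real.mul_rpow (k.P_pos _).le (k'.P_pos _).le, norm_mul]; ring
  int2 := by
    refine (k.int2.mul_prod k'.int2).congr (Eventually.of_forall fun x => ?_)
    simp only []
    rw [Real.mul_rpow (k.P_pos _).le (k'.P_pos _).le, norm_mul]; ring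

theorem hat_prod : (k.prod k').hat = k.hat * k'.hat := by
  unfold hat
  rw [← integral_prod_mul]
  refine integral_congr_ae (Eventually.of_forall fun x => ?_)
  show (((k.P x.1 * k'.P x.2) ^ (-(4 / 3) : ℝ) : ℝ) : ℂ) * (k.w x.1 * k'.w x.2) = _
  rw [Real.mul_rpow (k.P_pos _).le (k'.P_pos _).le]
  push_cast; ring

theorem sm_prod_left {S : ℝ → ℂ} (hS : Tame S) {X : ℝ} (hX : 0 < X) :
    (k.prod k').sm S X = ∫ y, k.sm S (X / k'.P y) * k'.w y ∂k'.mu := by
  have h : Integrable (fun x : k.Om × k'.Om =>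
      S (X / (k.P x.1 * k'.P x.2)) * (k.w x.1 * k'.w x.2)) (k.mu.prod k'.mu) :=
    (k.prod k').integrable_sm hS hX
  have e : (k.prod k').sm S X = ∫ x, S (X / (k.P x.1 * k'.P x.2)) * (k.w x.1 * k'.w x.2)
      ∂(k.mu.prod k'.mu) := rfl
  rw [e, integral_prod_symm _ h]
  refine integral_congr_ae (Eventually.of_forall fun y => ?_)
  simp only [sm]
  rw [← integral_mul_const]
  refine integral_congr_ae (Eventually.of_forall fun x => ?_)
  simp only []
  rw [div_div, mul_comm (k'.P y), mul_assoc]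

theorem sm_prod_right {S : ℝ → ℂ} (hS : Tame S) {X : ℝ} (hX : 0 < X) :
    (k.prod k').sm S X = ∫ x, k'.sm S (X / k.P x) * k.w x ∂k.mu := by
  have h : Integrable (fun x : k.Om × k'.Om =>
      S (X / (k.P x.1 * k'.P x.2)) * (k.w x.1 * k'.w x.2)) (k.mu.prod k'.mu) :=
    (k.prod k').integrable_sm hS hX
  have e : (k.prod k').sm S X = ∫ x, S (X / (k.P x.1 * k'.P x.2)) * (k.w x.1 * k'.w x.2)
      ∂(k.mu.prod k'.mu) := rfl
  rw [e, integral_prod _ h]
  refine integral_congr_ae (Eventually.of_forall fun y => ?_)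
  simp only [sm]
  rw [← integral_mul_const]
  refine integral_congr_ae (Eventually.of_forall fun x => ?_)
  simp only []
  rw [div_div]; ring

theorem measurable_sm {S : ℝ → ℂ} (hS : Measurable S) : Measurable (k.sm S) := by
  have h : Measurable fun p : ℝ × k.Om => S (p.1 / k.P p.2) * k.w p.2 :=
    (hS.comp (measurable_fst.div (k.P_meas.comp measurable_snd))).mul
      (k.w_meas.comp measurable_snd)
  exact (h.stronglyMeasurable.integral_prod_right' (ν := k.mu)).measurable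

/-- dominated convergence for a function of exact order `X^{4/3}` -/
theorem lim_of_asymp {B : ℝ → ℂ} (hB : Measurable B) {C : ℝ}
    (hC : ∀ X, 0 < X → ‖B X‖ ≤ C * X ^ (4 / 3 : ℝ)) {b : ℂ}
    (hb : Tendsto (fun X : ℝ => ((X ^ (-(4 / 3) : ℝ) : ℝ) : ℂ) * B X) atTop (𝓝 b)) :
    k.Lim B (b * k.hat) := by
  have hbd : ∀ X, 0 < X → ∀ x, ‖B (X / k.P x) * k.w x‖ ≤
      C * X ^ (4 / 3 : ℝ) * (k.P x ^ (-(4 / 3) : ℝ) * ‖k.w x‖) := by
    intro X hX x
    have hp := k.P_pos x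
    rw [norm_mul, ← mul_assoc]
    refine mul_le_mul_of_nonneg_right ((hC _ (div_pos hX hp)).trans (le_of_eq ?_)) (norm_nonneg _)
    rw [Real.div_rpow hX.le hp.le, Real.rpow_neg hp.le, mul_assoc, div_eq_mul_inv]
  constructor
  · refine ⟨C * ∫ x, k.P x ^ (-(4 / 3) : ℝ) * ‖k.w x‖ ∂k.mu, fun X hX => ?_⟩
    refine (norm_integral_le_of_norm_le (k.int1.const_mul (C * X ^ (4 / 3 : ℝ)))
      (Eventually.of_forall (hbd X hX))).trans (le_of_eq ?_)
    rw [integral_const_mul]; ring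
  · unfold hat sm
    simp only [← integral_const_mul]
    refine tendsto_integral_filter_of_dominated_convergence
      (fun x => C * (k.P x ^ (-(4 / 3) : ℝ) * ‖k.w x‖)) ?_ ?_ (k.int1.const_mul C) ?_
    · refine Eventually.of_forall fun X => ?_
      exact (((hB.comp (measurable_const.div k.P_meas)).mul k.w_meas).const_mul
        _).aestronglyMeasurable
    · filter_upwards [eventually_gt_atTop 0] with X hX
      refine Eventually.of_forall fun x => ?_
      rw [norm_mul, Complex.norm_real, Real.norm_of_nonneg (Real.rpow_nonneg hX.le _)]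
      refine (mul_le_mul_of_nonneg_left (hbd X hX x) (Real.rpow_nonneg hX.le _)).trans
        (le_of_eq ?_)
      have : X ^ (4 / 3 : ℝ) ≠ 0 := (Real.rpow_pos_of_pos hX _).ne'
      rw [Real.rpow_neg hX.le]
      field_simp
    · refine Eventually.of_forall fun x => ?_
      have hp := k.P_pos x
      have h1 := (hb.comp (tendsto_id.atTop_div_const hp)).mul_const
        (((k.P x ^ (-(4 / 3) : ℝ) : ℝ) : ℂ) * k.w x)
      refine h1.congr' ?_
      filter_upwards [eventually_gt_atTop 0] with X hX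
      simp only [Function.comp, id]
      have h2 : (X / k.P x) ^ (-(4 / 3) : ℝ) * k.P x ^ (-(4 / 3) : ℝ) = X ^ (-(4 / 3) : ℝ) := by
        rw [← Real.mul_rpow (div_pos hX hp).le hp.le, div_mul_cancel₀ _ hp.ne']
      rw [← h2]; push_cast; ring

variable {k k'}

theorem Lim.congr {S T : ℝ → ℂ} {b : ℂ} (h : k.Lim S b)
    (e : ∀ X, 0 < X → k'.sm T X = k.sm S X) : k'.Lim T b := by
  obtain ⟨⟨C, hC⟩, hb⟩ := h
  refine ⟨⟨C, fun X hX => by rw [e X hX]; exact hC X hX⟩, hb.congr' ?_⟩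
  filter_upwards [eventually_gt_atTop 0] with X hX
  rw [e X hX]

theorem Lim.prod_left {S : ℝ → ℂ} (hS : Tame S) {b : ℂ} (h : k.Lim S b) (k' : Ker) :
    (k.prod k').Lim S (b * k'.hat) := by
  obtain ⟨⟨C, hC⟩, hb⟩ := h
  exact (k'.lim_of_asymp (k.measurable_sm hS.1) hC hb).congr
    fun X hX => k.sm_prod_left k' hS hX

theorem Lim.prod_right {S : ℝ → ℂ} (hS : Tame S) {b : ℂ} (h : k'.Lim S b) (k : Ker) :
    (k.prod k').Lim S (b * k.hat) := by
  obtain ⟨⟨C, hC⟩, hb⟩ := h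
  exact (k.lim_of_asymp (k'.measurable_sm hS.1) hC hb).congr
    fun X hX => k.sm_prod_right k' hS hX

theorem Lim.unique {S : ℝ → ℂ} {b b' : ℂ} (h : k.Lim S b) (h' : k.Lim S b') : b = b' :=
  tendsto_nhds_unique h.2 h'.2

theorem Lim.cross {S : ℝ → ℂ} (hS : Tame S) {b b' : ℂ} (h : k.Lim S b) (h' : k'.Lim S b') :
    b * k'.hat = b' * k.hat :=
  (h.prod_left hS k').unique (h'.prod_right hS k)

theorem Lim.add {S T : ℝ → ℂ} (hS : Tame S) (hT : Tame T) {a b : ℂ} (h : k.Lim S a)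
    (h' : k.Lim T b) : k.Lim (fun x => S x + T x) (a + b) := by
  have e : ∀ X, 0 < X → k.sm (fun x => S x + T x) X = k.sm S X + k.sm T X := by
    intro X hX
    unfold sm
    rw [← integral_add (k.integrable_sm hS hX) (k.integrable_sm hT hX)]
    simp only [add_mul]
  obtain ⟨⟨C, hC⟩, hb⟩ := h
  obtain ⟨⟨D, hD⟩, hb'⟩ := h'
  refine ⟨⟨C + D, fun X hX => ?_⟩, (hb.add hb').congr' ?_⟩
  · rw [e X hX]
    have := hC X hX
    have := hD X hX
    refine (norm_add_le _ _).trans ?_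
    linarith
  · filter_upwards [eventually_gt_atTop 0] with X hX
    rw [e X hX, mul_add]

theorem Lim.const_mul {S : ℝ → ℂ} {b : ℂ} (h : k.Lim S b) (a : ℂ) :
    k.Lim (fun x => a * S x) (a * b) := by
  have e : ∀ X, k.sm (fun x => a * S x) X = a * k.sm S X := by
    intro X
    unfold sm
    rw [← integral_const_mul]
    simp only [mul_assoc]
  obtain ⟨⟨C, hC⟩, hb⟩ := h
  refine ⟨⟨‖a‖ * C, fun X hX => ?_⟩, (hb.const_mul a).congr fun X => ?_⟩
  · rw [e X, norm_mul, mul_assoc]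
    exact mul_le_mul_of_nonneg_left (hC X hX) (norm_nonneg _)
  · rw [e X]; ring

theorem Lim.scale {S : ℝ → ℂ} {b : ℂ} (h : k.Lim S b) {t : ℝ} (ht : 0 < t) :
    k.Lim (fun x => S (x / t)) (((t ^ (-(4 / 3) : ℝ) : ℝ) : ℂ) * b) := by
  have e : ∀ X, k.sm (fun x => S (x / t)) X = k.sm S (X / t) := by
    intro X
    unfold sm
    simp only [div_div, mul_comm t]
  obtain ⟨⟨C, hC⟩, hb⟩ := h
  refine ⟨⟨C / t ^ (4 / 3 : ℝ), fun X hX => ?_⟩, ?_⟩
  · rw [e X]
    refine (hC _ (div_pos hX ht)).trans (le_of_eq ?_)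
    rw [Real.div_rpow hX.le ht.le]; ring
  · refine ((hb.comp (tendsto_id.atTop_div_const ht)).const_mul
      ((t ^ (-(4 / 3) : ℝ) : ℝ) : ℂ)).congr' ?_
    filter_upwards [eventually_gt_atTop 0] with X hX
    simp only [Function.comp, id]
    have h2 : t ^ (-(4 / 3) : ℝ) * (X / t) ^ (-(4 / 3) : ℝ) = X ^ (-(4 / 3) : ℝ) := by
      rw [← Real.mul_rpow ht.le (div_pos hX ht).le, mul_div_cancel₀ _ ht.ne']
    rw [e X, ← h2]; push_cast; ring

end Ker

/-- `S(x)` behaves like `ρ x^{4/3}` after smoothing -/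
def HasRes (S : ℝ → ℂ) (ρ : ℂ) : Prop :=
  Tame S ∧ ∃ k : Ker, k.hat ≠ 0 ∧ k.Lim S (ρ * k.hat)

theorem hasRes_of_lim {S : ℝ → ℂ} (hS : Tame S) {k : Ker} (hk : k.hat ≠ 0) {b : ℂ}
    (h : k.Lim S b) : HasRes S (b / k.hat) :=
  ⟨hS, k, hk, by rwa [div_mul_cancel₀ _ hk]⟩

/-- every smoothed limit is given by the residue -/
theorem HasRes.eq_of_lim {S : ℝ → ℂ} {ρ : ℂ} (h : HasRes S ρ) {k : Ker} {b : ℂ}
    (hb : k.Lim S b) : b = ρ * k.hat := by
  obtain ⟨hS, k0, h0, hl⟩ := h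
  have := hb.cross hS hl
  apply mul_right_cancel₀ h0
  rw [this]; ring

theorem HasRes.unique {S : ℝ → ℂ} {ρ ρ' : ℂ} (h : HasRes S ρ) (h' : HasRes S ρ') : ρ = ρ' := by
  obtain ⟨_, k, hk, hl⟩ := h'
  exact (mul_right_cancel₀ hk (h.eq_of_lim hl)).symm

theorem HasRes.add {S T : ℝ → ℂ} {a b : ℂ} (h : HasRes S a) (h' : HasRes T b) :
    HasRes (fun x => S x + T x) (a + b) := by
  obtain ⟨hS, k, hk, hl⟩ := h
  obtain ⟨hT, k', hk', hl'⟩ := h'
  refine ⟨hS.add hT, k.prod k', by rw [Ker.hat_prod]; exact mul_ne_zero hk hk', ?_⟩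
  have := (hl.prod_left hS k').add hS hT (hl'.prod_right hT k)
  have e : (a + b) * (k.prod k').hat = a * k.hat * k'.hat + b * k'.hat * k.hat := by
    rw [Ker.hat_prod]; ring
  rwa [e]

theorem HasRes.const_mul {S : ℝ → ℂ} {b : ℂ} (h : HasRes S b) (a : ℂ) :
    HasRes (fun x => a * S x) (a * b) := by
  obtain ⟨hS, k, hk, hl⟩ := h
  exact ⟨hS.const_mul a, k, hk, by rw [mul_assoc]; exact hl.const_mul a⟩

theorem HasRes.scale {S : ℝ → ℂ} {b : ℂ} (h : HasRes S b) {t : ℝ} (ht : 0 < t) :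
    HasRes (fun x => S (x / t)) (((t ^ (-(4 / 3) : ℝ) : ℝ) : ℂ) * b) := by
  obtain ⟨hS, k, hk, hl⟩ := h
  exact ⟨hS.scale ht, k, hk, by rw [mul_assoc]; exact hl.scale ht⟩

theorem HasRes.congr {S T : ℝ → ℂ} {b : ℂ} (h : HasRes S b) (hT : Measurable T)
    (e : ∀ x, 0 < x → T x = S x) : HasRes T b := by
  obtain ⟨⟨_, C, hC⟩, k, hk, hl⟩ := h
  refine ⟨⟨hT, C, fun x hx => by rw [e x hx]; exact hC x hx⟩, k, hk, hl.congr fun X hX => ?_⟩
  unfold Ker.sm
  refine integral_congr_ae (Eventually.of_forall fun x => ?_)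
  simp only []
  rw [e _ (div_pos hX (k.P_pos x))]

/-- a linear relation between summatory functions passes to the residues -/
theorem HasRes.rel {S T U : ℝ → ℂ} {s t u a : ℂ} (hS : HasRes S s) (hT : HasRes T t)
    (hU : HasRes U u) {y : ℝ} (hy : 0 < y) (e : ∀ x, 0 < x → S x = T x + a * U (x / y)) :
    s = t + a * (((y ^ (-(4 / 3) : ℝ) : ℝ) : ℂ) * u) :=
  hS.unique ((hT.add ((hU.scale hy).const_mul a)).congr hS.1.1 e)

theorem HasRes.rel1 {S U : ℝ → ℂ} {s u a : ℂ} (hS : HasRes S s)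
    (hU : HasRes U u) {y : ℝ} (hy : 0 < y) (e : ∀ x, 0 < x → S x = a * U (x / y)) :
    s = a * (((y ^ (-(4 / 3) : ℝ) : ℝ) : ℂ) * u) :=
  hS.unique (((hU.scale hy).const_mul a).congr hS.1.1 e)

/-- a true asymptotic formula gives the limit for every kernel -/
theorem Ker.lim_of_tendsto (k : Ker) {S : ℝ → ℂ} (hS : Measurable S) {C : ℝ}
    (hC : ∀ X, 0 < X → ‖S X‖ ≤ C * X ^ (4 / 3 : ℝ)) {b : ℂ}
    (hb : Tendsto (fun X : ℝ => ((X ^ (-(4 / 3) : ℝ) : ℝ) : ℂ) * S X) atTop (𝓝 b)) :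
    k.Lim S (b * k.hat) := k.lim_of_asymp hS hC hb

end Vale.Agent.P016Z.TH
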