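import Vale.Agent.P016Z.Base.Psi
import Vale.Agent.P016Z.TH.Geo
import Vale.Agent.P016Z.TH.Lim
import Vale.Agent.P006.H9.Unfold

/-!
P016, block THETA: definitions and the statements of the sub-blocks.

Rows are pairs `(c, d)` of elements of `K`; a row function `a c d` gives the truncated Eisenstein
series `Es k a X`. The cubic theta functions are the limits of `X^(-4/3) Es k a X` in the local
`L²` sense.
-/

namespace Vale.Agent.P016Z.TH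

open NumberField MeasureTheory Filter Topology Complex
open Vale.Agent.P006
open scoped ENNReal ComplexConjugate

set_option linter.unusedSectionVars false

/-- the special linear group of the field -/
abbrev SL2 (K : Type) [Field K] : Type := Matrix.SpecialLinearGroup (Fin 2) K

variable {K : Type} [Field K] [NumberField K] [Dat K]

/-- the product of hyperbolic spaces attached to `K` -/
abbrev HK (K : Type) [Field K] [NumberField K] [Dat K] : Type := HS (cmK K)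

/-- the level `Q^(k+1)` -/
def lv (K : Type) [Field K] [NumberField K] [Dat K] (k : ℕ) : K := (Q K : K) ^ (k + 1)

theorem lv_ne (k : ℕ) : lv K k ≠ 0 := pow_ne_zero _ (QK_ne K)

/-- the absolute norm -/
noncomputable abbrev nm (x : K) : ℝ := (cmK K).nm x

/-- the squared absolute values at the complex places -/
noncomputable def ab (x : K) : io K → ℝ := fun j => normSq ((cmK K).sig j x)

/-- `e(Tr x)` -/
noncomputable def eT (x : K) : ℂ := ee (trR x)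

/-! ### symbols -/

/-- `x, y ∈ R`, `y ≠ 0`, and `x`, `y` are coprime in `R` -/
def Cop (x y : K) : Prop :=
  x ∈ R K ∧ y ∈ R K ∧ y ≠ 0 ∧ ∃ a ∈ R K, ∃ b ∈ R K, a * x + b * y = 1

/-- The cubic residue symbol `s x y = (x/y)_3` on `R` and the reciprocity factor `h`. -/
structure Sy (K : Type) [Field K] [NumberField K] [Dat K] where
  s : K → K → ℂ
  h : K → K → ℂ
  s_zero : ∀ x y, ¬ Cop x y → s x y = 0
  s_cube : ∀ x y, Cop x y → s x y ^ 3 = 1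
  s_mul_left : ∀ x x' y, x ∈ R K → x' ∈ R K → s (x * x') y = s x y * s x' y
  s_mul_right : ∀ x y y', y ∈ R K → y' ∈ R K → s x (y * y') = s x y * s x y'
  s_add : ∀ x y t, t ∈ R K → s (x + y * t) y = s x y
  h_mul_left : ∀ x x' y, x ≠ 0 → x' ≠ 0 → y ≠ 0 → h (x * x') y = h x y * h x' y
  h_mul_right : ∀ x y y', x ≠ 0 → y ≠ 0 → y' ≠ 0 → h x (y * y') = h x y * h x y'
  h_cube : ∀ x y, x ≠ 0 → y ≠ 0 → h x y ^ 3 = 1
  h_self : ∀ x, x ≠ 0 → h x x = 1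
  h_one : ∀ x y, x ≠ 0 → (y - 1) / lv K 1 ∈ Si K → h x y = 1
  recip : ∀ x y, Cop x y → x ≠ 0 → s x y = h x y * s y x
  nontriv : ∀ p : R K, Prime p → ∃ x, Cop x (p : K) ∧ s x p ≠ 1

/-! ### lattices and periodic sums -/

/-- `m O` -/
def Lat (m : K) : AddSubgroup K where
  carrier := {x | IsIntegral ℤ (x / m)}
  add_mem' := fun {a b} ha hb => by
    show IsIntegral ℤ ((a + b) / m)
    rw [add_div]; exact IsIntegral.add ha hb
  zero_mem' := by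
    show IsIntegral ℤ ((0 : K) / m)
    rw [zero_div]; exact isIntegral_zero
  neg_mem' := fun {a} ha => by
    show IsIntegral ℤ ((-a) / m)
    rw [neg_div]; exact IsIntegral.neg ha

/-- `m A` for a subring `A` -/
def Scl (A : Subalgebra (𝓞 K) K) (m : K) : AddSubgroup K where
  carrier := {x | x / m ∈ A}
  add_mem' := fun {a b} ha hb => by
    show (a + b) / m ∈ A
    rw [add_div]; exact add_mem ha hb
  zero_mem' := by
    show (0 : K) / m ∈ A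
    rw [zero_div]; exact zero_mem _
  neg_mem' := fun {a} ha => by
    show (-a) / m ∈ A
    rw [neg_div]; exact neg_mem ha

theorem mem_Lat {m x : K} : x ∈ Lat m ↔ IsIntegral ℤ (x / m) := Iff.rfl

theorem mem_Scl {A : Subalgebra (𝓞 K) K} {m x : K} : x ∈ Scl A m ↔ x / m ∈ A := Iff.rfl

/-- the frequencies for the lattice `m O` -/
def Dual (m : K) : Set K := {ν | ∀ t ∈ Lat m, eT (ν * t) = 1}

/-- the sum of a periodic function over the classes modulo `L` -/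
noncomputable def qs (L : AddSubgroup K) (f : K → ℂ) : ℂ := ∑ᶠ q : K ⧸ L, f q.out

/-- the Gauss sum `∑_{d mod c L} a(c, d) e(ν d / c)` of a row function -/
noncomputable def gs (L : AddSubgroup K) (a : K → K → ℂ) (ν c : K) : ℂ :=
  qs L fun t => a c (c * t) * eT (ν * t)

/-- the normalised Gauss sum at level `k` -/
noncomputable def gn (k : ℕ) (a : K → K → ℂ) (ν c : K) : ℂ :=
  gs (Lat (lv K k)) a ν c / (nm (lv K k) : ℂ)

/-- the cubic Gauss sum `∑_{d ∈ R / c} (d/c) ψ(ν d / c)` -/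
noncomputable def Sy.G (S : Sy K) (ν c : K) : ℂ :=
  qs (Scl (R K) 1) fun t => S.s (c * t) c * psi (ν * t)

/-! ### groups -/

/-- matrices with entries in a subring -/
def SLin (A : Subring K) : Subgroup (SL2 K) where
  carrier := {g | g 0 0 ∈ A ∧ g 0 1 ∈ A ∧ g 1 0 ∈ A ∧ g 1 1 ∈ A}
  mul_mem' := fun {a b} ha hb => by
    obtain ⟨a1, a2, a3, a4⟩ := ha
    obtain ⟨b1, b2, b3, b4⟩ := hb
    refine ⟨?_, ?_, ?_, ?_⟩
    · rw [KU.mul_00]; exact add_mem (mul_mem a1 b1) (mul_mem a2 b3)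
    · rw [KU.mul_01]; exact add_mem (mul_mem a1 b2) (mul_mem a2 b4)
    · rw [KU.mul_10]; exact add_mem (mul_mem a3 b1) (mul_mem a4 b3)
    · rw [KU.mul_11]; exact add_mem (mul_mem a3 b2) (mul_mem a4 b4)
  one_mem' := by
    refine ⟨?_, ?_, ?_, ?_⟩ <;> simp
  inv_mem' := fun {a} ha => by
    obtain ⟨a1, a2, a3, a4⟩ := ha
    refine ⟨?_, ?_, ?_, ?_⟩
    · rw [KU.inv_00]; exact a4
    · rw [KU.inv_01]; exact neg_mem a2
    · rw [KU.inv_10]; exact neg_mem a3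
    · rw [KU.inv_11]; exact a1

/-- `SL₂(R)` -/
def SLr (K : Type) [Field K] [NumberField K] [Dat K] : Subgroup (SL2 K) := SLin (R K).toSubring

/-- `SL₂(O)` -/
def SLO (K : Type) [Field K] [NumberField K] [Dat K] : Subgroup (SL2 K) :=
  SLin (integralClosure ℤ K).toSubring

theorem mem_SLr {g : SL2 K} :
    g ∈ SLr K ↔ g 0 0 ∈ R K ∧ g 0 1 ∈ R K ∧ g 1 0 ∈ R K ∧ g 1 1 ∈ R K := Iff.rfl

theorem mem_SLO {g : SL2 K} : g ∈ SLO K ↔ IsIntegral ℤ (g 0 0) ∧ IsIntegral ℤ (g 0 1) ∧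
    IsIntegral ℤ (g 1 0) ∧ IsIntegral ℤ (g 1 1) := Iff.rfl

theorem isIntegral_lv (k : ℕ) : IsIntegral ℤ (lv K k) :=
  (isIntegral_natCast (Q K)).pow _

theorem isIntegral_of_mem_Lat {k : ℕ} {x : K} (h : x ∈ Lat (lv K k)) : IsIntegral ℤ x := by
  have := (isIntegral_lv k).mul h
  rwa [mul_div_cancel₀ _ (lv_ne k)] at this

theorem isIntegral_of_sub_one {k : ℕ} {x : K} (h : x - 1 ∈ Lat (lv K k)) : IsIntegral ℤ x := by
  simpa using (isIntegral_of_mem_Lat h).add isIntegral_one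

theorem mul_mem_Lat {m x y : K} (hx : IsIntegral ℤ x) (hy : y ∈ Lat m) : x * y ∈ Lat m := by
  rw [mem_Lat, mul_div_assoc]; exact hx.mul hy

/-- the principal congruence subgroup of level `Q^(k+1)` -/
def Gam (K : Type) [Field K] [NumberField K] [Dat K] (k : ℕ) : Subgroup (SL2 K) where
  carrier := {g | g 0 0 - 1 ∈ Lat (lv K k) ∧ g 0 1 ∈ Lat (lv K k) ∧ g 1 0 ∈ Lat (lv K k) ∧
    g 1 1 - 1 ∈ Lat (lv K k)}
  mul_mem' := fun {a b} ha hb => by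
    obtain ⟨a1, a2, a3, a4⟩ := ha
    obtain ⟨b1, b2, b3, b4⟩ := hb
    refine ⟨?_, ?_, ?_, ?_⟩
    · rw [KU.mul_00, show a 0 0 * b 0 0 + a 0 1 * b 1 0 - 1 =
        a 0 0 * (b 0 0 - 1) + (a 0 0 - 1) + a 0 1 * b 1 0 by ring]
      exact add_mem (add_mem (mul_mem_Lat (isIntegral_of_sub_one a1) b1) a1)
        (mul_mem_Lat (isIntegral_of_mem_Lat a2) b3)
    · rw [KU.mul_01, mul_comm (a 0 1)]
      exact add_mem (mul_mem_Lat (isIntegral_of_sub_one a1) b2)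
        (mul_mem_Lat (isIntegral_of_sub_one b4) a2)
    · rw [KU.mul_10, mul_comm (a 1 0)]
      exact add_mem (mul_mem_Lat (isIntegral_of_sub_one b1) a3)
        (mul_mem_Lat (isIntegral_of_sub_one a4) b3)
    · rw [KU.mul_11, show a 1 0 * b 0 1 + a 1 1 * b 1 1 - 1 =
        a 1 0 * b 0 1 + (a 1 1 * (b 1 1 - 1) + (a 1 1 - 1)) by ring]
      exact add_mem (mul_mem_Lat (isIntegral_of_mem_Lat a3) b2)
        (add_mem (mul_mem_Lat (isIntegral_of_sub_one a4) b4) a4)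
  one_mem' := by
    refine ⟨?_, ?_, ?_, ?_⟩ <;> simp
  inv_mem' := fun {a} ha => by
    obtain ⟨a1, a2, a3, a4⟩ := ha
    refine ⟨?_, ?_, ?_, ?_⟩
    · rw [KU.inv_00]; exact a4
    · rw [KU.inv_01]; exact neg_mem a2
    · rw [KU.inv_10]; exact neg_mem a3
    · rw [KU.inv_11]; exact a1

theorem mem_Gam {k : ℕ} {g : SL2 K} : g ∈ Gam K k ↔ g 0 0 - 1 ∈ Lat (lv K k) ∧
    g 0 1 ∈ Lat (lv K k) ∧ g 1 0 ∈ Lat (lv K k) ∧ g 1 1 - 1 ∈ Lat (lv K k) := Iff.rfl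

theorem Gam_le_SLO (k : ℕ) : Gam K k ≤ SLO K := fun _ h =>
  ⟨isIntegral_of_sub_one h.1, isIntegral_of_mem_Lat h.2.1, isIntegral_of_mem_Lat h.2.2.1,
    isIntegral_of_sub_one h.2.2.2⟩

theorem SLO_le_SLr : SLO K ≤ SLr K := fun _ h =>
  ⟨mem_R_of_isIntegral h.1, mem_R_of_isIntegral h.2.1, mem_R_of_isIntegral h.2.2.1,
    mem_R_of_isIntegral h.2.2.2⟩

/-- all entries have denominator dividing `D` -/
def Bd (D : K) (g : SL2 K) : Prop := ∀ i j, IsIntegral ℤ (D * g i j)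

/-- bottom rows of matrices with denominator dividing `D` -/
def Row (D c d : K) : Prop := ∃ g : SL2 K, Bd D g ∧ g 1 0 = c ∧ g 1 1 = d

/-- the row function `x ↦ a (x g)` -/
def act (a : K → K → ℂ) (g : SL2 K) : K → K → ℂ :=
  fun c d => a (c * g 0 0 + d * g 1 0) (c * g 0 1 + d * g 1 1)

/-! ### units -/

/-- the units of `O` -/
def Ou (K : Type) [Field K] [NumberField K] [Dat K] : Subgroup Kˣ := Ru K ⊓ Su K

/-- the units of `O` congruent to `1` modulo `Q^(k+1)` -/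
def Uk (K : Type) [Field K] [NumberField K] [Dat K] (k : ℕ) : Subgroup Kˣ := Ru K ⊓ P K k

/-- the index of `Uk k` in the unit group -/
noncomputable def idx (K : Type) [Field K] [NumberField K] [Dat K] (k : ℕ) : ℕ :=
  (Uk K k).relIndex (Ou K)

/-- a partition of the constant `κ` for the action of `V` on the positive cone -/
structure Part (V : Subgroup Kˣ) (κ : ℝ) (β : (io K → ℝ) → ℝ) : Prop where
  meas : Measurable β
  nonneg : ∀ t, 0 ≤ β t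
  le_one : ∀ t, β t ≤ 1
  hom : ∀ (l : ℝ) (t : io K → ℝ), 0 < l → β (l • t) = β t
  bal : ∃ C : ℝ, ∀ t : io K → ℝ, (∀ j, 0 < t j) → β t ≠ 0 → ∀ i j, t i ≤ C * t j
  sum : ∀ t : io K → ℝ, (∀ j, 0 < t j) → HasSum (fun u : V => β (ab ((u : Kˣ) : K) * t)) κ

open Classical in
/-- the chosen partition of level `k` -/
noncomputable def bet (K : Type) [Field K] [NumberField K] [Dat K] (k : ℕ) : (io K → ℝ) → ℝ :=
  if h : ∃ β, Part (Uk K k) (idx K k : ℝ)⁻¹ β then h.choose else 0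

/-- sums over the elements modulo units -/
noncomputable def us (k : ℕ) (f : K → ℂ) : ℂ := ∑' c : K, (bet K k (ab c) : ℂ) * f c

open Classical in
/-- the summatory function of the Gauss sums -/
noncomputable def Sg (k : ℕ) (L : AddSubgroup K) (a : K → K → ℂ) (ν : K) (x : ℝ) : ℂ :=
  us k fun c => if c ≠ 0 ∧ nm c ≤ x then gs L a ν c else 0

open Classical in
/-- the normalised summatory function at level `k` -/
noncomputable def Sn (k : ℕ) (a : K → K → ℂ) (ν : K) (x : ℝ) : ℂ :=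
  us k fun c => if c ≠ 0 ∧ nm c ≤ x then gn k a ν c else 0

/-! ### the truncated Eisenstein series -/

/-- the truncated Eisenstein series -/
noncomputable def Es (k : ℕ) (a : K → K → ℂ) (X : ℝ) (w : HK K) : ℂ :=
  ∑' x : K × K, a x.1 x.2 * (bet K k ((cmK K).Qv w x.1 x.2) : ℂ) *
    (if (cmK K).QQ w x.1 x.2 ≤ X then 1 else 0)

/-- the normalised series -/
noncomputable def F (k : ℕ) (a : K → K → ℂ) (X : ℝ) (w : HK K) : ℂ :=
  ((X ^ (-(4 / 3) : ℝ) : ℝ) : ℂ) * Es k a X w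

/-- the contribution of the rows with `c = 0` -/
noncomputable def E0 (k : ℕ) (a : K → K → ℂ) (X : ℝ) (v : io K → ℝ) : ℂ :=
  ∑' d : K, a 0 d * (bet K k (ab d / v) : ℂ) * (if nm d / ∏ j, v j ≤ X then 1 else 0)

/-- the image of `m O` in the product of the complex places -/
noncomputable def LatC (m : K) : AddSubgroup (io K → ℂ) :=
  (Lat m).map (cmK K).em.toAddMonoidHom

/-- bounded measurable fundamental domains for `m O` -/
def IsCell (m : K) (A : Set (io K → ℂ)) : Prop :=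
  MeasurableSet A ∧ Bornology.IsBounded A ∧ IsAddFundamentalDomain (LatC m) A volume

/-- bounded row functions with bounded denominators -/
structure Bnd (a : K → K → ℂ) : Prop where
  bdd : ∃ B : ℝ, ∀ c d, ‖a c d‖ ≤ B
  supp : ∃ j : ℕ, ∀ c d, a c d ≠ 0 → Row (lv K j) c d

/-- admissible row functions of level `k` -/
structure Adm (k : ℕ) (a : K → K → ℂ) : Prop extends Bnd a where
  unit : ∀ u ∈ Uk K k, ∀ c d, a ((u : K) * c) ((u : K) * d) = a c d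

/-- periodicity under the translations in `L` -/
def Per (L : AddSubgroup K) (a : K → K → ℂ) : Prop := ∀ c d, ∀ t ∈ L, a c (d + c * t) = a c d

/-- the squared `L²` norm on a set -/
noncomputable def n2 (A : Set (HK K)) (f : HK K → ℂ) : ℝ≥0∞ :=
  ∫⁻ w in A, ‖f w‖ₑ ^ 2 ∂(cmK K).mu

/-- boxes -/
def Box (r : ℝ) (A B : io K → ℝ) : Set (HK K) :=
  {w | ‖HS.z w‖ ≤ r ∧ ∀ j, A j ≤ HS.v w j ∧ HS.v w j ≤ B j}

/-- convergence to zero in the local `L²` sense -/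
def LZ (f : ℝ → HK K → ℂ) : Prop :=
  ∀ A : Set (HK K), IsCompact A → Tendsto (fun X => n2 A (f X)) atTop (𝓝 0)

/-- the Cauchy property in the local `L²` sense -/
def LC (f : ℝ → HK K → ℂ) : Prop :=
  ∀ A : Set (HK K), IsCompact A →
    Tendsto (fun p : ℝ × ℝ => n2 A fun w => f p.1 w - f p.2 w) atTop (𝓝 0)

/-- uniform bounds on thin boxes at every cusp -/
def LB (f : ℝ → HK K → ℂ) : Prop :=
  ∀ (g : SL2 K) (r : ℝ), ∃ C : ℝ, ∀ Y : io K → ℝ, (∀ j, 0 < Y j) → ∀ᶠ X in atTop,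
    n2 (Box r (fun j => (Y j)⁻¹) (fun j => 2 * (Y j)⁻¹)) (fun w => f X (g • w)) ≤
      ENNReal.ofReal (C * (1 + ∏ j, Y j ^ 2))

/-- `θ` has the Fourier expansion with coefficients `τ` -/
def IsExp (τ : K → ℂ) (θ : HK K → ℂ) : Prop :=
  ∀ w : HK K, HasSum (fun ν : K =>
    τ ν * (WW ((cmK K).em ν) (HS.v w) : ℂ) * (cmK K).ch ν (HS.z w)) (θ w)

/-- the Rankin–Selberg bound -/
def RS (τ : K → ℂ) : Prop :=
  ∃ C : ℝ, ∀ X : ℝ, 1 ≤ X → ∀ s : Finset K, (∀ ν ∈ s, ν ≠ 0 ∧ ∀ j, ab ν j ≤ X) →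
    ∑ ν ∈ s, ‖τ ν‖ ^ 2 * nm ν ^ (1 / 3 : ℝ) ≤ C * X ^ Fintype.card (io K)

/-! ### the families of row functions -/

/-- the Kubota symbol `(c/d)` -/
def Sy.kub (S : Sy K) (g : SL2 K) : ℂ := S.s (g 1 0) (g 1 1)

open Classical in
/-- the row function on the rows of the congruence subgroup -/
noncomputable def Sy.a0 (S : Sy K) (k : ℕ) : K → K → ℂ :=
  fun c d => if c ∈ Lat (lv K k) ∧ d - 1 ∈ Lat (lv K k) then S.s c d else 0

/-- equivariant row functions -/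
structure Sy.Eqv (S : Sy K) (a : K → K → ℂ) : Prop extends Bnd a where
  eqv : ∃ j : ℕ, ∀ g ∈ Gam K j, ∀ c d, act a g c d = S.kub g * a c d

/-- functions of `(c, d)` which are periodic at the primes dividing `Q`, with `d` away from `0` -/
structure Fam (j : ℕ) (φ : K → K → ℂ) : Prop where
  bdd : ∃ B : ℝ, ∀ c d, ‖φ c d‖ ≤ B
  supp : ∀ c d, φ c d ≠ 0 →
    lv K j * c ∈ Si K ∧ lv K j * d ∈ Si K ∧ d ≠ 0 ∧ lv K j / d ∈ Si K
  per : ∀ c d s t, s / lv K j ∈ Si K → t / lv K j ∈ Si K → φ (c + s) (d + t) = φ c d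

/-- the row function `(c/d) φ(c, d)` -/
def Sy.ap (S : Sy K) (φ : K → K → ℂ) : K → K → ℂ := fun c d => S.s c d * φ c d

open Classical in
/-- the indicator of the line through `(c₀, d₀)` modulo `p` -/
noncomputable def ln (p c₀ d₀ : K) : K → K → ℂ :=
  fun c d => if (c * d₀ - d * c₀) / p ∈ R K then 1 else 0

/-- `a` times the centred indicator of a line -/
noncomputable def cen (a : K → K → ℂ) (p : R K) (c₀ d₀ : K) : K → K → ℂ :=
  fun c d => a c d * (ln (p : K) c₀ d₀ c d - ((Nr p : ℂ) + 1)⁻¹)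

/-- convergence, bounds and equidistribution in lines -/
structure Good (k : ℕ) (a : K → K → ℂ) : Prop where
  lc : LC (F k a)
  lb : LB (F k a)
  lz : ∀ p : R K, Prime p → ∀ c₀ d₀ : R K, ¬ (p ∣ c₀ ∧ p ∣ d₀) → LZ (F k (cen a p c₀ d₀))

/-- the operator attached to `c ↦ x c` -/
def Sy.T (S : Sy K) (x : K) (φ : K → K → ℂ) : K → K → ℂ :=
  fun c d => φ (x * c) (x ^ 2 * d) * S.h x d

/-- the operator attached to `ν ↦ ν x³` -/
def Cb (x : K) (φ : K → K → ℂ) : K → K → ℂ := fun c d => φ c (d / x ^ 3)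

/-! ### statements of the blocks -/

section blocks

variable (K)

/-- PART 1: the partitions exist and are compatible -/
def PART : Prop :=
  (∀ k, idx K k ≠ 0) ∧ (∀ j k, j ≤ k → Part (Uk K j) (idx K j : ℝ)⁻¹ (bet K k)) ∧
    ∀ k, Part (Ou K) 1 (bet K k)

/-- PART 2: change of the partition -/
def RESEL : Prop :=
  ∀ (V : Subgroup Kˣ) (κ : ℝ) (β₁ β₂ : (io K → ℝ) → ℝ), κ ≠ 0 → Part V κ β₁ → Part V κ β₂ →
    ∀ (Z : Type) [MulAction Kˣ Z] (p₁ p₂ : Z → io K → ℝ) (f : Z → ℂ),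
      (∀ u ∈ V, ∀ x, f (u • x) = f x) →
      (∀ u ∈ V, ∀ x, p₁ (u • x) = ab (u : K) * p₁ x ∧ p₂ (u • x) = ab (u : K) * p₂ x) →
      (∀ x, f x ≠ 0 → (∀ j, 0 < p₁ x j) ∧ ∀ j, 0 < p₂ x j) →
      Summable (fun x => β₁ (p₁ x) * ‖f x‖) →
      Summable (fun x => β₂ (p₂ x) * ‖f x‖) ∧
        ∑' x, (β₂ (p₂ x) : ℂ) * f x = ∑' x, (β₁ (p₁ x) : ℂ) * f x

/-- COUNT 1: lattice points in arbitrary polydiscs -/
def CNT1 : Prop :=
  ∀ D : K, D ≠ 0 → ∃ C : ℝ, ∀ (z : io K → ℂ) (T : io K → ℝ), (∀ j, 0 ≤ T j) →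
    ∃ s : Finset K, (s.card : ℝ) ≤ C * (1 + ∏ j, T j) ∧
      ∀ x : K, IsIntegral ℤ (D * x) → (∀ j, normSq ((cmK K).sig j x - z j) ≤ T j) → x ∈ s

/-- COUNT 2: rows of bounded height -/
def CNT2 : Prop :=
  ∀ D : K, D ≠ 0 → ∃ C : ℝ, ∀ (w : HK K) (T : io K → ℝ), (∀ j, 0 ≤ T j) →
    ∃ s : Finset (K × K), (s.card : ℝ) ≤ C * (1 + ∏ j, T j / HS.v w j) * (1 + ∏ j, T j * HS.v w j) ∧
      ∀ x : K × K, IsIntegral ℤ (D * x.1) → IsIntegral ℤ (D * x.2) →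
        (∀ j, (cmK K).Qv w x.1 x.2 j ≤ T j) → x ∈ s

/-- COUNT 3: multiplicity of boxes under groups with bounded denominators -/
def CNT3 : Prop :=
  ∀ D : K, D ≠ 0 → ∀ r : ℝ, ∃ C : ℝ, ∀ B : Subgroup (SL2 K), (∀ g ∈ B, Bd D g) →
    ∀ A₁ A₂ : io K → ℝ, (∀ j, 0 < A₁ j) → (∀ j, A₁ j ≤ A₂ j) → ∀ w : HK K,
      H9.osum B ((Box r A₁ A₂).indicator 1) w ≤
        ENNReal.ofReal (C * (1 + ∏ j, (A₁ j ^ 2)⁻¹) * (1 + ∏ j, A₂ j / A₁ j))

/-- COUNT 4: compact sets lie in boxes, boxes are compact, and there is a base function -/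
def CNT4 : Prop :=
  (∀ A : Set (HK K), IsCompact A → ∃ r δ : ℝ, 0 < δ ∧ δ ≤ 1 ∧
      A ⊆ Box r (fun _ => δ) (fun _ => δ⁻¹)) ∧
    (∀ (r : ℝ) (A₁ A₂ : io K → ℝ), (∀ j, 0 < A₁ j) → IsCompact (Box r A₁ A₂)) ∧
    ∃ W : HK K → ℝ≥0∞, H9.IsBase (SLO K) W

open Classical in
/-- FOUR: the Fourier coefficients of the truncated series -/
def FOUR : Prop :=
  ∀ m : K, m ≠ 0 → ∀ A, IsCell m A → ∀ (k : ℕ) (a : K → K → ℂ), Adm k a → Per (Lat m) a →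
    ∀ ν ∈ Dual m, Tame (Sg k (Lat m) a ν) ∧
      (∃ δ : ℝ, 0 < δ ∧ ∀ x, x < δ → Sg k (Lat m) a ν x = 0) ∧
      ∀ (X : ℝ) (v : io K → ℝ), (∀ j, 0 < v j) →
        Integrable (fun z => Sg k (Lat m) a ν (X / PP z v)) ∧
        ∫ z in A, Es k a X ((cmK K).pt z v) * conj ((cmK K).ch ν z) =
          (if ν = 0 then ((volume A).toReal : ℂ) * E0 k a X v else 0) +
            ∫ z, Sg k (Lat m) a ν (X / PP z v) * conj ((cmK K).ch ν z)

/-- EIS: elementary properties of the truncated series -/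
def EIS : Prop :=
  (∀ (k : ℕ) (a : K → K → ℂ) (X : ℝ), Measurable (Es k a X)) ∧
    (∀ (k : ℕ) (a : K → K → ℂ) (X : ℝ) (g : SL2 K) (w : HK K),
      Es k (act a g) X w = Es k a X (g⁻¹ • w)) ∧
    (∀ (k : ℕ) (a b : K → K → ℂ) (X : ℝ) (w : HK K), Bnd a → Bnd b →
      Es k (a + b) X w = Es k a X w + Es k b X w) ∧
    (∀ (j k : ℕ) (a : K → K → ℂ), j ≤ k → Adm j a → Es k a = Es j a) ∧
    (∀ (k : ℕ) (a : K → K → ℂ), Bnd a → ∀ δ X₀ : ℝ, 0 < δ → ∃ C : ℝ, ∀ X, X ≤ X₀ → ∀ w : HK K,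
      (∀ j, δ ≤ HS.v w j ∧ HS.v w j ≤ δ⁻¹) → ‖Es k a X w‖ ≤ C) ∧
    ∀ (k : ℕ) (a : K → K → ℂ), Bnd a → ∃ C : ℝ, ∀ (X : ℝ) (v : io K → ℝ), (∀ j, 0 < v j) →
      ‖E0 k a X v‖ ≤ C

/-- LIM: the limit function and its Fourier coefficients -/
def LIM : Prop :=
  ∀ m : K, m ≠ 0 → ∃ cv : ℝ, 0 < cv ∧ ∀ (k : ℕ) (a : K → K → ℂ), Adm k a → Per (Lat m) a →
    LC (F k a) → LB (F k a) → ∃ (τ : K → ℂ) (θ : HK K → ℂ), Continuous θ ∧ IsExp τ θ ∧
      LZ (fun X w => F k a X w - θ w) ∧ RS τ ∧ (∀ ν, τ ν ≠ 0 → ν ∈ Dual m) ∧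
      ∀ ν ∈ Dual m, HasRes (Sg k (Lat m) a ν) (cv * τ ν)

/-- LIM0: a series which tends to zero has no residues -/
def LIM0 : Prop :=
  ∀ m : K, m ≠ 0 → ∀ (k : ℕ) (a : K → K → ℂ), Adm k a → Per (Lat m) a → LZ (F k a) →
    ∀ ν ∈ Dual m, HasRes (Sg k (Lat m) a ν) 0

variable {K}

/-- MEAN: the constant terms -/
def MEAN (S : Sy K) : Prop :=
  ∀ k : ℕ, 1 ≤ k → ∃ κ : ℝ, 0 < κ ∧ ∃ C : ℝ,
    (∀ x : ℝ, 0 < x → ‖Sg k (Lat (lv K k)) (S.a0 k) 0 x‖ ≤ C * x ^ (4 / 3 : ℝ)) ∧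
    Tendsto (fun x : ℝ => ((x ^ (-(4 / 3) : ℝ) : ℝ) : ℂ) * Sg k (Lat (lv K k)) (S.a0 k) 0 x)
      atTop (𝓝 κ) ∧
    ∀ p : R K, Prime p →
      (∀ x : ℝ, 0 < x → ‖Sg k (Lat (lv K k)) (fun c d => S.a0 k c d * ln (p : K) 0 1 c d) 0 x‖ ≤
        C * x ^ (4 / 3 : ℝ)) ∧
      Tendsto (fun x : ℝ => ((x ^ (-(4 / 3) : ℝ) : ℝ) : ℂ) *
        Sg k (Lat (lv K k)) (fun c d => S.a0 k c d * ln (p : K) 0 1 c d) 0 x)
        atTop (𝓝 (κ / ((Nr p : ℂ) + 1)))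

/-- GRAM: convergence for the basic row function -/
def GRAM (S : Sy K) : Prop :=
  ∀ k : ℕ, 1 ≤ k → LC (F k (S.a0 k)) ∧ LB (F k (S.a0 k)) ∧
    ∀ p : R K, Prime p → LZ (F k (cen (S.a0 k) p 0 1))

/-- ROW 1: the Kubota character -/
def ROW1 (S : Sy K) : Prop :=
  (∀ g ∈ Gam K 1, ∀ g' ∈ Gam K 1, S.kub (g * g') = S.kub g * S.kub g') ∧
    (∀ g ∈ Gam K 1, ‖S.kub g‖ = 1) ∧
    (∀ k, 1 ≤ k → ∀ g ∈ Gam K k, ∀ c d, act (S.a0 k) g c d = S.kub g * S.a0 k c d) ∧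
    (∀ k c d, S.a0 k c d ≠ 0 ↔ ∃ g ∈ Gam K k, g 1 0 = c ∧ g 1 1 = d) ∧
    ∀ k, 1 ≤ k → Adm k (S.a0 k)

/-- ROW 2: the families -/
def ROW2 (S : Sy K) : Prop :=
  (∀ j φ, Fam j φ → S.Eqv (S.ap φ)) ∧
    (∀ a, S.Eqv a → ∀ g ∈ SLr K, S.Eqv (act a g)) ∧
    (∀ a, S.Eqv a → ∀ᶠ k in atTop,
      a ∈ Submodule.span ℂ {b | ∃ g ∈ SLr K, b = act (S.a0 k) g}) ∧
    ∀ a, S.Eqv a →
      a ∈ Submodule.span ℂ {b | ∃ j φ, Fam j φ ∧ ∃ t ∈ R K, b = act (S.ap φ) (KU.tr t)}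

/-- GAUSS 1: evaluation of the cubic Gauss sums -/
def GAU1 (S : Sy K) : Prop :=
  (∀ ν ∈ R K, ∀ u ∈ Ru K, S.G ν (u : K) = 1) ∧
    (∀ ν ∈ R K, ∀ x c, x ≠ 0 → Cop x c → S.G ν (x * c) = S.h c x * S.G ν x * S.G (ν * x) c) ∧
    ∀ p ν : R K, Prime p → ¬ p ∣ ν →
      S.G ν p * conj (S.G ν p) = (Nr p : ℂ) ∧
      S.G (ν * p) (p ^ 2) = (Nr p : ℂ) * conj (S.G ν p) ∧
      (∀ c : R K, c ≠ 0 → S.G ν (p ^ 2 * c) = 0) ∧
      (∀ c : R K, c ≠ 0 → S.G (ν * p) (p ^ 3 * c) = 0) ∧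
      ∀ c : R K, ¬ p ∣ c → S.G (ν * p) (p * c) = 0

open Classical in
/-- GAUSS 2: the Gauss sums of the explicit family -/
def GAU2 (S : Sy K) : Prop :=
  ∀ j φ, Fam j φ → ∀ ν : R K,
    (∀ᶠ k in atTop, ∀ c, c ≠ 0 → S.G ν c = 0 → gn k (S.ap φ) ν c = 0) ∧
    (∀ x : R K, x ≠ 0 → ∀ᶠ k in atTop, ∀ c, Cop (x : K) c →
      gn k (S.ap φ) ν (x * c) =
        S.G ν x * ((Nr x : ℂ) / (nm (x : K) : ℂ)) * gn k (S.ap (S.T x φ)) (ν * x) c ∧
      gn k (S.ap φ) (ν * x ^ 3) c =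
        ((nm (x : K) : ℂ) / (Nr x : ℂ)) ^ 3 * gn k (S.ap (Cb x φ)) ν c) ∧
    ∀ p : R K, Prime p → ¬ p ∣ ν → ∀ᶠ k in atTop, ∃ κ : ℂ, κ ≠ 0 ∧ ∀ c, c ≠ 0 →
      gs (Lat (lv K k * p)) (S.ap (Cb p φ)) (ν / p) c = 0 ∧
      gs (Lat (lv K k * p)) (fun c d => S.ap (Cb p φ) c d * ln (p : K) 1 0 c d) (ν / p) c =
        κ * if Cop (p : K) c then gn k (S.ap φ) (ν * p ^ 2) c else 0

/-- GAUSS 3: the explicit family is stable, and the normalised sums do not depend on the level -/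
def GAU3 (S : Sy K) : Prop :=
  (∀ j φ, Fam j φ → ∀ x : K, x ≠ 0 → (∃ j', Fam j' (S.T x φ)) ∧ ∃ j', Fam j' (Cb x φ)) ∧
    ∀ (a : K → K → ℂ) (j k : ℕ) (ν c : K), Bnd a → Per (Lat (lv K j)) a → ν ∈ Dual (lv K j) →
      j ≤ k → c ≠ 0 → gn k a ν c = gn j a ν c

/-- THETA: the output of the block -/
def THETA (S : Sy K) : Prop :=
  ∃ M₀ : ℕ, ∀ k₀ : K, k₀ ≠ 0 →
    ∃ (θ : HK K → ℂ) (M : ℕ) (T : ℂ) (τ : SL2 K → K → ℂ), T ≠ 0 ∧ 1 ≤ M ∧ Continuous θ ∧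
      (∀ γ ∈ Gam K M, ∀ w, θ (γ • w) = conj (S.kub γ) * θ w) ∧
      (∀ g ∈ SLr K, IsExp (τ g) (fun w => θ (g • w)) ∧ RS (τ g) ∧
        ∃ j : ℕ, (∀ ν, τ g ν ≠ 0 → IsIntegral ℤ (lv K j * ν)) ∧
          (∀ l ∈ P K j, ∀ ν ∈ R K, (l : K) ^ 3 * ν ∈ R K → τ g ((l : K) ^ 3 * ν) = τ g ν) ∧
          ∀ (p ν : R K) (i : ℕ), Prime p → ¬ p ∣ ν → τ g ((p : K) ^ (3 * i + 2) * ν) = 0) ∧
      ∀ n b : R K, Squarefree n → b ≠ 0 →
        ((n : K) * (b : K) ^ 3 / k₀ - 1) / lv K M₀ ∈ Si K →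
        τ 1 ((n : K) * (b : K) ^ 3) =
          T * conj (S.G 1 n) * (((Nr n : ℝ) ^ (-(2 / 3) : ℝ) : ℝ) : ℂ)

/-- GOOD: all equivariant row functions are good at deep levels -/
def GOOD (S : Sy K) : Prop := ∀ a, S.Eqv a → ∀ᶠ k in atTop, Adm k a ∧ Good k a

end blocks

end Vale.Agent.P016Z.TH
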