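import Vale.Agent.P016Z.TH.Defs
import Mathlib.Algebra.Module.ZLattice.Basic
import Mathlib.MeasureTheory.Constructions.Polish.StronglyMeasurable

/-!
P016, block THETA: elementary properties of the truncated Eisenstein series.
-/

namespace Vale.Agent.P016Z.TH

open NumberField MeasureTheory Filter Topology Complex Finset
open Vale.Agent.P006
open scoped ENNReal ComplexConjugate

set_option linter.unusedSectionVars false

variable {K : Type} [Field K] [NumberField K] [Dat K]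

namespace Eis

instance countableK : Countable K := (Module.finBasis ℚ K).equivFun.injective.countable

theorem one_le_nm' {x : K} (hx : IsIntegral ℤ x) (h0 : x ≠ 0) : 1 ≤ nm x :=
  (cmK K).one_le_nm (x := ⟨x, hx⟩) fun h => h0 (congrArg Subtype.val h)

theorem nm_unit {u : Kˣ} (hu : u ∈ Ou K) : nm (u : K) = 1 := by
  have h1 := one_le_nm' (isIntegral_of_mem hu.1.1 hu.2.1) u.ne_zero
  have h2 := one_le_nm' (isIntegral_of_mem hu.1.2 hu.2.2) (inv_ne_zero u.ne_zero)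
  rw [nm, CM.nm_inv] at h2
  exact le_antisymm ((one_le_inv₀ (by linarith)).1 h2) h1

theorem Uk_le_Ou (k : ℕ) : Uk K k ≤ Ou K := inf_le_inf_left _ (P_le_Su k)

theorem ab_mul (x y : K) : ab (x * y) = ab x * ab y := by
  funext j
  simp only [ab, map_mul, Pi.mul_apply]

theorem ab_pos {x : K} (hx : x ≠ 0) (j : io K) : 0 < ab x j :=
  normSq_pos.2 ((map_ne_zero _).2 hx)

theorem ab_nonneg (x : K) (j : io K) : 0 ≤ ab x j := normSq_nonneg _

theorem prod_ab (x : K) : ∏ j, ab x j = nm x := rfl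

theorem row_int {D c d : K} (h : Row D c d) :
    IsIntegral ℤ (D * c) ∧ IsIntegral ℤ (D * d) ∧ (c ≠ 0 ∨ d ≠ 0) := by
  obtain ⟨g, hg, rfl, rfl⟩ := h
  refine ⟨hg 1 0, hg 1 1, ?_⟩
  by_contra h
  push Not at h
  have h1 := g.det_coe
  rw [Matrix.det_fin_two, h.1, h.2] at h1
  simp at h1

theorem row_zero {D d : K} (hD : D ≠ 0) (h : Row D 0 d) : nm d ≤ nm D := by
  obtain ⟨g, hg, h0, rfl⟩ := h
  have h1 := g.det_coe
  rw [Matrix.det_fin_two, h0, mul_zero, sub_zero] at h1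
  have h2 := one_le_nm' (hg 0 0) (mul_ne_zero hD (left_ne_zero_of_mul_eq_one h1))
  have h3 : nm D = nm (D * g 0 0) * nm (g 1 1) := by
    rw [← CM.nm_mul, mul_assoc, h1, mul_one]
  rw [h3]
  exact le_mul_of_one_le_left ((cmK K).nm_nonneg _) h2

theorem bal_le {t : io K → ℝ} {C y : ℝ} (hC : 0 ≤ C) (hy : 0 < y) (h : ∀ i j, t i ≤ C * t j)
    (hp : ∏ j, t j ≤ y ^ Fintype.card (io K)) (i : io K) : t i ≤ C * y := by
  have h1 : ∃ j, t j ≤ y := by
    by_contra h2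
    push Not at h2
    have h3 := Finset.prod_lt_prod_of_nonempty (s := univ) (f := fun _ : io K => y) (g := t)
      (fun _ _ => hy) (fun j _ => h2 j) univ_nonempty
    rw [prod_const, card_univ] at h3
    linarith
  obtain ⟨j, hj⟩ := h1
  exact (h i j).trans (mul_le_mul_of_nonneg_left hj hC)

theorem exists_root {Y : ℝ} (hY : 0 < Y) : ∃ y : ℝ, 0 < y ∧ y ^ Fintype.card (io K) = Y :=
  ⟨Y ^ ((Fintype.card (io K) : ℝ)⁻¹), Real.rpow_pos_of_pos hY _,
    Real.rpow_inv_natCast_pow hY.le Fintype.card_ne_zero⟩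

/-- The support of the partition. -/
theorem bet_bal (hP : PART K) (k : ℕ) : ∃ C : ℝ, 0 < C ∧ ∀ (t : io K → ℝ) (y : ℝ), 0 < y →
    (∀ j, 0 < t j) → bet K k t ≠ 0 → ∏ j, t j ≤ y ^ Fintype.card (io K) → ∀ i, t i ≤ C * y := by
  obtain ⟨C, hC⟩ := (hP.2.2 k).bal
  refine ⟨max C 1, by positivity, fun t y hy ht hb hp => bal_le (by positivity) hy
    (fun i j => (hC t ht hb i j).trans ?_) hp⟩
  exact mul_le_mul_of_nonneg_right (le_max_left _ _) (ht j).le

theorem norm_bet_le (hP : PART K) (k : ℕ) (t : io K → ℝ) : ‖(bet K k t : ℂ)‖ ≤ 1 := by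
  rw [Complex.norm_real, Real.norm_of_nonneg ((hP.2.2 k).nonneg t)]
  exact (hP.2.2 k).le_one t

theorem measurable_bet (k : ℕ) : Measurable (bet K k) := by
  unfold bet
  split_ifs with h
  · exact h.choose_spec.meas
  · exact measurable_zero

/-- The summand of the truncated series. -/
noncomputable def tm (k : ℕ) (a : K → K → ℂ) (X : ℝ) (w : HK K) (x : K × K) : ℂ :=
  a x.1 x.2 * (bet K k ((cmK K).Qv w x.1 x.2) : ℂ) * (if (cmK K).QQ w x.1 x.2 ≤ X then 1 else 0)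

theorem Es_eq (k : ℕ) (a : K → K → ℂ) (X : ℝ) (w : HK K) : Es k a X w = ∑' x, tm k a X w x := rfl

theorem tm_supp (hP : PART K) (k : ℕ) {a : K → K → ℂ} (ha : Bnd a) :
    ∃ D : K, D ≠ 0 ∧ ∃ C : ℝ, 0 < C ∧ ∀ (X : ℝ) (w : HK K) (x : K × K), tm k a X w x ≠ 0 →
      IsIntegral ℤ (D * x.1) ∧ IsIntegral ℤ (D * x.2) ∧
        ∀ j, (cmK K).Qv w x.1 x.2 j ≤ C * max X 1 := by
  obtain ⟨j, hj⟩ := ha.supp
  obtain ⟨C, hC, h⟩ := bet_bal hP k
  refine ⟨lv K j, lv_ne j, C, hC, fun X w x hx => ?_⟩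
  obtain ⟨h1, h2, h3⟩ := row_int (hj _ _ (left_ne_zero_of_mul (left_ne_zero_of_mul hx)))
  refine ⟨h1, h2, h _ _ (by positivity) ((cmK K).Qv_pos w h3) ?_ ?_⟩
  · exact fun h0 => right_ne_zero_of_mul (left_ne_zero_of_mul hx) (by rw [h0, ofReal_zero])
  · have h4 : (cmK K).QQ w x.1 x.2 ≤ X := by
      by_contra h4
      exact right_ne_zero_of_mul hx (if_neg h4)
    exact h4.trans ((le_max_left _ _).trans (le_self_pow₀ (le_max_right _ _) Fintype.card_ne_zero))

theorem tm_finite (hP : PART K) (h2 : CNT2 K) (k : ℕ) {a : K → K → ℂ} (ha : Bnd a) (X : ℝ)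
    (w : HK K) : ∃ s : Finset (K × K), ∀ x ∉ s, tm k a X w x = 0 := by
  obtain ⟨D, hD, C, hC, h⟩ := tm_supp hP k ha
  obtain ⟨C', h'⟩ := h2 D hD
  obtain ⟨s, -, hs⟩ := h' w (fun _ => C * max X 1) fun _ => by positivity
  refine ⟨s, fun x hx => ?_⟩
  by_contra h0
  obtain ⟨h3, h4, h5⟩ := h X w x h0
  exact hx (hs x h3 h4 h5)

theorem summable_tm (hP : PART K) (h2 : CNT2 K) (k : ℕ) {a : K → K → ℂ} (ha : Bnd a) (X : ℝ)
    (w : HK K) : Summable (tm k a X w) := by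
  obtain ⟨s, hs⟩ := tm_finite hP h2 k ha X w
  exact summable_of_ne_finset_zero hs

theorem norm_tsum_le_card {α : Type} {f : α → ℂ} {s : Finset α} {B : ℝ} (hs : ∀ x ∉ s, f x = 0)
    (hB : ∀ x, ‖f x‖ ≤ B) : ‖∑' x, f x‖ ≤ s.card * B := by
  rw [tsum_eq_sum hs]
  refine (norm_sum_le _ _).trans ((sum_le_sum fun x _ => hB x).trans ?_)
  rw [sum_const, nsmul_eq_mul]

theorem norm_ite_le (p : Prop) [Decidable p] : ‖(if p then 1 else 0 : ℂ)‖ ≤ 1 := by
  split_ifs <;> simp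

theorem norm_three_le {x y z : ℂ} {B : ℝ} (hx : ‖x‖ ≤ B) (hy : ‖y‖ ≤ 1) (hz : ‖z‖ ≤ 1) :
    ‖x * y * z‖ ≤ B := by
  rw [norm_mul, norm_mul]
  exact (mul_le_of_le_one_right (by positivity) hz).trans
    ((mul_le_of_le_one_right (norm_nonneg _) hy).trans hx)

theorem measurable_Es (k : ℕ) (a : K → K → ℂ) (X : ℝ) : Measurable (Es k a X) := by
  refine Measurable.tsum fun x => ?_
  refine (measurable_const.mul (Complex.measurable_ofReal.comp ((measurable_bet k).comp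
    ((cmK K).continuous_Qv _ _).measurable))).mul (Measurable.ite ?_ measurable_const
    measurable_const)
  exact measurableSet_le ((cmK K).continuous_QQ _ _).measurable measurable_const

/-- The action of a matrix on rows. -/
def rowEquiv (g : SL2 K) : K × K ≃ K × K where
  toFun x := (x.1 * g 0 0 + x.2 * g 1 0, x.1 * g 0 1 + x.2 * g 1 1)
  invFun x := (x.1 * g 1 1 - x.2 * g 1 0, -x.1 * g 0 1 + x.2 * g 0 0)
  left_inv x := by
    have h := g.det_coe
    rw [Matrix.det_fin_two] at h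
    ext
    · simp only
      linear_combination x.1 * h
    · simp only
      linear_combination x.2 * h
  right_inv x := by
    have h := g.det_coe
    rw [Matrix.det_fin_two] at h
    ext
    · simp only
      linear_combination x.1 * h
    · simp only
      linear_combination x.2 * h

theorem Es_act (k : ℕ) (a : K → K → ℂ) (X : ℝ) (g : SL2 K) (w : HK K) :
    Es k (act a g) X w = Es k a X (g⁻¹ • w) := by
  rw [Es_eq, Es_eq, ← (rowEquiv g).tsum_eq (tm k a X (g⁻¹ • w))]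
  refine tsum_congr fun x => ?_
  have h1 := (cmK K).Qv_smul g (g⁻¹ • w) x.1 x.2
  have h2 := (cmK K).QQ_smul g (g⁻¹ • w) x.1 x.2
  rw [smul_inv_smul] at h1 h2
  rw [tm, h1, h2]
  rfl

theorem Es_add (hP : PART K) (h2 : CNT2 K) (k : ℕ) {a b : K → K → ℂ} (X : ℝ) (w : HK K)
    (ha : Bnd a) (hb : Bnd b) : Es k (a + b) X w = Es k a X w + Es k b X w := by
  rw [Es_eq, Es_eq, Es_eq, ← (summable_tm hP h2 k ha X w).tsum_add (summable_tm hP h2 k hb X w)]
  refine tsum_congr fun x => ?_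
  simp only [tm, Pi.add_apply, add_mul]

theorem Es_smul (k : ℕ) (z : ℂ) (a : K → K → ℂ) (X : ℝ) (w : HK K) :
    Es k (z • a) X w = z * Es k a X w := by
  rw [Es_eq, Es_eq, ← tsum_mul_left]
  refine tsum_congr fun x => ?_
  simp only [tm, Pi.smul_apply, smul_eq_mul, mul_assoc]

theorem Qv_unit (w : HK K) (u : Kˣ) (x : K × K) :
    (cmK K).Qv w (u • x).1 (u • x).2 = ab (u : K) * (cmK K).Qv w x.1 x.2 :=
  funext fun j => (cmK K).Qv_scale w u x.1 x.2 j

theorem QQ_unit (w : HK K) {u : Kˣ} (hu : u ∈ Ou K) (x : K × K) :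
    (cmK K).QQ w (u • x).1 (u • x).2 = (cmK K).QQ w x.1 x.2 := by
  have h := (cmK K).QQ_scale w u x.1 x.2
  rw [show (cmK K).nm (u : K) = 1 from nm_unit hu, one_mul] at h
  exact h

theorem idx_ne (hP : PART K) (k : ℕ) : ((idx K k : ℝ))⁻¹ ≠ 0 :=
  inv_ne_zero (by exact_mod_cast hP.1 k)

theorem Es_level (hP : PART K) (hR : RESEL K) (h2 : CNT2 K) {j k : ℕ} {a : K → K → ℂ}
    (hjk : j ≤ k) (ha : Adm j a) : Es k a = Es j a := by
  funext X w
  obtain ⟨i, hi⟩ := ha.supp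
  obtain ⟨s, hs⟩ := tm_finite hP h2 j ha.toBnd X w
  have e : ∀ k x, tm k a X w x = (bet K k ((cmK K).Qv w x.1 x.2) : ℂ) *
      (a x.1 x.2 * if (cmK K).QQ w x.1 x.2 ≤ X then 1 else 0) := fun k x => by
    unfold tm
    ring
  have h := hR (Uk K j) _ _ _ (idx_ne hP j) (hP.2.1 j j le_rfl) (hP.2.1 j k hjk) (K × K)
    (fun x => (cmK K).Qv w x.1 x.2) (fun x => (cmK K).Qv w x.1 x.2)
    (fun x => a x.1 x.2 * if (cmK K).QQ w x.1 x.2 ≤ X then 1 else 0)
    (fun u hu x => by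
      rw [QQ_unit w (Uk_le_Ou j hu)]
      exact congrArg (· * _) (ha.unit u hu x.1 x.2))
    (fun u _ x => ⟨Qv_unit w u x, Qv_unit w u x⟩)
    (fun x hx => by
      have := (cmK K).Qv_pos w (row_int (hi _ _ (left_ne_zero_of_mul hx))).2.2
      exact ⟨this, this⟩)
    (summable_of_ne_finset_zero (s := s) fun x hx => by
      have h3 := hs x hx
      rw [e, mul_eq_zero, ofReal_eq_zero] at h3
      rcases h3 with h3 | h3
      · rw [h3, zero_mul]
      · rw [h3, norm_zero, mul_zero])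
  simp only [Es_eq, e]
  exact h.2

theorem Es_bound (hP : PART K) (h2 : CNT2 K) (k : ℕ) {a : K → K → ℂ} (ha : Bnd a) (δ X₀ : ℝ)
    (hδ : 0 < δ) : ∃ C : ℝ, ∀ X, X ≤ X₀ → ∀ w : HK K,
      (∀ j, δ ≤ HS.v w j ∧ HS.v w j ≤ δ⁻¹) → ‖Es k a X w‖ ≤ C := by
  obtain ⟨B, hB⟩ := ha.bdd
  obtain ⟨D, hD, C, hC, h⟩ := tm_supp hP k ha
  obtain ⟨C', h'⟩ := h2 D hD
  have hT : 0 < C * max X₀ 1 := by positivity
  refine ⟨|C'| * (1 + ∏ _j : io K, C * max X₀ 1 / δ) * (1 + ∏ _j : io K, C * max X₀ 1 * δ⁻¹) * B,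
    fun X hX w hw => ?_⟩
  obtain ⟨s, hc, hs⟩ := h' w (fun _ => C * max X₀ 1) fun _ => hT.le
  refine (norm_tsum_le_card (s := s) (fun x hx => ?_) fun x =>
    norm_three_le (hB _ _) (norm_bet_le hP k _) (norm_ite_le _)).trans ?_
  · by_contra h0
    obtain ⟨h3, h4, h5⟩ := h X w x h0
    exact hx (hs x h3 h4 fun j => (h5 j).trans (by gcongr))
  · refine mul_le_mul_of_nonneg_right (hc.trans ?_) ((norm_nonneg _).trans (hB 0 0))
    have hv := HS.v_pos w
    have k1 : ∏ j, C * max X₀ 1 / HS.v w j ≤ ∏ _j : io K, C * max X₀ 1 / δ :=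
      prod_le_prod (fun j _ => (div_pos hT (hv j)).le) fun j _ =>
        div_le_div_of_nonneg_left hT.le hδ (hw j).1
    have k2 : ∏ j, C * max X₀ 1 * HS.v w j ≤ ∏ _j : io K, C * max X₀ 1 * δ⁻¹ :=
      prod_le_prod (fun j _ => (mul_pos hT (hv j)).le) fun j _ =>
        mul_le_mul_of_nonneg_left (hw j).2 hT.le
    have k3 : 0 ≤ ∏ j, C * max X₀ 1 / HS.v w j := prod_nonneg fun j _ => (div_pos hT (hv j)).le
    have k4 : 0 ≤ ∏ j, C * max X₀ 1 * HS.v w j := prod_nonneg fun j _ => (mul_pos hT (hv j)).le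
    have k5 := le_abs_self C'
    have k6 := abs_nonneg C'
    gcongr

theorem E0_bound (hP : PART K) (h1 : CNT1 K) (k : ℕ) {a : K → K → ℂ} (ha : Bnd a) :
    ∃ C : ℝ, ∀ (X : ℝ) (v : io K → ℝ), (∀ j, 0 < v j) → ‖E0 k a X v‖ ≤ C := by
  obtain ⟨B, hB⟩ := ha.bdd
  obtain ⟨i, hi⟩ := ha.supp
  obtain ⟨C, hC, h⟩ := bet_bal hP k
  obtain ⟨C', h'⟩ := h1 _ (lv_ne i)
  refine ⟨C' * (1 + C ^ Fintype.card (io K) * nm (lv K i)) * B, fun X v hv => ?_⟩
  have hV : 0 < ∏ j, v j := prod_pos fun j _ => hv j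
  obtain ⟨y, hy, hy'⟩ := exists_root (K := K) (div_pos ((cmK K).nm_pos (lv_ne i)) hV)
  obtain ⟨s, hc, hs⟩ := h' 0 (fun j => C * y * v j) fun j => by have := hv j; positivity
  refine (norm_tsum_le_card (s := s) (fun d hd => ?_) fun d =>
    norm_three_le (hB _ _) (norm_bet_le hP k _) (norm_ite_le _)).trans ?_
  · by_contra h0
    have h3 := hi _ _ (left_ne_zero_of_mul (left_ne_zero_of_mul h0))
    obtain ⟨-, h4, h5⟩ := row_int h3
    have h6 : d ≠ 0 := h5.resolve_left fun h => h rfl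
    refine hd (hs d h4 fun j => ?_)
    have h7 := h (ab d / v) y hy (fun j => div_pos (ab_pos h6 j) (hv j))
      (fun h => right_ne_zero_of_mul (left_ne_zero_of_mul h0) (by rw [h, ofReal_zero]))
      (by
        simp only [Pi.div_apply, prod_div_distrib, hy', prod_ab]
        exact div_le_div_of_nonneg_right (row_zero (lv_ne i) h3) hV.le) j
    rw [Pi.div_apply, div_le_iff₀ (hv j)] at h7
    rw [Pi.zero_apply, sub_zero]
    exact h7
  · refine mul_le_mul_of_nonneg_right (hc.trans (le_of_eq ?_)) ((norm_nonneg _).trans (hB 0 0))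
    rw [prod_mul_distrib, prod_const, card_univ, mul_pow, hy', mul_assoc, div_mul_cancel₀ _ hV.ne']

/-- A rational basis of the field which spans `m O`. -/
noncomputable def latBasis {m : K} (hm : m ≠ 0) :
    Module.Basis (Module.Free.ChooseBasisIndex ℤ (𝓞 K)) ℚ K :=
  (integralBasis K).map ((LinearEquiv.smulOfNeZero K K m hm).restrictScalars ℚ)

theorem latBasis_apply {m : K} (hm : m ≠ 0) (i : Module.Free.ChooseBasisIndex ℤ (𝓞 K)) :
    latBasis hm i = m * integralBasis K i := rfl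

theorem LatC_eq {m : K} (hm : m ≠ 0) :
    LatC m = (Submodule.span ℤ (Set.range ((cmK K).bas (latBasis hm)))).toAddSubgroup := by
  let φ : K →ₗ[ℤ] (io K → ℂ) :=
    ((cmK K).em.toAddMonoidHom.comp (AddMonoidHom.mulLeft m)).toIntLinearMap
  have h1 : Set.range ((cmK K).bas (latBasis hm)) = φ '' Set.range (integralBasis K) := by
    rw [← Set.range_comp]
    congr 1
    funext i
    rw [CM.bas_apply]
    rfl
  rw [h1, ← Submodule.map_span]
  ext z
  simp only [LatC, AddSubgroup.mem_map, Submodule.mem_toAddSubgroup, Submodule.mem_map,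
    mem_span_integralBasis]
  constructor
  · rintro ⟨x, hx, rfl⟩
    refine ⟨x / m, ⟨⟨x / m, hx⟩, rfl⟩, ?_⟩
    show (cmK K).em (m * (x / m)) = _
    rw [mul_div_cancel₀ _ hm]
    rfl
  · rintro ⟨x, ⟨y, rfl⟩, rfl⟩
    refine ⟨m * y, ?_, rfl⟩
    rw [mem_Lat, mul_div_cancel_left₀ _ hm]
    exact y.isIntegral_coe

end Eis

open Eis

theorem eis (hP : PART K) (hR : RESEL K) (h1 : CNT1 K) (h2 : CNT2 K) : EIS K :=
  ⟨measurable_Es, Es_act, fun k _ _ X w ha hb => Es_add hP h2 k X w ha hb,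
    fun _ _ _ hjk ha => Es_level hP hR h2 hjk ha, fun k _ ha => Es_bound hP h2 k ha,
    fun k _ ha => E0_bound hP h1 k ha⟩

theorem exists_cell {m : K} (hm : m ≠ 0) : ∃ A, IsCell m A := by
  refine ⟨ZSpan.fundamentalDomain ((cmK K).bas (latBasis hm)),
    ZSpan.fundamentalDomain_measurableSet _, ZSpan.fundamentalDomain_isBounded _, ?_⟩
  rw [LatC_eq hm]
  exact ZSpan.isAddFundamentalDomain' _ _

/-- Every point is at bounded distance from the lattice. -/
theorem exists_near {m : K} (hm : m ≠ 0) :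
    ∃ r : ℝ, ∀ z : io K → ℂ, ∃ l ∈ Lat m, ‖z - (cmK K).em l‖ ≤ r := by
  refine ⟨∑ i, ‖(cmK K).bas (latBasis hm) i‖, fun z => ?_⟩
  have h1 : (ZSpan.floor ((cmK K).bas (latBasis hm)) z : io K → ℂ) ∈ LatC m := by
    rw [LatC_eq hm]
    exact (ZSpan.floor ((cmK K).bas (latBasis hm)) z).2
  obtain ⟨l, hl, h2⟩ := h1
  refine ⟨l, hl, ?_⟩
  have h3 : (cmK K).em l = ZSpan.floor ((cmK K).bas (latBasis hm)) z := h2
  rw [h3]
  exact ZSpan.norm_fract_le _ z

end Vale.Agent.P016Z.TH
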