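import Vale.Agent.P016Z.TH.Defs
import Mathlib.Analysis.Fourier.AddCircleMulti
import Mathlib.MeasureTheory.Measure.Haar.Unique
import Mathlib.Algebra.Module.ZLattice.Basic

/-!
P016, block THETA: Fourier analysis on the cell of a lattice, folding.
-/

namespace Vale.Agent.P016Z.TH

open MeasureTheory Set Filter Complex Finset Matrix NumberField Topology Module
open scoped ENNReal ComplexConjugate
open Vale.Agent.P006 Vale.Agent.P006.H9

section cube

attribute [local instance] instMeasureSpaceUnitAddCircle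

variable {κ : Type} [Fintype κ]

/-- the unit cube -/
def cube (κ : Type) : Set (κ → ℝ) := {x | ∀ i, x i ∈ Set.Ioc ((0 : κ → ℝ) i) ((0 : κ → ℝ) i + 1)}

theorem measurableSet_cube : MeasurableSet (cube κ) :=
  MeasurableSet.univ_pi' (fun _ => measurableSet_Ioc)

theorem mFourier_coe (n : κ → ℤ) (x : κ → ℝ) :
    UnitAddTorus.mFourier n (fun i => (x i : UnitAddCircle)) = ee (∑ i, n i * x i) := by
  rw [ee_sum]
  simp only [UnitAddTorus.mFourier, ContinuousMap.coe_mk, fourier_coe_apply, ee]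
  refine prod_congr rfl fun i _ => ?_
  congr 1; push_cast; ring

theorem parseval_cube {G : (κ → ℝ) → ℂ} (hG : Measurable G)
    (h2 : ∫⁻ x in cube κ, ‖G x‖ₑ ^ 2 ≠ ∞) :
    HasSum (fun n : κ → ℤ => ‖∫ x in cube κ, G x * conj (ee (∑ i, n i * x i))‖ ^ 2)
      (∫⁻ x in cube κ, ‖G x‖ₑ ^ 2).toReal := by
  set f : UnitAddTorus κ → ℂ := fun t => G (UnitAddTorus.measurableEquivPiIoc 0 t).1 with hf
  have hfm : Measurable f :=
    hG.comp (measurable_subtype_coe.comp (UnitAddTorus.measurableEquivPiIoc 0).measurable)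
  have hfx : ∀ x ∈ cube κ, f (fun i => (x i : UnitAddCircle)) = G x := by
    intro x hx
    have := (UnitAddTorus.measurableEquivPiIoc (0 : κ → ℝ)).apply_symm_apply ⟨x, hx⟩
    rw [UnitAddTorus.coe_symm_measurableEquivPiIoc_apply] at this
    simp only [hf]
    rw [this]
  have hl : ∫⁻ t, ‖f t‖ₑ ^ 2 = ∫⁻ x in cube κ, ‖G x‖ₑ ^ 2 := by
    rw [UnitAddTorus.lintegral_preimage _ 0]
    refine setLIntegral_congr_fun measurableSet_cube fun x hx => ?_
    rw [hfx x hx]
  have hmem : MemLp f 2 (volume : Measure (UnitAddTorus κ)) := by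
    refine ⟨hfm.aestronglyMeasurable, ?_⟩
    rw [eLpNorm_lt_top_iff_lintegral_rpow_enorm_lt_top (by norm_num) (by norm_num)]
    simp only [ENNReal.toReal_ofNat, ENNReal.rpow_ofNat]
    rw [hl]; exact h2.lt_top
  have h := UnitAddTorus.hasSum_sq_mFourierCoeff (hmem.toLp f)
  have e1 : ∀ n, UnitAddTorus.mFourierCoeff (hmem.toLp f) n =
      ∫ x in cube κ, G x * conj (ee (∑ i, n i * x i)) := by
    intro n
    have : UnitAddTorus.mFourierCoeff (hmem.toLp f) n = UnitAddTorus.mFourierCoeff f n := by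
      refine integral_congr_ae ?_
      filter_upwards [hmem.coeFn_toLp] with t ht
      rw [ht]
    rw [this, UnitAddTorus.mFourierCoeff_eq_integral _ _ 0]
    refine setIntegral_congr_fun measurableSet_cube fun x hx => ?_
    rw [hfx x hx, UnitAddTorus.mFourier_neg, mFourier_coe, smul_eq_mul, mul_comm]
  have e2 : ∫ t, ‖(hmem.toLp f) t‖ ^ 2 = (∫⁻ x in cube κ, ‖G x‖ₑ ^ 2).toReal := by
    rw [← hl]
    have : ∫ t, ‖(hmem.toLp f) t‖ ^ 2 = ∫ t, ‖f t‖ ^ 2 := by
      refine integral_congr_ae ?_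
      filter_upwards [hmem.coeFn_toLp] with t ht
      rw [ht]
    rw [this, integral_eq_lintegral_of_nonneg_ae (Eventually.of_forall fun t => by positivity)
      (hfm.norm.pow_const 2).aestronglyMeasurable]
    congr 1
    refine lintegral_congr fun t => ?_
    rw [ENNReal.ofReal_pow (norm_nonneg _), ofReal_norm]
  simp only [e1, e2] at h
  exact h

theorem orth_cube {n : κ → ℤ} (hn : n ≠ 0) : ∫ x in cube κ, ee (∑ i, n i * x i) = 0 := by
  have h := (orthonormal_iff_ite.1 (UnitAddTorus.orthonormal_mFourier (d := κ))) 0 n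
  rw [if_neg hn.symm, ContinuousMap.inner_toLp, UnitAddTorus.integral_preimage _ 0] at h
  rw [← h]
  refine setIntegral_congr_fun measurableSet_cube fun x _ => ?_
  rw [mFourier_coe, UnitAddTorus.mFourier_zero]
  simp

end cube

variable {K : Type} [Field K] [NumberField K] {ι : Type}

/-- the integral combinations of a basis -/
noncomputable def cmb {κ : Type} [Fintype κ] (b : Basis κ ℚ K) (n : κ → ℤ) : K :=
  ∑ i, (n i : K) * b i

theorem cmb_repr {κ : Type} [Fintype κ] (b : Basis κ ℚ K) (n : κ → ℤ) (i : κ) :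
    b.repr (cmb b n) i = n i := by
  classical
  have : cmb b n = ∑ i, (n i : ℚ) • b i := by
    refine sum_congr rfl fun i _ => ?_
    rw [Algebra.smul_def]; simp
  rw [this, ← b.equivFun_symm_apply, ← b.equivFun_apply, LinearEquiv.apply_symm_apply]

theorem cmb_injective {κ : Type} [Fintype κ] (b : Basis κ ℚ K) : Function.Injective (cmb b) := by
  intro m n h
  funext i
  have := cmb_repr b m i
  rw [h, cmb_repr] at this
  exact_mod_cast this.symm

/-- the basis `m b_i` of the lattice `m O` -/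
noncomputable def bm {m : K} (hm : m ≠ 0) : Basis (Free.ChooseBasisIndex ℤ (𝓞 K)) ℚ K :=
  (integralBasis K).map ((Units.mk0 m hm).mulLeftLinearEquiv ℚ K)

theorem bm_apply {m : K} (hm : m ≠ 0) (i : Free.ChooseBasisIndex ℤ (𝓞 K)) :
    bm hm i = m * (RingOfIntegers.basis K i : 𝓞 K) := by
  rw [bm, Basis.map_apply, integralBasis_apply]; rfl

theorem cmb_bm {m : K} (hm : m ≠ 0) (t : 𝓞 K) :
    cmb (bm hm) ((RingOfIntegers.basis K).equivFun t) = m * t := by
  conv_rhs => rw [← (RingOfIntegers.basis K).sum_equivFun t]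
  simp only [cmb, bm_apply hm, zsmul_eq_mul, map_sum, map_mul, map_intCast, mul_sum]
  refine sum_congr rfl fun i _ => ?_
  ring

theorem mem_Lat_iff {m : K} (hm : m ≠ 0) {x : K} : x ∈ Lat m ↔ ∃ n, x = cmb (bm hm) n := by
  constructor
  · intro h
    obtain ⟨t, ht⟩ : ∃ t : 𝓞 K, (t : K) = x / m := ⟨⟨x / m, h⟩, rfl⟩
    refine ⟨(RingOfIntegers.basis K).equivFun t, ?_⟩
    rw [cmb_bm, ht]
    exact (mul_div_cancel₀ x hm).symm
  · rintro ⟨n, rfl⟩
    obtain ⟨t, rfl⟩ := (RingOfIntegers.basis K).equivFun.surjective n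
    show IsIntegral ℤ (_ / m)
    rw [cmb_bm, mul_div_cancel_left₀ _ hm]
    exact t.2

open Classical in
theorem dual_iff {m : K} (hm : m ≠ 0) {ν : K} :
    ν ∈ Dual m ↔ ∃ n, ν = cmb (bm hm).traceDual n := by
  constructor
  · intro h
    have h1 : ∀ i, ∃ n : ℤ, Algebra.trace ℚ K (ν * bm hm i) = n := by
      intro i
      have h2 : bm hm i ∈ Lat m := by
        show IsIntegral ℤ (_ / m)
        rw [bm_apply, mul_div_cancel_left₀ _ hm]
        exact (RingOfIntegers.basis K i).2
      obtain ⟨n, hn⟩ := ee_eq_one_iff.1 (h _ h2)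
      refine ⟨n, ?_⟩
      rw [trR] at hn
      exact_mod_cast hn
    choose n hn using h1
    refine ⟨n, (bm hm).traceDual.repr.injective (Finsupp.ext fun i => ?_)⟩
    rw [cmb_repr, Basis.traceDual_repr_apply, Algebra.traceForm_apply, hn]
  · rintro ⟨n, rfl⟩ t ht
    obtain ⟨k, rfl⟩ := (mem_Lat_iff hm).1 ht
    refine ee_eq_one_iff.2 ⟨∑ i, n i * k i, ?_⟩
    have e : ∀ (x : K) (m' : Free.ChooseBasisIndex ℤ (𝓞 K) → ℤ),
        Algebra.trace ℚ K (x * cmb (bm hm) m') =
          ∑ i, (bm hm).traceDual.repr x i * m' i := by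
      intro x m'
      simp only [cmb, mul_sum, map_sum, Basis.traceDual_repr_apply, Algebra.traceForm_apply]
      refine sum_congr rfl fun i _ => ?_
      have : x * ((m' i : K) * bm hm i) = (m' i : ℚ) • (x * bm hm i) := by
        rw [Algebra.smul_def]; simp; ring
      rw [this, map_smul, smul_eq_mul, mul_comm]
    rw [trR, e]
    simp only [cmb_repr]
    push_cast; rfl

theorem dual_sub {m ν ν' : K} (h : ν ∈ Dual m) (h' : ν' ∈ Dual m) : ν - ν' ∈ Dual m := by
  intro t ht
  obtain ⟨a, ha⟩ := ee_eq_one_iff.1 (h t ht)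
  obtain ⟨b, hb⟩ := ee_eq_one_iff.1 (h' t ht)
  exact ee_eq_one_iff.2 ⟨a - b, by rw [sub_mul, trR_sub, ha, hb]; push_cast; rfl⟩

theorem dual_zero (m : K) : (0 : K) ∈ Dual m := fun _ _ => by
  rw [zero_mul, eT, trR_zero, ee_zero]

namespace CM

variable [Fintype ι] (C : CM K ι)

section basis

variable {κ : Type} [Fintype κ] (b : Basis κ ℚ K)

open Classical in
/-- the fundamental cell of the lattice spanned by a basis -/
noncomputable def cell : Set (ι → ℂ) := ZSpan.fundamentalDomain (C.bas b)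

theorem measurableSet_cell : MeasurableSet (C.cell b) := by
  classical
  exact ZSpan.fundamentalDomain_measurableSet _

theorem cell_ne_zero : volume (C.cell b) ≠ 0 := by
  classical
  exact ZSpan.measure_fundamentalDomain_ne_zero _

theorem cell_bounded : Bornology.IsBounded (C.cell b) := by
  classical
  exact ZSpan.fundamentalDomain_isBounded _

theorem cell_ne_top : volume (C.cell b) ≠ ∞ := (C.cell_bounded b).measure_lt_top.ne

theorem cell_norm : ∃ R : ℝ, ∀ z ∈ C.cell b, ‖z‖ ≤ R := (C.cell_bounded b).exists_norm_le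

theorem cell_pos : 0 < (volume (C.cell b)).toReal :=
  ENNReal.toReal_pos (C.cell_ne_zero b) (C.cell_ne_top b)

open Classical in
/-- coordinates -/
noncomputable def crd : (κ → ℝ) ≃L[ℝ] (ι → ℂ) := (C.bas b).equivFunL.symm

open Classical in
theorem ch_crd (n : κ → ℤ) (x : κ → ℝ) :
    C.ch (cmb b.traceDual n) (C.crd b x) = ee (∑ i, n i * x i) := by
  have h : ∀ i, pr (C.em (b.traceDual i)) (C.crd b x) = x i := by
    intro i
    rw [← C.bas_repr b, ← Basis.equivFun_apply]
    exact congrFun ((C.bas b).equivFun.apply_symm_apply x) i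
  rw [ch, pr_comm]
  congr 1
  have h2 : C.em (cmb b.traceDual n) = ∑ i, (n i : ℝ) • C.em (b.traceDual i) := by
    rw [cmb, map_sum]
    refine sum_congr rfl fun i _ => ?_
    rw [map_mul, map_intCast, Algebra.smul_def]; simp
  have h3 := map_sum (prL (C.crd b x)) (fun i => (n i : ℝ) • C.em (b.traceDual i)) univ
  rw [h2]
  refine h3.trans (sum_congr rfl fun i _ => ?_)
  rw [map_smul, smul_eq_mul, ← h i, pr_comm]; rfl

theorem preimage_cell : C.crd b ⁻¹' C.cell b = Set.univ.pi fun _ => Set.Ico (0 : ℝ) 1 := by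
  classical
  ext x
  have h : ∀ i, (C.bas b).repr (C.crd b x) i = x i := fun i =>
    congrFun ((C.bas b).equivFun.apply_symm_apply x) i
  simp only [Set.mem_preimage, cell, ZSpan.mem_fundamentalDomain, Set.mem_pi, Set.mem_univ,
    forall_true_left, h]

theorem preimage_cell_ae : C.crd b ⁻¹' C.cell b =ᵐ[volume] cube κ := by
  rw [preimage_cell]
  have h1 : cube κ = Set.univ.pi fun _ => Set.Ioc (0 : ℝ) 1 := by
    ext x; simp [cube]
  rw [h1]
  exact (Measure.univ_pi_Ico_ae_eq_Icc (μ := fun _ : κ => (volume : Measure ℝ))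
    (f := fun _ => 0) (g := fun _ => 1)).trans
    (Measure.univ_pi_Ioc_ae_eq_Icc (μ := fun _ : κ => (volume : Measure ℝ))
    (f := fun _ => 0) (g := fun _ => 1)).symm

theorem volume_eq : (volume : Measure (ι → ℂ)) =
    volume (C.cell b) • (volume : Measure (κ → ℝ)).map (C.crd b) := by
  have h := Measure.isAddLeftInvariant_eq_smul (volume : Measure (ι → ℂ))
    ((volume : Measure (κ → ℝ)).map (C.crd b))
  have h2 : ((volume : Measure (κ → ℝ)).map (C.crd b)) (C.cell b) = 1 := by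
    rw [Measure.map_apply (C.crd b).continuous.measurable (C.measurableSet_cell b), preimage_cell,
      volume_pi_pi]
    simp
  have h3 := congrArg (fun m : Measure (ι → ℂ) => m (C.cell b)) h
  simp only [Measure.smul_apply, h2] at h3
  rw [h3, ENNReal.smul_def, smul_eq_mul, mul_one]
  exact h

theorem restrict_cell : (volume : Measure (ι → ℂ)).restrict (C.cell b) =
    volume (C.cell b) • ((volume : Measure (κ → ℝ)).restrict (cube κ)).map (C.crd b) := by
  conv_lhs => rw [C.volume_eq b]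
  rw [Measure.restrict_smul, Measure.restrict_map (C.crd b).continuous.measurable
    (C.measurableSet_cell b), Measure.restrict_congr_set (C.preimage_cell_ae b)]

theorem lintegral_cell {f : (ι → ℂ) → ℝ≥0∞} (hf : Measurable f) :
    ∫⁻ z in C.cell b, f z = volume (C.cell b) * ∫⁻ x in cube κ, f (C.crd b x) := by
  rw [restrict_cell, lintegral_smul_measure, lintegral_map hf (C.crd b).continuous.measurable,
    smul_eq_mul]

theorem integral_cell (f : (ι → ℂ) → ℂ) :
    ∫ z in C.cell b, f z = (volume (C.cell b)).toReal * ∫ x in cube κ, f (C.crd b x) := by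
  rw [restrict_cell, integral_smul_measure]
  have := integral_map_equiv (μ := (volume : Measure (κ → ℝ)).restrict (cube κ))
    (C.crd b).toHomeomorph.toMeasurableEquiv f
  rw [real_smul]
  congr 1

open Classical in
theorem parseval {F : (ι → ℂ) → ℂ} (hF : Measurable F) (h2 : ∫⁻ z in C.cell b, ‖F z‖ₑ ^ 2 ≠ ∞) :
    HasSum (fun n : κ → ℤ => ‖∫ z in C.cell b, F z * conj (C.ch (cmb b.traceDual n) z)‖ ^ 2)
      ((volume (C.cell b)).toReal * (∫⁻ z in C.cell b, ‖F z‖ₑ ^ 2).toReal) := by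
  rw [C.lintegral_cell b (hF.enorm.pow_const 2)] at h2 ⊢
  have h3 : ∫⁻ x in cube κ, ‖F (C.crd b x)‖ₑ ^ 2 ≠ ∞ := fun h => by
    rw [h, ENNReal.mul_top (C.cell_ne_zero b)] at h2; exact h2 rfl
  have h := (parseval_cube (G := fun x => F (C.crd b x))
    (hF.comp (C.crd b).continuous.measurable) h3).mul_left ((volume (C.cell b)).toReal ^ 2)
  rw [ENNReal.toReal_mul, ← mul_assoc, ← sq]
  refine h.congr_fun fun n => ?_
  rw [integral_cell, norm_mul, mul_pow, norm_real, Real.norm_of_nonneg ENNReal.toReal_nonneg]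
  simp only [ch_crd]

open Classical in
theorem orth_cell {n : κ → ℤ} (hn : n ≠ 0) :
    ∫ z in C.cell b, C.ch (cmb b.traceDual n) z = 0 := by
  rw [integral_cell]
  simp only [ch_crd]
  rw [orth_cube hn, mul_zero]

open Classical in
/-- the lattice as the span of the real basis -/
noncomputable def latEquiv : (κ → ℤ) ≃ Submodule.span ℤ (Set.range (C.bas b)) :=
  ((C.bas b).restrictScalars ℤ).equivFun.symm.toEquiv

open Classical in
theorem latEquiv_coe (n : κ → ℤ) : (C.latEquiv b n : ι → ℂ) = C.em (cmb b n) := by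
  simp only [latEquiv, LinearEquiv.coe_toEquiv, Basis.equivFun_symm_apply, cmb, map_sum,
    Submodule.coe_sum, Submodule.coe_smul_of_tower, Basis.restrictScalars_apply, bas_apply,
    map_mul, map_intCast, zsmul_eq_mul]

theorem existsUnique_cell (z : ι → ℂ) : ∃! n : κ → ℤ, z + C.em (cmb b n) ∈ C.cell b := by
  classical
  obtain ⟨v, hv, hu⟩ := ZSpan.exist_unique_vadd_mem_fundamentalDomain (C.bas b) z
  refine ⟨(C.latEquiv b).symm v, ?_, fun n hn => ?_⟩
  · simp only []
    rw [← latEquiv_coe, Equiv.apply_symm_apply, add_comm]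
    exact hv
  · rw [Equiv.eq_symm_apply]
    refine hu _ ?_
    simp only [] at hn
    rw [← latEquiv_coe, add_comm] at hn
    exact hn

theorem lintegral_fold (f : (ι → ℂ) → ℝ≥0∞) :
    ∫⁻ z, f z = ∑' n : κ → ℤ, ∫⁻ z in C.cell b, f (z + C.em (cmb b n)) := by
  classical
  have : Countable (Submodule.span ℤ (Set.range (C.bas b))).toAddSubgroup :=
    (C.latEquiv b).symm.injective.countable
  have h := (ZSpan.isAddFundamentalDomain' (C.bas b) volume).lintegral_eq_tsum'' f
  refine h.trans (((C.latEquiv b).tsum_eq _).symm.trans ?_)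
  refine tsum_congr fun n => lintegral_congr fun z => ?_
  rw [← latEquiv_coe, add_comm]; rfl

theorem integral_fold {f : (ι → ℂ) → ℂ} (hf : Integrable f) :
    ∫ z, f z = ∑' n : κ → ℤ, ∫ z in C.cell b, f (z + C.em (cmb b n)) := by
  classical
  have : Countable (Submodule.span ℤ (Set.range (C.bas b))).toAddSubgroup :=
    (C.latEquiv b).symm.injective.countable
  have h := (ZSpan.isAddFundamentalDomain' (C.bas b) volume).integral_eq_tsum'' f hf
  refine h.trans (((C.latEquiv b).tsum_eq _).symm.trans ?_)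
  refine tsum_congr fun n => integral_congr_ae (Eventually.of_forall fun z => ?_)
  simp only []
  rw [← latEquiv_coe, add_comm]; rfl

end basis

variable {m : K} (hm : m ≠ 0)

/-- the cell of `m O` -/
noncomputable def cel : Set (ι → ℂ) := C.cell (bm hm)

/-- its volume -/
noncomputable def vol : ℝ := (volume (C.cel hm)).toReal

theorem vol_pos : 0 < C.vol hm := C.cell_pos _

theorem measurableSet_cel : MeasurableSet (C.cel hm) := C.measurableSet_cell _

theorem cel_ne_top : volume (C.cel hm) ≠ ∞ := C.cell_ne_top _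

theorem cel_norm : ∃ R : ℝ, ∀ z ∈ C.cel hm, ‖z‖ ≤ R := C.cell_norm _

instance : IsFiniteMeasure ((volume : Measure (ι → ℂ)).restrict (C.cel hm)) :=
  isFiniteMeasure_restrict.2 (C.cel_ne_top hm)

theorem existsUnique_cel (z : ι → ℂ) : ∃! t : 𝓞 K, z + C.em (m * t) ∈ C.cel hm := by
  have h := C.existsUnique_cell (bm hm) z
  rw [← (RingOfIntegers.basis K).equivFun.toEquiv.existsUnique_congr_right] at h
  simpa only [LinearEquiv.coe_toEquiv, cmb_bm hm, cel] using h

theorem lintegral_fold' (f : (ι → ℂ) → ℝ≥0∞) :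
    ∫⁻ z, f z = ∑' t : 𝓞 K, ∫⁻ z in C.cel hm, f (z + C.em (m * t)) := by
  rw [C.lintegral_fold (bm hm), ← (RingOfIntegers.basis K).equivFun.toEquiv.tsum_eq]
  simp only [LinearEquiv.coe_toEquiv, cmb_bm hm, cel]

theorem integral_fold' {f : (ι → ℂ) → ℂ} (hf : Integrable f) :
    ∫ z, f z = ∑' t : 𝓞 K, ∫ z in C.cel hm, f (z + C.em (m * t)) := by
  rw [C.integral_fold (bm hm) hf, ← (RingOfIntegers.basis K).equivFun.toEquiv.tsum_eq]
  simp only [LinearEquiv.coe_toEquiv, cmb_bm hm, cel]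

theorem orth {ν : K} (hν : ν ∈ Dual m) (h0 : ν ≠ 0) : ∫ z in C.cel hm, C.ch ν z = 0 := by
  obtain ⟨n, rfl⟩ := (dual_iff hm).1 hν
  refine C.orth_cell _ fun h => h0 ?_
  simp [h, cmb]

theorem orth2 {ν ν' : K} (hν : ν ∈ Dual m) (hν' : ν' ∈ Dual m) (h0 : ν ≠ ν') :
    ∫ z in C.cel hm, C.ch ν z * conj (C.ch ν' z) = 0 := by
  rw [← C.orth hm (dual_sub hν hν') (sub_ne_zero.2 h0)]
  simp only [sub_eq_add_neg, ch_add_left, ch_neg_left]

theorem orth1 (ν : K) : ∫ z in C.cel hm, C.ch ν z * conj (C.ch ν z) = C.vol hm := by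
  simp only [mul_conj', norm_ch]
  simp [vol, Measure.real]

/-- Bessel's inequality -/
theorem bessel {F : (ι → ℂ) → ℂ} (hF : Measurable F) (s : Finset K) (hs : ∀ ν ∈ s, ν ∈ Dual m) :
    ∑ ν ∈ s, ‖∫ z in C.cel hm, F z * conj (C.ch ν z)‖ₑ ^ 2 ≤
      volume (C.cel hm) * ∫⁻ z in C.cel hm, ‖F z‖ₑ ^ 2 := by
  classical
  by_cases h2 : ∫⁻ z in C.cel hm, ‖F z‖ₑ ^ 2 = ∞
  · rw [h2, cel, ENNReal.mul_top (C.cell_ne_zero _)]; exact le_top
  have h := C.parseval (bm hm) hF h2
  choose! n hn using fun ν hν => (dual_iff hm).1 (hs ν hν)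
  have hinj : Set.InjOn n s := fun a ha b hb hab => by
    rw [hn a ha, hn b hb, hab]
  have h3 := sum_le_hasSum (s.image n) (fun _ _ => by positivity) h
  rw [sum_image hinj] at h3
  have h4 : ∑ ν ∈ s, ‖∫ z in C.cel hm, F z * conj (C.ch ν z)‖ ^ 2 ≤
      (volume (C.cel hm)).toReal * (∫⁻ z in C.cel hm, ‖F z‖ₑ ^ 2).toReal := by
    refine le_trans (le_of_eq (sum_congr rfl fun ν hν => ?_)) h3
    rw [← hn ν hν]; rfl
  rw [← ENNReal.toReal_mul] at h4
  have h5 := ENNReal.ofReal_le_ofReal h4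
  rw [ENNReal.ofReal_toReal (ENNReal.mul_ne_top (C.cel_ne_top hm) h2),
    ENNReal.ofReal_sum_of_nonneg (fun _ _ => by positivity)] at h5
  refine le_trans (le_of_eq (sum_congr rfl fun ν _ => ?_)) h5
  rw [ENNReal.ofReal_pow (norm_nonneg _), ofReal_norm]

/-- completeness -/
theorem complete {F : (ι → ℂ) → ℂ} (hF : Measurable F) (h2 : ∫⁻ z in C.cel hm, ‖F z‖ₑ ^ 2 ≠ ∞)
    (h0 : ∀ ν, ν ∈ Dual m → ∫ z in C.cel hm, F z * conj (C.ch ν z) = 0) :
    ∫⁻ z in C.cel hm, ‖F z‖ₑ ^ 2 = 0 := by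
  classical
  have h := C.parseval (bm hm) hF h2
  have h1 : (fun n : Free.ChooseBasisIndex ℤ (𝓞 K) → ℤ => ‖∫ z in C.cell (bm hm),
      F z * conj (C.ch (cmb (bm hm).traceDual n) z)‖ ^ 2) = fun _ => 0 := by
    funext n
    have := h0 _ ((dual_iff hm).2 ⟨n, rfl⟩)
    rw [cel] at this
    rw [this]; simp
  rw [h1] at h
  have h3 := hasSum_zero.unique h
  rcases mul_eq_zero.1 h3.symm with h4 | h4
  · exact absurd h4 (C.cell_pos _).ne'
  · exact ((ENNReal.toReal_eq_zero_iff _).1 h4).resolve_right h2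

end CM

variable [Dat K]

theorem isCell_cel {m : K} (hm : m ≠ 0) : IsCell m ((cmK K).cel hm) := by
  classical
  refine ⟨(cmK K).measurableSet_cel hm, (cmK K).cell_bounded _, ?_⟩
  have e : LatC m = (Submodule.span ℤ (Set.range ((cmK K).bas (bm hm)))).toAddSubgroup := by
    ext z
    constructor
    · rintro ⟨x, hx, rfl⟩
      obtain ⟨n, rfl⟩ := (mem_Lat_iff hm).1 hx
      have := ((cmK K).latEquiv (bm hm) n).2
      rw [CM.latEquiv_coe] at this
      exact this
    · intro hz
      obtain ⟨n, hn⟩ := ((cmK K).latEquiv (bm hm)).surjective ⟨z, hz⟩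
      refine ⟨cmb (bm hm) n, (mem_Lat_iff hm).2 ⟨n, rfl⟩, ?_⟩
      have := CM.latEquiv_coe (cmK K) (bm hm) n
      rw [hn] at this
      exact this.symm
  rw [e]
  exact ZSpan.isAddFundamentalDomain' _ _

end Vale.Agent.P016Z.TH
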