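import Vale.Agent.P016Z.TH.Eis

/-!
P016, block THETA: the Fourier coefficients of the truncated Eisenstein series.
-/

namespace Vale.Agent.P016Z.TH

open NumberField MeasureTheory Filter Topology Complex Finset
open Vale.Agent.P006
open scoped ENNReal ComplexConjugate Pointwise

set_option linter.unusedSectionVars false

variable {K : Type} [Field K] [NumberField K] [Dat K]

namespace FourE

open Eis

theorem em_inj : Function.Injective (cmK K).em := (cmK K).em.injective

/-- The lattice and its image. -/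
noncomputable def latEquiv (m : K) : Lat m ≃+ LatC m :=
  (Lat m).equivMapOfInjective (cmK K).em.toAddMonoidHom em_inj

theorem latEquiv_coe (m : K) (l : Lat m) : (latEquiv m l : io K → ℂ) = (cmK K).em l := rfl

instance (m : K) : Countable (LatC m) := (latEquiv m).symm.injective.countable

theorem ch_per {m ν : K} (hν : ν ∈ Dual m) (z : io K → ℂ) {l : K} (hl : l ∈ Lat m) :
    (cmK K).ch ν (z + (cmK K).em l) = (cmK K).ch ν z := by
  rw [CM.ch_add, ch_em_eq]
  exact (congrArg _ (hν l hl)).trans (mul_one _)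

/-- Unfolding. -/
theorem unfold_cell {m : K} {A : Set (io K → ℂ)} (hA : IsCell m A) {h : (io K → ℂ) → ℂ}
    (hm : Measurable h) (hi : Integrable h) :
    IntegrableOn (fun z => ∑' l : Lat m, h (z + (cmK K).em l)) A ∧
      ∫ z in A, ∑' l : Lat m, h (z + (cmK K).em l) = ∫ z, h z := by
  have m1 : ∀ l : Lat m, Measurable fun z : io K → ℂ => h (z + (cmK K).em l) :=
    fun l => hm.comp (measurable_add_const _)
  have h1 : ∑' l : Lat m, ∫⁻ z in A, ‖h (z + (cmK K).em l)‖ₑ = ∫⁻ z, ‖h z‖ₑ := by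
    rw [hA.2.2.lintegral_eq_tsum'' fun z => ‖h z‖ₑ, ← (latEquiv m).toEquiv.tsum_eq]
    refine tsum_congr fun l => lintegral_congr fun z => ?_
    rw [add_comm]
    rfl
  have h2 : ∫⁻ z, ‖h z‖ₑ < ⊤ := hi.2
  constructor
  · refine ⟨(Measurable.tsum m1).aestronglyMeasurable, lt_of_le_of_lt ?_ h2⟩
    rw [← h1, ← lintegral_tsum fun l => (m1 l).enorm.aemeasurable]
    exact lintegral_mono fun z => enorm_tsum_le_tsum_enorm
  · rw [integral_tsum (fun l => (m1 l).aestronglyMeasurable) (by rw [h1]; exact h2.ne),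
      hA.2.2.integral_eq_tsum'' h hi, ← (latEquiv m).toEquiv.tsum_eq]
    refine tsum_congr fun l => integral_congr_ae (Eventually.of_forall fun z => ?_)
    simp only
    rw [add_comm]
    rfl

theorem exists_ch {ν : K} (hν : ν ≠ 0) : ∃ z : io K → ℂ, (cmK K).ch ν z = -1 := by
  obtain ⟨j⟩ : Nonempty (io K) := inferInstance
  have h0 : (cmK K).sig j ν ≠ 0 := (map_ne_zero _).2 hν
  refine ⟨Pi.single j (1 / (4 * (cmK K).sig j ν)), ?_⟩
  have h1 : pr ((cmK K).em ν) (Pi.single j (1 / (4 * (cmK K).sig j ν))) = 1 / 2 := by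
    rw [pr, sum_eq_single j]
    · have : (cmK K).sig j ν * (1 / (4 * (cmK K).sig j ν)) = ((1 / 4 : ℝ) : ℂ) := by
        push_cast
        field_simp
      rw [Pi.single_eq_same, CM.em_apply, this, ofReal_re]
      norm_num
    · intro i _ hi
      simp [Pi.single_eq_of_ne hi]
    · simp
  rw [CM.ch, h1, ee, ← Complex.exp_pi_mul_I]
  congr 1
  push_cast
  ring

theorem orth {m ν : K} {A : Set (io K → ℂ)} (hA : IsCell m A) (hν : ν ∈ Dual m) (h0 : ν ≠ 0) :
    ∫ z in A, conj ((cmK K).ch ν z) = 0 := by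
  obtain ⟨z0, hz0⟩ := exists_ch h0
  have h1 := hA.2.2.setIntegral_eq (hA.2.2.vadd_of_comm z0)
    (f := fun z => conj ((cmK K).ch ν z)) (by
      rintro ⟨_, l, hl, rfl⟩ z
      have := ch_per hν z hl
      rw [add_comm] at this
      exact congrArg conj this)
  have h2 := (measurePreserving_vadd z0 (volume : Measure (io K → ℂ))).setIntegral_image_emb
    (measurableEmbedding_const_vadd z0) (fun z => conj ((cmK K).ch ν z)) A
  rw [Set.image_vadd, ← h1] at h2
  simp only [vadd_eq_add, CM.ch_add, hz0, map_mul, map_neg, map_one, integral_const_mul] at h2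
  linear_combination (1 / 2 : ℂ) * h2

/-- The indicator of `PP z v ≤ Y`. -/
noncomputable def ind (v : io K → ℝ) (Y : ℝ) (z : io K → ℂ) : ℂ := if PP z v ≤ Y then 1 else 0

theorem measurable_PP' (v : io K → ℝ) : Measurable fun z : io K → ℂ => PP z v :=
  measurable_PP.comp (measurable_id.prodMk measurable_const)

theorem measurable_ind (v : io K → ℝ) (Y : ℝ) : Measurable (ind v Y) :=
  Measurable.ite (measurableSet_le (measurable_PP' v) measurable_const) measurable_const
    measurable_const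

theorem integrable_ind {v : io K → ℝ} (hv : ∀ j, 0 < v j) (Y : ℝ) : Integrable (ind v Y) := by
  refine ((integrable_PP hv).const_mul (|Y| ^ (4 / 3 : ℝ))).mono'
    (measurable_ind v Y).aestronglyMeasurable (Eventually.of_forall fun z => ?_)
  have hp := PP_pos z hv
  unfold ind
  split_ifs with h
  · rw [norm_one, Real.rpow_neg hp.le, ← div_eq_mul_inv, one_le_div (by positivity)]
    exact Real.rpow_le_rpow hp.le (h.trans (le_abs_self _)) (by norm_num)
  · rw [norm_zero]
    positivity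

theorem measurable_cch (ν : K) : Measurable fun z => conj ((cmK K).ch ν z) :=
  (continuous_conj.comp ((cmK K).continuous_ch ν)).measurable

theorem integrable_mul_ch {f : (io K → ℂ) → ℂ} {μ : Measure (io K → ℂ)} (hf : Integrable f μ)
    (ν : K) : Integrable (fun z => f z * conj ((cmK K).ch ν z)) μ :=
  hf.mul_bdd (c := 1) (measurable_cch ν).aestronglyMeasurable
    (Eventually.of_forall fun z => by rw [Complex.norm_conj, CM.norm_ch])

/-- One class of rows. -/
theorem one_class {m ν : K} {A : Set (io K → ℂ)} (hA : IsCell m A) (hν : ν ∈ Dual m)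
    {v : io K → ℝ} (hv : ∀ j, 0 < v j) (Y : ℝ) (t : K) :
    IntegrableOn (fun z => (∑' l : Lat m, ind v Y (z + (cmK K).em (t + l))) *
      conj ((cmK K).ch ν z)) A ∧
    ∫ z in A, (∑' l : Lat m, ind v Y (z + (cmK K).em (t + l))) * conj ((cmK K).ch ν z) =
      eT (ν * t) * ∫ z, ind v Y z * conj ((cmK K).ch ν z) := by
  have h1 := unfold_cell hA (h := fun z => ind v Y (z + (cmK K).em t) * conj ((cmK K).ch ν z))
    (((measurable_ind v Y).comp (measurable_add_const _)).mul (measurable_cch ν))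
    (integrable_mul_ch ((integrable_ind hv Y).comp_add_right _) ν)
  have h2 : ∀ z, ∑' l : Lat m, ind v Y (z + (cmK K).em l + (cmK K).em t) *
      conj ((cmK K).ch ν (z + (cmK K).em l)) =
      (∑' l : Lat m, ind v Y (z + (cmK K).em (t + l))) * conj ((cmK K).ch ν z) := by
    intro z
    rw [← tsum_mul_right]
    refine tsum_congr fun l => ?_
    rw [ch_per hν z l.2, map_add, add_assoc, add_comm ((cmK K).em l)]
  simp only [h2] at h1
  refine ⟨h1.1, h1.2.trans ?_⟩
  rw [← integral_const_mul, ← integral_add_right_eq_self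
    (fun z => eT (ν * t) * (ind v Y z * conj ((cmK K).ch ν z))) ((cmK K).em t)]
  refine integral_congr_ae (Eventually.of_forall fun z => ?_)
  have h3 : eT (ν * t) * conj (eT (ν * t)) = 1 := by
    rw [mul_conj, normSq_eq_norm_sq, eT, norm_ee]
    simp
  simp only [CM.ch_add, ch_em_eq, map_mul]
  change _ = eT (ν * t) * (_ * (_ * conj (eT (ν * t))))
  linear_combination (-(ind v Y (z + (cmK K).em t) * conj ((cmK K).ch ν z))) * h3

/-- Rows with given `c`: class modulo the lattice and lattice point. -/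
noncomputable def clsEquiv (L : AddSubgroup K) {c : K} (hc : c ≠ 0) : (K ⧸ L) × L ≃ K :=
  Equiv.ofBijective (fun p => c * (p.1.out + p.2)) (by
    constructor
    · rintro ⟨q, l⟩ ⟨q', l'⟩ h
      have h1 : q.out + l = q'.out + l' := mul_left_cancel₀ hc h
      have h2 : q = q' := by
        rw [← QuotientAddGroup.out_eq' q, ← QuotientAddGroup.out_eq' q',
          ← QuotientAddGroup.mk_add_of_mem q.out l.2, h1, QuotientAddGroup.mk_add_of_mem _ l'.2]
      subst h2
      exact Prod.ext rfl (Subtype.ext (add_left_cancel h1))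
    · intro d
      refine ⟨(QuotientAddGroup.mk (d / c), ⟨-(QuotientAddGroup.mk (d / c) : K ⧸ L).out + d / c,
        QuotientAddGroup.eq.1 (QuotientAddGroup.out_eq' _)⟩), ?_⟩
      simp only [add_neg_cancel_left]
      exact mul_div_cancel₀ _ hc)

theorem clsEquiv_apply (L : AddSubgroup K) {c : K} (hc : c ≠ 0) (p : (K ⧸ L) × L) :
    clsEquiv L hc p = c * (p.1.out + p.2) := rfl

/-- The classes which occur. -/
theorem classes (h1 : CNT1 K) {m : K} (hm : m ≠ 0) {a : K → K → ℂ} (ha : Bnd a)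
    (hper : Per (Lat m) a) : ∃ C : ℝ, 0 ≤ C ∧ ∀ c : K, c ≠ 0 → ∃ T : Finset (K ⧸ Lat m),
      (T.card : ℝ) ≤ C * (1 + nm c) ∧ ∀ q ∉ T, a c (c * q.out) = 0 := by
  classical
  obtain ⟨i, hi⟩ := ha.supp
  obtain ⟨C, hC⟩ := h1 _ (lv_ne i)
  obtain ⟨r, hr⟩ := exists_near hm
  refine ⟨|C| * max 1 ((r ^ 2) ^ Fintype.card (io K)), by positivity, fun c hc => ?_⟩
  obtain ⟨s, h2, h3⟩ := hC 0 (fun j => r ^ 2 * ab c j) fun j => mul_nonneg (sq_nonneg _)
    (ab_nonneg c j)
  refine ⟨s.image fun d => QuotientAddGroup.mk (d / c), ?_, fun q hq => ?_⟩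
  · refine le_trans (by exact_mod_cast card_image_le) (h2.trans ?_)
    rw [prod_mul_distrib, prod_const, card_univ, prod_ab, mul_assoc]
    have k1 := (cmK K).nm_nonneg c
    have k2 := mul_le_mul_of_nonneg_right (le_max_right 1 ((r ^ 2) ^ Fintype.card (io K))) k1
    have k3 := le_max_left 1 ((r ^ 2) ^ Fintype.card (io K))
    refine mul_le_mul (le_abs_self C) ?_ (by positivity) (abs_nonneg _)
    rw [mul_add, mul_one]
    exact add_le_add k3 k2
  · by_contra h0
    obtain ⟨l, hl, h4⟩ := hr ((cmK K).em q.out)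
    have h5 : a c (c * (q.out - l)) ≠ 0 := by
      rw [← hper c _ l hl, ← mul_add, sub_add_cancel]
      exact h0
    refine hq (mem_image.2 ⟨c * (q.out - l), h3 _ (row_int (hi _ _ h5)).2.1 fun j => ?_, ?_⟩)
    · rw [Pi.zero_apply, sub_zero, map_mul, map_mul, mul_comm]
      refine mul_le_mul_of_nonneg_right ?_ (normSq_nonneg _)
      rw [normSq_eq_norm_sq]
      refine pow_le_pow_left₀ (norm_nonneg _) (le_trans ?_ h4) 2
      rw [← map_sub]
      exact norm_le_pi_norm ((cmK K).em (q.out - l)) j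
    · rw [mul_div_cancel_left₀ _ hc, sub_eq_add_neg,
        QuotientAddGroup.mk_add_of_mem _ (neg_mem hl), QuotientAddGroup.out_eq']

theorem gs_eq {L : AddSubgroup K} {a : K → K → ℂ} {c : K} {T : Finset (K ⧸ L)}
    (hT : ∀ q ∉ T, a c (c * q.out) = 0) (ν : K) :
    gs L a ν c = ∑ q ∈ T, a c (c * q.out) * eT (ν * q.out) := by
  refine finsum_eq_sum_of_support_subset _ fun q hq => ?_
  by_contra h
  exact hq (by simp only [hT q h, zero_mul])

theorem gs_zero {L : AddSubgroup K} {a : K → K → ℂ} {c : K} (h : ∀ d, a c d = 0) (ν : K) :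
    gs L a ν c = 0 := by
  rw [gs_eq (T := ∅) (fun q _ => h _), sum_empty]

/-- The values of `c` which occur. -/
theorem cvals (hP : PART K) (h1 : CNT1 K) (k : ℕ) {a : K → K → ℂ} (ha : Bnd a) :
    ∃ C δ : ℝ, 0 ≤ C ∧ 0 < δ ∧ (∀ c d, c ≠ 0 → a c d ≠ 0 → δ ≤ nm c) ∧ ∀ x : ℝ, ∃ S : Finset K,
      (0 < x → (S.card : ℝ) ≤ C * (1 + x)) ∧ (∀ c ∈ S, c ≠ 0) ∧
      ∀ c d, c ≠ 0 → nm c ≤ x → bet K k (ab c) ≠ 0 → a c d ≠ 0 → c ∈ S := by
  classical
  obtain ⟨i, hi⟩ := ha.supp
  obtain ⟨C, hC⟩ := h1 _ (lv_ne i)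
  obtain ⟨C', hC', h⟩ := bet_bal hP k
  have hD := (cmK K).nm_pos (lv_ne (K := K) i)
  refine ⟨|C| * max 1 (C' ^ Fintype.card (io K)), (nm (lv K i))⁻¹, by positivity, inv_pos.2 hD,
    fun c d hc h0 => ?_, fun x => ?_⟩
  · have h2 := one_le_nm' (row_int (hi _ _ h0)).1 (mul_ne_zero (lv_ne i) hc)
    rw [nm, CM.nm_mul] at h2
    rwa [inv_le_iff_one_le_mul₀' hD]
  · by_cases hx : 0 < x
    · obtain ⟨y, hy, hy'⟩ := exists_root (K := K) hx
      obtain ⟨s, h2, h3⟩ := hC 0 (fun _ => C' * y) fun _ => by positivity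
      refine ⟨s.erase 0, fun _ => ?_, fun c hc => ne_of_mem_erase hc, fun c d hc h4 h5 h6 => ?_⟩
      · refine le_trans (by exact_mod_cast card_erase_le) (h2.trans ?_)
        rw [prod_const, card_univ, mul_pow, hy', mul_assoc]
        have k2 := mul_le_mul_of_nonneg_right (le_max_right 1 (C' ^ Fintype.card (io K))) hx.le
        have k3 := le_max_left 1 (C' ^ Fintype.card (io K))
        refine mul_le_mul (le_abs_self C) ?_ (by positivity) (abs_nonneg _)
        rw [mul_add, mul_one]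
        exact add_le_add k3 k2
      · refine mem_erase.2 ⟨hc, h3 c (row_int (hi _ _ h6)).1 fun j => ?_⟩
        rw [Pi.zero_apply, sub_zero]
        exact h (ab c) y hy (ab_pos hc) h5 (by rw [hy']; exact h4) j
    · exact ⟨∅, fun h => absurd h hx, by simp, fun c d hc h4 _ _ =>
        absurd (((cmK K).nm_pos hc).trans_le h4) hx⟩

open Classical in
theorem Sg_eq {k : ℕ} {L : AddSubgroup K} {a : K → K → ℂ} {x₀ : ℝ} {S : Finset K}
    (h0 : ∀ c ∈ S, c ≠ 0)
    (hS : ∀ c d, c ≠ 0 → nm c ≤ x₀ → bet K k (ab c) ≠ 0 → a c d ≠ 0 → c ∈ S) (ν : K) {x : ℝ}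
    (hx : x ≤ x₀) : Sg k L a ν x =
      ∑ c ∈ S, (bet K k (ab c) : ℂ) * gs L a ν c * (if nm c ≤ x then 1 else 0) := by
  rw [Sg, us, tsum_eq_sum (s := S)]
  · refine sum_congr rfl fun c hc => ?_
    by_cases h : nm c ≤ x
    · rw [if_pos ⟨h0 c hc, h⟩, if_pos h, mul_one]
    · rw [if_neg fun h' => h h'.2, if_neg h, mul_zero, mul_zero]
  · intro c hc
    split_ifs with h
    · by_cases hb : bet K k (ab c) = 0
      · rw [hb, ofReal_zero, zero_mul]
      · rw [gs_zero (fun d => ?_), mul_zero]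
        by_contra h1
        exact hc (hS c d h.1 (h.2.trans hx) hb h1)
    · rw [mul_zero]

theorem measurable_Sg (k : ℕ) (L : AddSubgroup K) (a : K → K → ℂ) (ν : K) :
    Measurable (Sg k L a ν) := by
  refine Measurable.tsum fun c => measurable_const.mul (Measurable.ite ?_ measurable_const
    measurable_const)
  exact (MeasurableSet.const _).inter measurableSet_Ici

theorem Sg_small {k : ℕ} {L : AddSubgroup K} {a : K → K → ℂ} {δ : ℝ}
    (hδ : ∀ c d, c ≠ 0 → a c d ≠ 0 → δ ≤ nm c) (ν : K) {x : ℝ} (hx : x < δ) :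
    Sg k L a ν x = 0 := by
  rw [Sg_eq (S := ∅) (x₀ := x) (by simp)
    (fun c d hc h1 _ h2 => absurd ((hδ c d hc h2).trans h1) (not_le.2 hx)) ν le_rfl, sum_empty]

theorem tame_Sg (hP : PART K) (h1 : CNT1 K) {m : K} (hm : m ≠ 0) (k : ℕ) {a : K → K → ℂ}
    (ha : Bnd a) (hper : Per (Lat m) a) (ν : K) : Tame (Sg k (Lat m) a ν) := by
  obtain ⟨C, δ, hC, hδ, h2, h3⟩ := cvals hP h1 k ha
  obtain ⟨C', hC', h4⟩ := classes h1 hm ha hper
  obtain ⟨B, hB⟩ := ha.bdd
  have hB0 : 0 ≤ B := (norm_nonneg _).trans (hB 0 0)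
  refine ⟨measurable_Sg k _ a ν, C * C' * B * (δ⁻¹ + 1) ^ 2, fun x hx => ?_⟩
  by_cases hxδ : x < δ
  · rw [Sg_small h2 ν hxδ, norm_zero]
    positivity
  obtain ⟨S, h5, h6, h7⟩ := h3 x
  have h8 : 1 + x ≤ (δ⁻¹ + 1) * x := by
    have := (one_le_inv_mul₀ hδ).2 (not_lt.1 hxδ)
    linarith
  have h9 : ∀ c ∈ S, ‖(bet K k (ab c) : ℂ) * gs (Lat m) a ν c * (if nm c ≤ x then 1 else 0)‖ ≤
      C' * (1 + x) * B := by
    intro c hc
    split_ifs with h
    · obtain ⟨T, k1, k2⟩ := h4 c (h6 c hc)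
      rw [mul_one, norm_mul, gs_eq k2]
      refine (mul_le_of_le_one_left (norm_nonneg _) (norm_bet_le hP k _)).trans
        ((norm_sum_le _ _).trans ((sum_le_sum (g := fun _ => B) fun q _ => ?_).trans ?_))
      · rw [norm_mul, eT, norm_ee, mul_one]
        exact hB _ _
      · rw [sum_const, nsmul_eq_mul]
        exact mul_le_mul_of_nonneg_right (k1.trans (by gcongr)) hB0
    · rw [mul_zero, norm_zero]
      positivity
  rw [Sg_eq h6 h7 ν le_rfl]
  refine (norm_sum_le _ _).trans ((sum_le_sum h9).trans ?_)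
  rw [sum_const, nsmul_eq_mul]
  calc (S.card : ℝ) * (C' * (1 + x) * B) ≤ C * (1 + x) * (C' * (1 + x) * B) := by
        gcongr
        exact h5 hx
    _ ≤ C * ((δ⁻¹ + 1) * x) * (C' * ((δ⁻¹ + 1) * x) * B) := by gcongr
    _ = _ := by ring

open Classical in
/-- Splitting off the rows with `c = 0` and changing the partition. -/
theorem Es_split (hP : PART K) (hR : RESEL K) (h2 : CNT2 K) {k : ℕ} {a : K → K → ℂ}
    (ha : Adm k a) (X : ℝ) (w : HK K) :
    (Summable fun x : K × K => (bet K k (ab x.1) : ℂ) *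
      (if x.1 = 0 then 0 else a x.1 x.2 * if (cmK K).QQ w x.1 x.2 ≤ X then 1 else 0)) ∧
    Es k a X w = E0 k a X (HS.v w) + ∑' x : K × K, (bet K k (ab x.1) : ℂ) *
      (if x.1 = 0 then 0 else a x.1 x.2 * if (cmK K).QQ w x.1 x.2 ≤ X then 1 else 0) := by
  obtain ⟨s, hs⟩ := tm_finite hP h2 k ha.toBnd X w
  have e : ∀ x : K × K, (bet K k ((cmK K).Qv w x.1 x.2) : ℂ) *
      (if x.1 = 0 then 0 else a x.1 x.2 * if (cmK K).QQ w x.1 x.2 ≤ X then 1 else 0) =
      if x.1 = 0 then 0 else tm k a X w x := fun x => by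
    unfold tm
    by_cases h : x.1 = 0
    · rw [if_pos h, if_pos h, mul_zero]
    · rw [if_neg h, if_neg h]
      ring
  have h := hR (Uk K k) _ _ _ (idx_ne hP k) (hP.2.1 k k le_rfl) (hP.2.1 k k le_rfl) (K × K)
    (fun x => (cmK K).Qv w x.1 x.2) (fun x => ab x.1)
    (fun x => if x.1 = 0 then 0 else a x.1 x.2 * if (cmK K).QQ w x.1 x.2 ≤ X then 1 else 0)
    (fun u hu x => by
      have h3 : (u • x).1 = 0 ↔ x.1 = 0 := mul_eq_zero_iff_left u.ne_zero
      have h4 : a (u • x).1 (u • x).2 = a x.1 x.2 := ha.unit u hu x.1 x.2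
      simp only [QQ_unit w (Uk_le_Ou k hu), h3, h4])
    (fun u _ x => ⟨Qv_unit w u x, ab_mul (u : K) x.1⟩)
    (fun x hx => by
      have h3 : x.1 ≠ 0 := fun h3 => hx (if_pos h3)
      exact ⟨(cmK K).Qv_pos w (Or.inl h3), ab_pos h3⟩)
    (summable_of_ne_finset_zero (s := s) fun x hx => by
      have h3 := e x
      rw [hs x hx, ite_self, mul_eq_zero, ofReal_eq_zero] at h3
      rcases h3 with h3 | h3
      · rw [h3, zero_mul]
      · rw [h3, norm_zero, mul_zero])
  constructor
  · refine Summable.of_norm ?_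
    simp only [norm_mul (ofReal _), Complex.norm_real, Real.norm_of_nonneg ((hP.2.2 k).nonneg _)]
    exact h.1
  · rw [h.2]
    simp only [e]
    have s1 : Summable fun x : K × K => if x.1 = 0 then tm k a X w x else 0 :=
      summable_of_ne_finset_zero (s := s) fun x hx => by rw [hs x hx, ite_self]
    have s2 : Summable fun x : K × K => if x.1 = 0 then 0 else tm k a X w x :=
      summable_of_ne_finset_zero (s := s) fun x hx => by rw [hs x hx, ite_self]
    have h5 : E0 k a X (HS.v w) = ∑' x : K × K, if x.1 = 0 then tm k a X w x else 0 := by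
      rw [← (Prod.mk_right_injective (0 : K)).tsum_eq]
      · refine tsum_congr fun d => ?_
        rw [if_pos rfl, tm, CM.QQ_zero_left]
        congr 4
        funext j
        exact ((cmK K).Qv_zero_left w d j).symm
      · intro x hx
        have h6 : x.1 = 0 := by
          by_contra h6
          exact hx (if_neg h6)
        exact ⟨x.2, Prod.ext h6.symm rfl⟩
    rw [h5, ← s1.tsum_add s2, Es_eq]
    refine tsum_congr fun x => ?_
    split_ifs <;> simp

theorem Es_form (hP : PART K) (hR : RESEL K) (h2 : CNT2 K) {k : ℕ} {a : K → K → ℂ} {m : K}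
    (ha : Adm k a) (hper : Per (Lat m) a) (X : ℝ) {v : io K → ℝ} (hv : ∀ j, 0 < v j)
    {S : Finset K} (h0 : ∀ c ∈ S, c ≠ 0)
    (hS : ∀ c d, c ≠ 0 → nm c ≤ |X| / ∏ j, v j → bet K k (ab c) ≠ 0 → a c d ≠ 0 → c ∈ S)
    {T : K → Finset (K ⧸ Lat m)} (hT : ∀ c ∈ S, ∀ q ∉ T c, a c (c * q.out) = 0) (z : io K → ℂ) :
    Es k a X ((cmK K).pt z v) = E0 k a X v + ∑ c ∈ S, ∑ q ∈ T c,
      (bet K k (ab c) : ℂ) * a c (c * q.out) *
        ∑' l : Lat m, ind v (X / nm c) (z + (cmK K).em (q.out + l)) := by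
  obtain ⟨h3, h4⟩ := Es_split hP hR h2 ha X ((cmK K).pt z v)
  have hV : 0 < ∏ j, v j := prod_pos fun j _ => hv j
  rw [h4, (cmK K).pt_v z hv, h3.tsum_prod, tsum_eq_sum (s := S)]
  · congr 1
    refine sum_congr rfl fun c hc => ?_
    have hc0 := h0 c hc
    have h5 := (clsEquiv (Lat m) hc0).summable_iff.2 (h3.prod_factor c)
    rw [← (clsEquiv (Lat m) hc0).tsum_eq]
    refine (Summable.tsum_prod h5).trans ?_
    have h6 : ∀ (q : K ⧸ Lat m) (l : Lat m), (bet K k (ab c) : ℂ) *
        (a c (clsEquiv (Lat m) hc0 (q, l)) *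
          if (cmK K).QQ ((cmK K).pt z v) c (clsEquiv (Lat m) hc0 (q, l)) ≤ X then 1 else 0) =
        (bet K k (ab c) : ℂ) * a c (c * q.out) *
          ind v (X / nm c) (z + (cmK K).em (q.out + l)) := by
      intro q l
      rw [clsEquiv_apply, (cmK K).QQ_eq _ hc0, mul_div_cancel_left₀ _ hc0, CM.pt_z,
        (cmK K).pt_v z hv, mul_add, hper c _ l l.2, ind, mul_assoc]
      simp only [le_div_iff₀' ((cmK K).nm_pos hc0)]
    simp only [Function.comp_apply, if_neg hc0, h6, tsum_mul_left]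
    exact tsum_eq_sum fun q hq => by rw [hT c hc q hq, mul_zero, zero_mul]
  · intro c hc
    refine (tsum_congr fun d => ?_).trans tsum_zero
    by_contra h5
    have hc0 : c ≠ 0 := fun h => right_ne_zero_of_mul h5 (if_pos h)
    simp only [if_neg hc0] at h5
    have h6 : (cmK K).QQ ((cmK K).pt z v) c d ≤ X := by
      by_contra h6
      exact right_ne_zero_of_mul (right_ne_zero_of_mul h5) (if_neg h6)
    refine hc (hS c d hc0 ?_ (fun h => left_ne_zero_of_mul h5 (by rw [h, ofReal_zero]))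
      (left_ne_zero_of_mul (right_ne_zero_of_mul h5)))
    rw [(cmK K).QQ_eq _ hc0, (cmK K).pt_v z hv] at h6
    rw [le_div_iff₀ hV]
    exact (mul_le_mul_of_nonneg_left (le_PP _ hv) ((cmK K).nm_nonneg c)).trans
      (h6.trans (le_abs_self X))

end FourE

open Eis FourE

theorem four (hP : PART K) (hR : RESEL K) (h1 : CNT1 K) (h2 : CNT2 K) : FOUR K := by
  intro m hm A hA k a ha hper ν hν
  obtain ⟨C, δ, -, hδ, h3, h4⟩ := cvals hP h1 k ha.toBnd
  obtain ⟨C', -, h5⟩ := classes h1 hm ha.toBnd hper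
  refine ⟨tame_Sg hP h1 hm k ha.toBnd hper ν, ⟨δ, hδ, fun x hx => Sg_small h3 ν hx⟩,
    fun X v hv => ?_⟩
  have hV : 0 < ∏ j, v j := prod_pos fun j _ => hv j
  obtain ⟨S, -, h0, hS⟩ := h4 (|X| / ∏ j, v j)
  have h6 : ∀ c : K, ∃ T : Finset (K ⧸ Lat m), c ∈ S → ∀ q ∉ T, a c (c * q.out) = 0 := by
    intro c
    by_cases hc : c ∈ S
    · obtain ⟨T, -, hT⟩ := h5 c (h0 c hc)
      exact ⟨T, fun _ => hT⟩
    · exact ⟨∅, fun h => absurd h hc⟩
  choose T hT using h6
  have h7 : ∀ z, Sg k (Lat m) a ν (X / PP z v) =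
      ∑ c ∈ S, (bet K k (ab c) : ℂ) * gs (Lat m) a ν c * ind v (X / nm c) z := by
    intro z
    have hp := PP_pos z hv
    rw [Sg_eq h0 hS ν ((div_le_div_of_nonneg_right (le_abs_self X) hp.le).trans
      (div_le_div_of_nonneg_left (abs_nonneg X) hV (le_PP z hv)))]
    refine sum_congr rfl fun c hc => ?_
    simp only [ind, le_div_iff₀' ((cmK K).nm_pos (h0 c hc)), le_div_iff₀ hp]
  simp only [h7]
  refine ⟨integrable_finsetSum _ fun c _ => (integrable_ind hv _).const_mul _, ?_⟩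
  have hfin : volume A < ⊤ := hA.2.1.measure_lt_top
  have i0 : IntegrableOn (fun z => E0 k a X v * conj ((cmK K).ch ν z)) A :=
    integrable_mul_ch (integrableOn_const hfin.ne) ν
  have i1 : ∀ (c : K) (q : K ⧸ Lat m), IntegrableOn (fun z =>
      (bet K k (ab c) : ℂ) * a c (c * q.out) * ((∑' l : Lat m,
        ind v (X / nm c) (z + (cmK K).em (q.out + l))) * conj ((cmK K).ch ν z))) A :=
    fun c q => (one_class hA hν hv _ q.out).1.const_mul _
  simp only [Es_form hP hR h2 ha hper X hv h0 hS hT, add_mul, sum_mul, mul_assoc _ (tsum _),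
    mul_assoc _ (ind _ _ _)]
  rw [integral_add i0 (integrable_finsetSum _ fun c _ => integrable_finsetSum _ fun q _ => i1 c q),
    integral_finsetSum _ fun c _ => integrable_finsetSum _ fun q _ => i1 c q,
    integral_finsetSum _ fun c _ => (integrable_mul_ch (integrable_ind hv _) ν).const_mul _]
  congr 1
  · rw [integral_const_mul]
    split_ifs with h
    · simp only [h, CM.ch_zero_left, map_one, integral_const, MeasurableSet.univ,
        measureReal_restrict_apply, Set.univ_inter, real_smul, mul_one]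
      rw [mul_comm]
      rfl
    · rw [orth hA hν h, mul_zero]
  · refine sum_congr rfl fun c hc => ?_
    rw [integral_finsetSum _ fun q _ => i1 c q, integral_const_mul, gs_eq (hT c hc), mul_sum,
      sum_mul]
    refine sum_congr rfl fun q _ => ?_
    rw [integral_const_mul, (one_class hA hν hv _ q.out).2]
    ring

end Vale.Agent.P016Z.TH
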