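import Vale.Agent.P016Z.TH.Qs

/-!
P016, block THETA: factorisation of the Gauss sums of the explicit family.
-/

namespace Vale.Agent.P016Z.TH

open NumberField Filter Complex
open scoped ComplexConjugate

set_option linter.unusedSectionVars false

variable {K : Type} [Field K] [NumberField K] [Dat K]

namespace G2x

/-- the part of the additive character at the primes dividing `Q` -/
noncomputable def psS (y : K) : ℂ := eT y * conj (psi y)

theorem psi_mul_conj (y : K) : psi y * conj (psi y) = 1 := by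
  rw [mul_conj', norm_psi]; simp

theorem psS_add (x y : K) : psS (x + y) = psS x * psS y := by
  rw [psS, psS, psS, eT_add, psi_add, map_mul]; ring

theorem psS_of_mem {x : K} (hx : x ∈ Si K) : psS x = 1 := by
  rw [psS, ← psi_mul_conj x, psi_of_mem_Si hx]; rfl

theorem eT_eq (x : K) : eT x = psi x * psS x := by
  rw [psS, mul_left_comm, psi_mul_conj, mul_one]

variable (S : Sy K)

/-- the summand at the primes dividing `Q` -/
noncomputable def fS (φ : K → K → ℂ) (ν c : K) : K → ℂ :=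
  fun t => φ c (c * t) * S.h c (c * t) * psS (ν * t)

/-- deep levels -/
def Deep (j : ℕ) (ν m : K) : Prop := m / (lv K j ^ 2 * lv K 1) ∈ Si K ∧ ν * m ∈ Si K

theorem ev_mem (x : K) : ∀ᶠ k in atTop, lv K k * x ∈ Si K := by
  obtain ⟨k, hk⟩ := exists_pow_mul_mem_Si x
  filter_upwards [eventually_ge_atTop k] with l hl
  exact pow_mul_mem_Si_mono hk (by omega)

theorem ev_deep (j : ℕ) (ν y : K) : ∀ᶠ k in atTop, Deep j ν (lv K k * y) := by
  filter_upwards [ev_mem (y / (lv K j ^ 2 * lv K 1)), ev_mem (ν * y)] with k h1 h2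
  exact ⟨by rwa [mul_div_assoc], by rwa [mul_left_comm]⟩

theorem fam_zero {j : ℕ} {φ : K → K → ℂ} (hφ : Fam j φ) (c : K) : φ c 0 = 0 := by
  by_contra h
  exact (hφ.supp c 0 h).2.2.1 rfl

theorem perL_fS {j : ℕ} {φ : K → K → ℂ} (hφ : Fam j φ) {ν m c : K} (hm0 : m ≠ 0)
    (hm : Deep j ν m) (hc : c ≠ 0) : PerL (Scl (Si K) m) (fS S φ ν c) := by
  intro x t ht
  have hj := lv_ne (K := K) j
  have h1 := lv_ne (K := K) 1
  by_cases hjc : lv K j * c ∈ Si K
  · have h2 : c * t / (lv K j * lv K 1) ∈ Si K := by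
      have : c * t / (lv K j * lv K 1) =
          lv K j * c * (t / m) * (m / (lv K j ^ 2 * lv K 1)) := by field_simp
      rw [this]
      exact mul_mem (mul_mem hjc ht) hm.1
    have h3 : c * t / lv K j ∈ Si K := by
      have : c * t / lv K j = c * t / (lv K j * lv K 1) * lv K 1 := by field_simp
      rw [this]
      exact mul_mem h2 (lv_mem_Si 1)
    have h4 : φ c (c * (x + t)) = φ c (c * x) := by
      have := hφ.per c (c * x) 0 (c * t) (by rw [zero_div]; exact zero_mem _) h3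
      rwa [add_zero, ← mul_add] at this
    have h5 : psS (ν * (x + t)) = psS (ν * x) := by
      rw [mul_add, psS_add, psS_of_mem (x := ν * t), mul_one]
      have : ν * t = ν * m * (t / m) := by field_simp
      rw [this]
      exact mul_mem hm.2 ht
    rw [fS, fS, h4, h5]
    by_cases h6 : φ c (c * x) = 0
    · simp only [h6, zero_mul]
    · obtain ⟨-, -, h7, h8⟩ := hφ.supp _ _ h6
      obtain ⟨-, -, h9, -⟩ := hφ.supp _ _ (h4 ▸ h6)
      have h10 := S.h_mul_right c (c * x) (c * (x + t) / (c * x)) hc h7 (div_ne_zero h9 h7)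
      rw [mul_div_cancel₀ _ h7, S.h_one c (c * (x + t) / (c * x)) hc, mul_one] at h10
      · rw [h10]
      · have : (c * (x + t) / (c * x) - 1) / lv K 1 =
            c * t / (lv K j * lv K 1) * (lv K j / (c * x)) := by
          have hx : x ≠ 0 := right_ne_zero_of_mul h7
          field_simp
          ring
        rw [this]
        exact mul_mem h2 h8
  · have h2 : ∀ d, φ c d = 0 := fun d => by
      by_contra h
      exact hjc (hφ.supp c d h).1
    simp only [fS, h2, zero_mul]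

theorem ap_eq {φ : K → K → ℂ} {c : K} (hc : c ≠ 0) (h0 : φ c 0 = 0) (d : K) :
    S.ap φ c d = S.s d c * (φ c d * S.h c d) := by
  rw [Sy.ap]
  by_cases hd : d = 0
  · rw [hd, h0]; simp
  by_cases h : Cop c d
  · rw [S.recip c d h hc]; ring
  · rw [S.s_zero c d h, S.s_zero d c fun h' => h (h'.symm hd), zero_mul, zero_mul]

/-- the factorisation -/
theorem fact {φ : K → K → ℂ} {a m ν c : K} (ha : a ≠ 0) (hm : m ≠ 0) (hc : c ≠ 0)
    (h0 : φ c 0 = 0) (w : K → ℂ)
    (h1 : PerL (Scl (R K) a) fun t => S.s (c * t) c * w t * psi (ν * t))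
    (h2 : PerL (Scl (Si K) m) (fS S φ ν c)) :
    qs (Scl (R K) a ⊓ Scl (Si K) m) (fun t => S.ap φ c (c * t) * w t * eT (ν * t)) =
      qs (Scl (R K) a) (fun t => S.s (c * t) c * w t * psi (ν * t)) *
        qs (Scl (Si K) m) (fS S φ ν c) := by
  rw [← qs_crt (Scl_sup ha hm) h1 h2]
  refine qs_congr fun t => ?_
  rw [ap_eq S hc h0, eT_eq, fS]
  ring

theorem gn_eq {φ : K → K → ℂ} {k : ℕ} {ν c : K} (hν : ν ∈ R K) (hc : c ≠ 0) (h0 : φ c 0 = 0)
    (h2 : PerL (Scl (Si K) (lv K k)) (fS S φ ν c)) :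
    gn k (S.ap φ) ν c = S.G ν c * qs (Scl (Si K) (lv K k)) (fS S φ ν c) / (nm (lv K k) : ℂ) := by
  have h := fact S one_ne_zero (lv_ne k) hc h0 (fun _ => 1)
    (by simpa only [mul_one] using S.perL_G hν c) h2
  simp only [mul_one] at h
  rw [gn, gs, Lat_eq_inf, Scl_R_lv, h, Sy.G]

theorem h_pow {c x : K} (hc : c ≠ 0) (hx : x ≠ 0) (n : ℕ) : S.h c (x ^ n) = S.h c x ^ n := by
  induction n with
  | zero => rw [pow_zero, pow_zero, S.h_one c 1 hc (by simp)]
  | succ n ih => rw [pow_succ, S.h_mul_right c _ _ hc (pow_ne_zero n hx) hx, ih, pow_succ]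

theorem fS_T {φ : K → K → ℂ} {x c : K} (hx : x ≠ 0) (hc : c ≠ 0) (h0 : φ (x * c) 0 = 0) (ν : K) :
    fS S (S.T x φ) (ν * x) c = fun s => S.h c x * fS S φ ν (x * c) (x * s) := by
  funext s
  simp only [fS, Sy.T]
  by_cases hs : s = 0
  · simp [hs, h0]
  have hcs := mul_ne_zero hc hs
  have hx2 := pow_ne_zero 2 hx
  rw [show x * c * (x * s) = x ^ 2 * (c * s) by ring,
    S.h_mul_left x c _ hx hc (mul_ne_zero hx2 hcs), S.h_mul_right x _ _ hx hx2 hcs,
    S.h_mul_right c _ _ hc hx2 hcs, h_pow S hx hx, h_pow S hc hx, S.h_self x hx, mul_assoc ν]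
  linear_combination (-φ (x * c) (x ^ 2 * (c * s)) * S.h x (c * s) * S.h c (c * s) *
    psS (ν * (x * s))) * S.h_cube c x hc hx

theorem fS_Cb {φ : K → K → ℂ} {x c : K} (hx : x ≠ 0) (hc : c ≠ 0) (h0 : φ c 0 = 0) (μ t : K) :
    fS S (Cb x φ) μ c (x ^ 3 * t) = fS S φ (μ * x ^ 3) c t := by
  have hx3 := pow_ne_zero 3 hx
  simp only [fS, Cb]
  rw [mul_left_comm c, mul_div_cancel_left₀ _ hx3, mul_assoc μ]
  by_cases ht : t = 0
  · simp [ht, h0]
  rw [S.h_mul_right c _ _ hc hx3 (mul_ne_zero hc ht), h_pow S hc hx, S.h_cube c x hc hx, one_mul]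

theorem Cb_sum {φ : K → K → ℂ} {x c μ m : K} (hx : x ≠ 0) (hc : c ≠ 0) (h0 : φ c 0 = 0)
    (h : PerL (Scl (Si K) (m / x ^ 3)) (fS S φ (μ * x ^ 3) c)) :
    PerL (Scl (Si K) m) (fS S (Cb x φ) μ c) ∧
      qs (Scl (Si K) m) (fS S (Cb x φ) μ c) =
        qs (Scl (Si K) (m / x ^ 3)) (fS S φ (μ * x ^ 3) c) := by
  have hx3 := pow_ne_zero 3 hx
  have h1 : PerL (Scl (Si K) m) (fS S (Cb x φ) μ c) := by
    have e : fS S (Cb x φ) μ c = fun s => fS S φ (μ * x ^ 3) c ((x ^ 3)⁻¹ * s) := by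
      funext s
      rw [← fS_Cb S hx hc h0, mul_inv_cancel_left₀ hx3]
    rw [e]
    refine h.comp_mul fun t ht => ?_
    rwa [mem_Scl_div, mul_inv_cancel_left₀ hx3]
  exact ⟨h1, by rw [qs_scale hx3 h1]; exact qs_congr fun t => fS_Cb S hx hc h0 μ t⟩

theorem G_twist {x c ν : K} (hν : ν ∈ R K) (h : Cop x c) :
    S.G ν c = S.s x c * S.G (ν * x) c := by
  obtain ⟨x, rfl⟩ : ∃ y : R K, (y : K) = x := ⟨⟨x, h.1⟩, rfl⟩
  obtain ⟨c, rfl⟩ : ∃ y : R K, (y : K) = c := ⟨⟨c, h.2.1⟩, rfl⟩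
  obtain ⟨ν, rfl⟩ : ∃ y : R K, (y : K) = ν := ⟨⟨ν, hν⟩, rfl⟩
  obtain ⟨hc, hxc⟩ := cop_iff.1 h
  have hp : PerM c fun d : R K => S.s d c * E c (d * ν) := by
    refine PerM.mul (fun d d' ⟨t, ht⟩ => ?_) (E_per hc ν)
    have : (d : K) = d' + c * t := by
      have := congrArg (fun y : R K => (y : K)) ht
      push_cast at this
      linear_combination this
    simp only [this, S.s_add _ _ _ t.2]
  rw [← MulMemClass.coe_mul, S.G_eq_rsum_E ν hc, S.G_eq_rsum_E (ν * x) hc,
    ← rsum_comp_mul hxc hp, ← rsum_const_mul]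
  refine rsum_congr fun d => ?_
  rw [MulMemClass.coe_mul, S.s_mul_left _ _ _ x.2 d.2, show x * d * ν = d * (ν * x) by ring,
    mul_assoc]

theorem G_twist_pow {x c ν : K} (hν : ν ∈ R K) (h : Cop x c) (n : ℕ) :
    S.G ν c = S.s x c ^ n * S.G (ν * x ^ n) c := by
  induction n with
  | zero => simp
  | succ n ih =>
    rw [ih, G_twist S (mul_mem hν (pow_mem h.1 n)) h, pow_succ, pow_succ, mul_assoc ν,
      mul_assoc]

theorem nm_Nr_pow (x : R K) (n : ℕ) :
    (nm ((x ^ n : R K) : K) : ℂ) / (Nr (x ^ n) : ℂ) = ((nm (x : K) : ℂ) / (Nr x : ℂ)) ^ n := by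
  rw [Nr_pow, SubmonoidClass.coe_pow, nm, (cmK K).nm_pow, div_pow]
  push_cast
  rfl

end G2x

open G2x in
theorem gau2 (S : Sy K) (h1 : GAU1 S) : GAU2 S := by
  classical
  intro j φ hφ ν
  have h0 := fam_zero hφ
  refine ⟨?_, fun x hx => ?_, fun p hp hpν => ?_⟩
  · filter_upwards [ev_deep j (ν : K) 1] with k hk c hc hG
    rw [mul_one] at hk
    rw [gn_eq S ν.2 hc (h0 c) (perL_fS S hφ (lv_ne k) hk hc), hG, zero_mul, zero_div]
  · have hx' := coe_ne_zero hx
    have hx3 := pow_ne_zero 3 hx'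
    filter_upwards [ev_deep j (ν : K) 1, ev_deep j (ν : K) x, ev_deep j (ν * x ^ 3 : K) 1,
      ev_deep j (ν * x ^ 3 : K) ((x : K) ^ 3)⁻¹] with k k1 k2 k3 k4 c hxc
    rw [mul_one] at k1 k3
    rw [← div_eq_mul_inv] at k4
    have hc : c ≠ 0 := hxc.2.2.1
    have hm := lv_ne (K := K) k
    have hn := nmC_ne hx'
    have hN := NrC_ne hx
    have hl := nmC_ne hm
    constructor
    · have hc' := mul_ne_zero hx' hc
      have p1 := perL_fS S hφ hm k1 hc'
      have p2 := perL_fS S hφ (mul_ne_zero hm hx') k2 hc'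
      have e1 := qs_Si_mul_R hm hx p1 p2
      rw [mul_comm (lv K k)] at p2 e1
      rw [qs_scale' hx' p2] at e1
      have p3 : PerL (Scl (Si K) (lv K k)) (fS S (S.T x φ) (ν * x) c) := by
        rw [fS_T S hx' hc (h0 _)]
        exact (p2.comp_mul fun t ht => (mem_Scl_mul hx').1 ht).const_mul _
      rw [gn_eq S ν.2 hc' (h0 _) p1, gn_eq S (mul_mem ν.2 x.2) hc (by simp [Sy.T, h0]) p3,
        fS_T S hx' hc (h0 _), qs_const_mul, e1, h1.2.1 ν ν.2 x c hx' hxc]
      field_simp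
    · have p1 := perL_fS S hφ hm k3 hc
      have p2 := perL_fS S hφ (div_ne_zero hm hx3) k4 hc
      obtain ⟨p3, e1⟩ := Cb_sum S hx' hc (h0 c) p2
      have e2 := qs_Si_mul_R (div_ne_zero hm hx3) (pow_ne_zero 3 hx) p2 (by
        rwa [SubmonoidClass.coe_pow, div_mul_cancel₀ _ hx3])
      rw [nm_Nr_pow, SubmonoidClass.coe_pow, div_mul_cancel₀ _ hx3] at e2
      rw [gn_eq S (mul_mem ν.2 (pow_mem x.2 3)) hc (h0 _) p1,
        gn_eq S ν.2 hc (by simp [Cb, h0]) p3, e1, e2, G_twist_pow S ν.2 hxc 3,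
        S.s_cube _ _ hxc]
      ring
  · have hp0 := hp.ne_zero
    have hp' := coe_ne_zero hp0
    have hp2 := pow_ne_zero 2 hp'
    have hn := nmC_ne hp'
    have hN := NrC_ne hp0
    filter_upwards [ev_deep j (ν * p ^ 2 : K) 1, ev_deep j (ν * p ^ 2 : K) ((p : K) ^ 2)⁻¹]
      with k k1 k2
    rw [mul_one] at k1
    rw [← div_eq_mul_inv] at k2
    have hm := lv_ne (K := K) k
    have hl := nmC_ne hm
    refine ⟨((Nr p : ℂ) / (nm (p : K) : ℂ)) ^ 2 * (nm (lv K k) : ℂ),
      mul_ne_zero (pow_ne_zero 2 (div_ne_zero hN hn)) hl, fun c hc => ?_⟩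
    have p1 := perL_fS S hφ hm k1 hc
    have p2 := perL_fS S hφ (div_ne_zero hm hp2) k2 hc
    have a1 : lv K k * p / (p : K) ^ 3 = lv K k / (p : K) ^ 2 := by field_simp
    have a2 : (ν : K) / p * (p : K) ^ 3 = ν * (p : K) ^ 2 := by field_simp
    obtain ⟨p3, e1⟩ := Cb_sum S (μ := (ν : K) / p) (m := lv K k * p) hp' hc (h0 c)
      (by rwa [a1, a2])
    rw [a1, a2] at e1
    have e2 := qs_Si_mul_R (div_ne_zero hm hp2) (pow_ne_zero 2 hp0) p2 (by
      rwa [SubmonoidClass.coe_pow, div_mul_cancel₀ _ hp2])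
    rw [nm_Nr_pow, SubmonoidClass.coe_pow, div_mul_cancel₀ _ hp2] at e2
    have hle : Scl (R K) (p : K) ≤ Scl (R K) 1 := Scl_le hp' (by rw [div_one]; exact p.2)
    have q1 : PerL (Scl (R K) (p : K)) fun t => psi ((ν : K) / p * t) :=
      perL_psi hp' (by rw [div_mul_cancel₀ _ hp']; exact ν.2)
    have q2 : PerL (Scl (R K) (p : K)) fun t => S.s (c * t) c := (S.perL_s c).mono hle
    have hCb : Cb (p : K) φ c 0 = 0 := by simp [Cb, h0]
    constructor
    · have q3 : PerL (Scl (R K) (p : K)) fun t => S.s (c * t) c * 1 * psi ((ν : K) / p * t) :=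
        (q2.mul (perL_const _ 1)).mul q1
      have f1 := fact S hp' (mul_ne_zero hm hp') hc hCb (fun _ => 1) q3 p3
      obtain ⟨y, hy⟩ : ∃ y : R K, E p (y * ν) ≠ 1 := by
        by_contra hcon
        push Not at hcon
        exact hpν (dvd_of_E hp0 hcon)
      rw [qs_zero q3 (t₀ := y) (fun t => ?_) hy, zero_mul] at f1
      · simp only [mul_one] at f1
        rw [gs, Lat_eq_inf, Scl_R_lv_mul, f1]
      · rw [mul_add, S.s_add _ _ _ y.2, mul_add, psi_add, E]
        push_cast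
        rw [show (ν : K) / p * y = y * ν / p by ring]
        ring
    · have q3 : PerL (Scl (R K) (p : K)) fun t =>
          S.s (c * t) c * ln (p : K) 1 0 c (c * t) * psi ((ν : K) / p * t) := by
        refine PerL.mul ?_ q1
        by_cases hcR : c ∈ R K
        · refine q2.mul fun t y hy => ?_
          have e : (c * 0 - c * (t + y) * 1) / p = (c * 0 - c * t * 1) / p + -(c * (y / p)) := by
            ring
          simp only [ln, e, add_mem_cancel_right (neg_mem (mul_mem hcR hy))]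
        · intro t y _
          simp only [S.s_zero _ c fun h => hcR h.2.1, zero_mul]
      have f1 := fact S hp' (mul_ne_zero hm hp') hc hCb (fun t => ln (p : K) 1 0 c (c * t)) q3 p3
      have f2 : qs (Scl (R K) (p : K)) (fun t =>
          S.s (c * t) c * ln (p : K) 1 0 c (c * t) * psi ((ν : K) / p * t)) =
          S.s p c * S.G ν c := by
        rw [qs_scale hp' q3, div_self hp', Sy.G, ← qs_const_mul]
        refine qs_congr fun t => ?_
        have e : (c * 0 - c * (p * t) * 1) / p = -(c * t) := by field_simp; ring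
        rw [show (ν : K) / p * (p * t) = ν * t by field_simp, ln]
        simp only [e, neg_mem_iff]
        split_ifs with h
        · rw [mul_left_comm c, S.s_mul_left _ _ _ p.2 h]; ring
        · rw [S.s_zero (c * t) c fun h' => h h'.1]; ring
      rw [gs, Lat_eq_inf, Scl_R_lv_mul, f1, f2, e1]
      split_ifs with h
      · rw [gn_eq S (mul_mem ν.2 (pow_mem p.2 2)) hc (h0 c) p1, e2, G_twist_pow S ν.2 h 2,
          ← mul_assoc, ← pow_succ', S.s_cube _ _ h]
        field_simp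
      · rw [S.s_zero _ _ h, zero_mul, zero_mul, mul_zero]

end Vale.Agent.P016Z.TH
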