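import Vale.Agent.P016Z.TH.GramD

/-!
P016, block THETA: convergence, bounds and equidistribution for the basic row function.
-/

namespace Vale.Agent.P016Z.TH

open NumberField MeasureTheory Filter Topology Complex
open Vale.Agent.P006
open scoped ENNReal ComplexConjugate

set_option linter.unusedSectionVars false

variable {K : Type} [Field K] [NumberField K] [Dat K] {S : Sy K}

theorem Bd.mul {D D' : K} {g g' : SL2 K} (h : Bd D g) (h' : Bd D' g') : Bd (D * D') (g * g') := by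
  intro i j
  rw [Matrix.SpecialLinearGroup.coe_mul, Matrix.mul_apply, Finset.mul_sum]
  refine IsIntegral.sum _ fun l _ => ?_
  rw [mul_mul_mul_comm]
  exact (h i l).mul (h' l j)

theorem bd_one_iff {g : SL2 K} : Bd 1 g ↔ g ∈ SLO K := by
  simp only [Bd, one_mul, mem_SLO, Fin.forall_fin_two, and_assoc]

theorem exists_Bd (g : SL2 K) : ∃ D : ℕ, D ≠ 0 ∧ Bd (D : K) g := by
  choose d h1 h2 using fun p : Fin 2 × Fin 2 => exists_den (g p.1 p.2)
  refine ⟨∏ p, d p, Finset.prod_ne_zero_iff.2 fun p _ => h1 p, fun i j => ?_⟩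
  exact isIntegral_mul_of_dvd (Finset.dvd_prod_of_mem d (Finset.mem_univ (i, j))) (h2 (i, j))

theorem measurableSet_Box (r : ℝ) (A₁ A₂ : io K → ℝ) : MeasurableSet (Box r A₁ A₂) := by
  have h1 : Measurable (HS.z : HK K → io K → ℂ) := HS.continuous_z.measurable
  have h2 : Measurable (HS.v : HK K → io K → ℝ) := HS.continuous_v.measurable
  unfold Box
  rw [Set.ofPred_and, Set.ofPred_forall]
  refine (measurableSet_le h1.norm measurable_const).inter (MeasurableSet.iInter fun j => ?_)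
  rw [Set.ofPred_and]
  exact (measurableSet_le measurable_const ((measurable_pi_apply j).comp h2)).inter
    (measurableSet_le ((measurable_pi_apply j).comp h2) measurable_const)

section cover

variable {W : HK K → ℝ≥0∞} (hW : H9.IsBase (SLO K) W) {B : Subgroup (SL2 K)} (hB : B ≤ SLO K)

include hW hB

theorem cover_le {A : Set (HK K)} (hA : MeasurableSet A) {C : ℝ≥0∞}
    (hC : ∀ w, H9.osum B (A.indicator 1) w ≤ C) {f : HK K → ℂ} (hf : Measurable f)
    (hi : ∀ g ∈ B, ∀ w, ‖f (g • w)‖ = ‖f w‖) :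
    n2 A f ≤ C * ∫⁻ w, ‖f w‖ₑ ^ 2 ∂(qB W B) := by
  have hm : Measurable fun w => ‖f w‖ₑ ^ 2 := hf.enorm.pow_const 2
  rw [qB, H9.lintegral_qm' _ hW hm]
  refine H9.covering_le (G := SLO K) (cmK K).mu hm (fun g hg w => ?_)
    (H9.isKernel_kern hW _) hA fun w => by rw [osum_subgroupOf hB]; exact hC w
  show ‖f ((g : SL2 K) • w)‖ₑ ^ 2 = ‖f w‖ₑ ^ 2
  rw [← ofReal_norm, hi (g : SL2 K) hg w, ofReal_norm]

theorem cover_compact (h3 : CNT3 K) (h4 : CNT4 K) {A : Set (HK K)} (hA : IsCompact A) :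
    ∃ C : ℝ, ∀ f : HK K → ℂ, Measurable f → (∀ g ∈ B, ∀ w, ‖f (g • w)‖ = ‖f w‖) →
      n2 A f ≤ ENNReal.ofReal C * ∫⁻ w, ‖f w‖ₑ ^ 2 ∂(qB W B) := by
  obtain ⟨r, δ, hδ, hδ1, hs⟩ := h4.1 A hA
  obtain ⟨C, hC⟩ := h3 1 one_ne_zero r
  refine ⟨_, fun f hf hi => (lintegral_mono_set hs).trans (cover_le hW hB
    (measurableSet_Box _ _ _) (hC B (fun g hg => bd_one_iff.2 (hB hg)) (fun _ => δ)
      (fun _ => δ⁻¹) (fun _ => hδ) fun _ => hδ1.trans ((one_le_inv₀ hδ).2 hδ1)) hf hi)⟩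

theorem cover_box (h3 : CNT3 K) (g : SL2 K) (r : ℝ) :
    ∃ C : ℝ, 0 ≤ C ∧ ∀ Y : io K → ℝ, (∀ j, 0 < Y j) → ∀ f : HK K → ℂ, Measurable f →
      (∀ g ∈ B, ∀ w, ‖f (g • w)‖ = ‖f w‖) →
      n2 (Box r (fun j => (Y j)⁻¹) (fun j => 2 * (Y j)⁻¹)) (fun w => f (g • w)) ≤
        ENNReal.ofReal (C * (1 + ∏ j, Y j ^ 2)) * ∫⁻ w, ‖f w‖ₑ ^ 2 ∂(qB W B) := by
  obtain ⟨D₁, h1, b1⟩ := exists_Bd g⁻¹
  obtain ⟨D₂, h2, b2⟩ := exists_Bd g
  obtain ⟨C, hC⟩ := h3 ((D₁ : K) * 1 * D₂) (by simp [h1, h2]) r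
  refine ⟨max C 0 * (1 + 2 ^ Fintype.card (io K)), by positivity, fun Y hY f hf hi => ?_⟩
  set A := Box (K := K) r (fun j => (Y j)⁻¹) (fun j => 2 * (Y j)⁻¹) with hAdef
  have hA : MeasurableSet A := measurableSet_Box _ _ _
  have hA' : MeasurableSet ((fun w => g⁻¹ • w) ⁻¹' A) := measurable_const_smul g⁻¹ hA
  have hm : Measurable fun w => ‖f w‖ₑ ^ 2 := hf.enorm.pow_const 2
  have e1 : n2 A (fun w => f (g • w)) = n2 ((fun w => g⁻¹ • w) ⁻¹' A) f := by
    unfold n2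
    rw [← lintegral_indicator hA, ← lintegral_indicator hA',
      ← ((cmK K).measurePreserving_smul' g).lintegral_comp (hm.indicator hA')]
    refine lintegral_congr fun w => ?_
    by_cases hw : w ∈ A
    · rw [Set.indicator_of_mem hw, Set.indicator_of_mem (by simpa using hw)]
    · rw [Set.indicator_of_notMem hw, Set.indicator_of_notMem (by simpa using hw)]
  rw [e1]
  refine cover_le hW hB hA' (fun w => ?_) hf hi
  let B' : Subgroup (SL2 K) := B.map (MulAut.conj g⁻¹).toMonoidHom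
  have e2 : H9.osum B (((fun w => g⁻¹ • w) ⁻¹' A).indicator 1) w =
      H9.osum B' (A.indicator 1) (g⁻¹ • w) := by
    unfold H9.osum
    rw [← (B.equivMapOfInjective (MulAut.conj g⁻¹).toMonoidHom
      (MulAut.conj g⁻¹).injective).toEquiv.tsum_eq]
    refine tsum_congr fun γ => ?_
    have e3 : ((B.equivMapOfInjective (MulAut.conj g⁻¹).toMonoidHom
      (MulAut.conj g⁻¹).injective).toEquiv γ : SL2 K) = g⁻¹ * γ * g⁻¹⁻¹ := rfl
    rw [e3, inv_inv, mul_smul, mul_smul, smul_inv_smul]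
    rfl
  rw [e2]
  refine (hC B' ?_ _ _ (fun j => inv_pos.2 (hY j)) (fun j => ?_) _).trans
    (ENNReal.ofReal_le_ofReal ?_)
  · rintro _ ⟨γ, hγ, rfl⟩
    show Bd _ (g⁻¹ * γ * g⁻¹⁻¹)
    rw [inv_inv]
    exact (b1.mul (bd_one_iff.2 (hB hγ))).mul b2
  · have := inv_pos.2 (hY j)
    linarith
  · have e4 : ∏ j, 2 * (Y j)⁻¹ / (Y j)⁻¹ = 2 ^ Fintype.card (io K) := by
      rw [← Finset.card_univ, ← Finset.prod_const]
      refine Finset.prod_congr rfl fun j _ => ?_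
      have := hY j
      field_simp
    have e5 : ∏ j, ((Y j)⁻¹ ^ 2)⁻¹ = ∏ j, Y j ^ 2 := by simp
    have h5 : 0 ≤ ∏ j, Y j ^ 2 := Finset.prod_nonneg fun j _ => sq_nonneg _
    rw [e4, e5, mul_right_comm]
    gcongr
    exact le_max_left _ _

end cover

/-- the subgroup with lower left entry divisible by `p` -/
def Gam0 (k : ℕ) (p : K) : Subgroup (SL2 K) where
  carrier := {g | g ∈ Gam K k ∧ g 1 0 / p ∈ R K}
  mul_mem' := fun {a b} ha hb => by
    refine ⟨mul_mem ha.1 hb.1, ?_⟩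
    have h1 := SLO_le_SLr (Gam_le_SLO k ha.1)
    have h2 := SLO_le_SLr (Gam_le_SLO k hb.1)
    rw [KU.mul_10, show (a 1 0 * b 0 0 + a 1 1 * b 1 0) / p =
      a 1 0 / p * b 0 0 + a 1 1 * (b 1 0 / p) by ring]
    exact add_mem (mul_mem ha.2 h2.1) (mul_mem h1.2.2.2 hb.2)
  one_mem' := ⟨one_mem _, by simp⟩
  inv_mem' := fun {a} ha => ⟨inv_mem ha.1, by
    rw [KU.inv_10, neg_div]; exact neg_mem ha.2⟩

theorem index_Gam0 (k : ℕ) {p : R K} (hp : Prime p) :
    ∃ n : ℕ, n ≠ 0 ∧ n ≤ Nr p + 1 ∧ (((Gam0 k (p : K)).subgroupOf (SLO K)).subgroupOf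
      ((Gam K k).subgroupOf (SLO K))).index = n := by
  classical
  set B := (Gam K k).subgroupOf (SLO K) with hB
  set T := ((Gam0 k (p : K)).subgroupOf (SLO K)).subgroupOf B with hT
  have := finite_Rs hp.ne_zero
  have hR : ∀ g : B, ((g : SLO K) : SL2 K) ∈ SLr K := fun g => SLO_le_SLr (g : SLO K).2
  let a : B → R K := fun g => ⟨((g : SLO K) : SL2 K) 0 0, (hR g).1⟩
  let c : B → R K := fun g => ⟨((g : SLO K) : SL2 K) 1 0, (hR g).2.2.1⟩
  have hinv : ∀ x : R K, ∃ u : R K, ¬ p ∣ x → p ∣ u * x - 1 := by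
    intro x
    by_cases h : p ∣ x
    · exact ⟨0, fun h' => (h' h).elim⟩
    · obtain ⟨s, t, e⟩ := (hp.irreducible.coprime_iff_not_dvd).2 h
      exact ⟨t, fun _ => ⟨-s, by linear_combination e⟩⟩
  choose u hu using hinv
  let φ : B → Option (Rs p) := fun g => if p ∣ c g then none else some (rs p (a g * u (c g)))
  have key : ∀ g g' : B, φ g = φ g' → g⁻¹ * g' ∈ T := by
    intro g g' e
    refine ⟨(g⁻¹ * g').2, ?_⟩
    have h1 : p ∣ a g * c g' - c g * a g' := by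
      by_cases h : p ∣ c g <;> by_cases h' : p ∣ c g'
      · exact dvd_sub (h'.mul_left _) (h.mul_right _)
      · simp [φ, h, h'] at e
      · simp [φ, h, h'] at e
      · simp only [φ, h, h', if_false, Option.some.injEq, rs_eq] at e
        obtain ⟨x, hx⟩ := e
        obtain ⟨y, hy⟩ := hu _ h
        obtain ⟨z, hz⟩ := hu _ h'
        exact ⟨c g * c g' * x - a g * c g' * y + c g * a g' * z, by
          linear_combination (c g * c g') * hx - (a g * c g') * hy + (c g * a g') * hz⟩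
    rw [dvd_iff_div_mem hp.ne_zero] at h1
    have e2 : (((g : SLO K) : SL2 K)⁻¹ * ((g' : SLO K) : SL2 K)) 1 0 =
        ((a g * c g' - c g * a g' : R K) : K) := by
      rw [KU.mul_10, KU.inv_10, KU.inv_11]
      push_cast
      ring
    show (((g : SLO K) : SL2 K)⁻¹ * ((g' : SLO K) : SL2 K)) 1 0 / p ∈ R K
    rwa [e2]
  have hinj : Function.Injective fun q : B ⧸ T => φ q.out := by
    intro q q' e
    rw [← q.out_eq', ← q'.out_eq']
    exact QuotientGroup.eq.2 (key _ _ e)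
  have hfin : Finite (B ⧸ T) := Finite.of_injective _ hinj
  refine ⟨T.index, Nat.card_pos.ne', ?_, rfl⟩
  refine (Nat.card_le_card_of_injective _ hinj).trans (le_of_eq ?_)
  rw [Finite.card_option]
  rfl

theorem a0_int {k : ℕ} {c d : K} (h : S.a0 k c d ≠ 0) :
    c ∈ Lat (lv K k) ∧ d - 1 ∈ Lat (lv K k) := by
  unfold Sy.a0 at h
  by_contra h'
  exact h (if_neg h')

theorem per_of_eqv (hR : ROW1 S) {k : ℕ} {a : K → K → ℂ}
    (he : ∀ g ∈ Tr (lv K k), ∀ c d, act a g c d = S.kub g * a c d) : Per (Lat (lv K k)) a := by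
  intro c d t ht
  have h := he (KU.tr t) ⟨t, ht, rfl⟩ c d
  have e : S.kub (KU.tr t) = 1 := kub_one hR
  rw [e, one_mul] at h
  rw [← h]
  simp only [act, tr_00, tr_01, tr_10, tr_11, mul_one, mul_zero, add_zero, add_comm]

theorem iadm_a0 (hR : ROW1 S) {k : ℕ} (hk : 1 ≤ k) : IAdm k (S.a0 k) :=
  ⟨hR.2.2.2.2 k hk, per_of_eqv hR fun g hg => hR.2.2.1 k hk g (Tr_le_Gam k hg),
    fun _ _ h => ⟨isIntegral_of_mem_Lat (a0_int h).1, isIntegral_of_sub_one (a0_int h).2⟩⟩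

theorem orb_a0 (hR : ROW1 S) (k : ℕ) : Orb S k (Gam K k) (S.a0 k) :=
  ⟨le_rfl, Tr_le_Gam k, fun c d h => (hR.2.2.2.1 k c d).1 h, fun g hg => by
    unfold Sy.a0; rw [if_pos ⟨hg.2.2.1, hg.2.2.2⟩]; rfl⟩

open Classical in
theorem ln01 (p c d : K) : ln p 0 1 c d = if c / p ∈ R K then 1 else 0 := by
  unfold ln; rw [mul_one, mul_zero, sub_zero]

/-- the basic row function restricted to `p ∣ c` -/
noncomputable def Sy.ap0 (S : Sy K) (k : ℕ) (p : K) : K → K → ℂ :=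
  fun c d => S.a0 k c d * ln p 0 1 c d

theorem ap0_ne {k : ℕ} {p c d : K} (h : S.ap0 k p c d ≠ 0) : S.a0 k c d ≠ 0 ∧ c / p ∈ R K := by
  refine ⟨left_ne_zero_of_mul h, ?_⟩
  have h2 := right_ne_zero_of_mul h
  rw [ln01] at h2
  by_contra h3
  exact h2 (if_neg h3)

theorem eqv_ap0 (hR : ROW1 S) {k : ℕ} (hk : 1 ≤ k) {p : K} {g : SL2 K} (hg : g ∈ Gam0 k p)
    (c d : K) : act (S.ap0 k p) g c d = S.kub g * S.ap0 k p c d := by
  have h1 := hR.2.2.1 k hk g hg.1 c d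
  unfold act at h1
  unfold act Sy.ap0
  rw [h1, mul_assoc]
  by_cases h : S.a0 k c d = 0
  · simp [h]
  · have hc : c ∈ R K := mem_R_of_isIntegral (isIntegral_of_mem_Lat (a0_int h).1)
    have hd : d ∈ R K := mem_R_of_isIntegral (isIntegral_of_sub_one (a0_int h).2)
    have hg' := SLO_le_SLr (Gam_le_SLO k hg.1)
    have hdet := KU.det_eq g
    congr 2
    rw [ln01, ln01]
    suffices h0 : (c * g 0 0 + d * g 1 0) / p ∈ R K ↔ c / p ∈ R K by
      by_cases h9 : c / p ∈ R K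
      · rw [if_pos h9, if_pos (h0.2 h9)]
      · rw [if_neg h9, if_neg fun h => h9 (h0.1 h)]
    refine ⟨fun h2 => ?_, fun h2 => ?_⟩
    · have e : c / p = (c * g 0 0 + d * g 1 0) / p * g 1 1 -
          (c * g 0 1 + d * g 1 1) * (g 1 0 / p) := by
        linear_combination (-(c / p)) * hdet
      rw [e]
      exact sub_mem (mul_mem h2 hg'.2.2.2) (mul_mem (add_mem (mul_mem hc hg'.2.1)
        (mul_mem hd hg'.2.2.2)) hg.2)
    · rw [show (c * g 0 0 + d * g 1 0) / p = c / p * g 0 0 + d * (g 1 0 / p) by ring]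
      exact add_mem (mul_mem h2 hg'.1) (mul_mem hd hg.2)

theorem Tr_le_Gam0 (k : ℕ) (p : K) : Tr (lv K k) ≤ Gam0 k p := fun g hg => by
  refine ⟨Tr_le_Gam k hg, ?_⟩
  obtain ⟨t, -, rfl⟩ := hg
  rw [tr_10, zero_div]; exact zero_mem _

theorem norm_ln_le (p c₀ d₀ c d : K) : ‖ln p c₀ d₀ c d‖ ≤ 1 := by
  unfold ln; split_ifs <;> simp

theorem Bnd.mul_ln {a : K → K → ℂ} (h : Bnd a) (p c₀ d₀ : K) :
    Bnd fun c d => a c d * ln p c₀ d₀ c d := by
  obtain ⟨⟨B, hB⟩, j, hj⟩ := h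
  refine ⟨⟨B, fun c d => ?_⟩, j, fun c d h => hj c d (left_ne_zero_of_mul h)⟩
  rw [norm_mul]
  exact (mul_le_of_le_one_right (norm_nonneg _) (norm_ln_le _ _ _ _ _)).trans (hB c d)

theorem ln_unit {u : Kˣ} (hu : u ∈ Ru K) (p c₀ d₀ c d : K) :
    ln p c₀ d₀ (u * c) (u * d) = ln p c₀ d₀ c d := by
  unfold ln
  have e : ((u : K) * c * d₀ - u * d * c₀) / p = u * ((c * d₀ - d * c₀) / p) := by ring
  rw [e]
  suffices h0 : (u : K) * ((c * d₀ - d * c₀) / p) ∈ R K ↔ (c * d₀ - d * c₀) / p ∈ R K by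
    by_cases h9 : (c * d₀ - d * c₀) / p ∈ R K
    · rw [if_pos h9, if_pos (h0.2 h9)]
    · rw [if_neg h9, if_neg fun h => h9 (h0.1 h)]
  refine ⟨fun h => ?_, fun h => mul_mem hu.1 h⟩
  have := mul_mem hu.2 h
  rwa [← mul_assoc, inv_mul_cancel₀ u.ne_zero, one_mul] at this

theorem Adm.mul_ln {k : ℕ} {a : K → K → ℂ} (h : Adm k a) (p c₀ d₀ : K) :
    Adm k fun c d => a c d * ln p c₀ d₀ c d :=
  ⟨h.toBnd.mul_ln p c₀ d₀, fun u hu c d => by
    rw [h.unit u hu, ln_unit hu.1]⟩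

theorem iadm_ap0 (hR : ROW1 S) {k : ℕ} (hk : 1 ≤ k) (p : K) : IAdm k (S.ap0 k p) :=
  ⟨(hR.2.2.2.2 k hk).mul_ln p 0 1,
    per_of_eqv hR fun _ hg => eqv_ap0 hR hk (Tr_le_Gam0 k p hg),
    fun c d h => (iadm_a0 hR hk).int c d (ap0_ne h).1⟩

theorem orb_ap0 (hR : ROW1 S) (k : ℕ) (p : K) : Orb S k (Gam0 k p) (S.ap0 k p) := by
  refine ⟨fun g hg => hg.1, Tr_le_Gam0 k p, fun c d h => ?_, fun g hg => ?_⟩
  · obtain ⟨g, hg, rfl, rfl⟩ := (hR.2.2.2.1 k c d).1 (ap0_ne h).1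
    exact ⟨g, ⟨hg, (ap0_ne h).2⟩, rfl, rfl⟩
  · unfold Sy.ap0
    rw [(orb_a0 hR k).val g hg.1, ln01, if_pos hg.2, mul_one]

theorem Bnd.const_mul {a : K → K → ℂ} (h : Bnd a) (z : ℂ) : Bnd fun c d => z * a c d := by
  obtain ⟨⟨B, hB⟩, j, hj⟩ := h
  refine ⟨⟨‖z‖ * B, fun c d => ?_⟩, j, fun c d h => hj c d (right_ne_zero_of_mul h)⟩
  rw [norm_mul]
  exact mul_le_mul_of_nonneg_left (hB c d) (norm_nonneg _)

theorem F_cen (hE : EIS K) (k : ℕ) {a : K → K → ℂ} (h : Bnd a) (p : R K) (c₀ d₀ : K) (X : ℝ)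
    (w : HK K) : F k (cen a p c₀ d₀) X w =
      F k (fun c d => a c d * ln (p : K) c₀ d₀ c d) X w -
        (((Nr p : ℝ) + 1)⁻¹ : ℝ) * F k a X w := by
  have e : cen a p c₀ d₀ = (fun c d => a c d * ln (p : K) c₀ d₀ c d) +
      fun c d => (-((Nr p : ℂ) + 1)⁻¹) * a c d := by
    funext c d
    simp only [cen, Pi.add_apply]; ring
  unfold F
  rw [e, hE.2.2.1 k _ _ X w (h.mul_ln _ _ _) (h.const_mul _), Es_const_mul]
  push_cast; ring

theorem measurable_F (hE : EIS K) (k : ℕ) (a : K → K → ℂ) (X : ℝ) : Measurable (F k a X) :=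
  (hE.1 k a X).const_mul _

theorem F_aut (hR : ROW1 S) (hE : EIS K) {k : ℕ} {a : K → K → ℂ} {g : SL2 K}
    (hg : g ∈ Gam K 1) (e : ∀ c d, act a g⁻¹ c d = S.kub g⁻¹ * a c d) (X : ℝ) (w : HK K) :
    F k a X (g • w) = conj (S.kub g) * F k a X w := by
  unfold F
  rw [Es_aut hR hE hg e]; ring

theorem gram (hP : PART K) (hE : EIS K) (hF : FOUR K) (h3 : CNT3 K) (h4 : CNT4 K)
    (hc : ∀ m : K, m ≠ 0 → ∃ A, IsCell m A) (hR : ROW1 S) (hM : MEAN S) : GRAM S := by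
  intro k hk
  have hb := hP.2.1 k k le_rfl
  obtain ⟨W, hW⟩ := h4.2.2
  obtain ⟨A, hA⟩ := hc _ (lv_ne k)
  obtain ⟨κ, -, C, m1, m2, m3⟩ := hM k hk
  have he0 := hR.2.2.1 k hk
  have hG1 : Gam K k ≤ Gam K 1 := Gam_mono hk
  have aut0 : ∀ g ∈ Gam K k, ∀ X w, F k (S.a0 k) X (g • w) = conj (S.kub g) * F k (S.a0 k) X w :=
    fun g hg => F_aut hR hE (hG1 hg) (he0 _ (inv_mem hg))
  have nk : ∀ g ∈ Gam K k, ‖conj (S.kub g)‖ = 1 := fun g hg => by
    rw [Complex.norm_conj]; exact hR.2.1 g (hG1 hg)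
  obtain ⟨i1, t1⟩ := gram_orb hk hb hE hR hW hA (orb_a0 hR k) (iadm_a0 hR hk) he0 hF m1 m2
  set L : ℂ := conj ((κ : ℂ) * (ker0 hb).hat) with hL
  have hdiag : Tendsto (fun X : ℝ => ((X, X) : ℝ × ℝ)) atTop atTop := by
    rw [← prod_atTop_atTop_eq]; exact tendsto_id.prodMk tendsto_id
  have hfst : Tendsto (fun p : ℝ × ℝ => p.1) atTop atTop := by
    rw [← prod_atTop_atTop_eq]; exact tendsto_fst
  have hsnd : Tendsto (fun p : ℝ × ℝ => p.2) atTop atTop := by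
    rw [← prod_atTop_atTop_eq]; exact tendsto_snd
  have d1 := (Complex.continuous_re.tendsto _).comp (t1.comp hdiag)
  refine ⟨fun Ω hΩ => ?_, fun g r => ?_, fun p hp Ω hΩ => ?_⟩
  · obtain ⟨D, hD⟩ := cover_compact hW (Gam_le_SLO k) h3 h4 hΩ
    have t2 := ((d1.comp hsnd).sub (((Complex.continuous_re.tendsto _).comp t1).const_mul
      (2 * 1))).add ((d1.comp hfst).const_mul (1 ^ 2))
    have t3 := ENNReal.Tendsto.const_mul (a := ENNReal.ofReal D) (ENNReal.tendsto_ofReal t2)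
      (Or.inr ENNReal.ofReal_ne_top)
    rw [show L.re - 2 * 1 * L.re + 1 ^ 2 * L.re = 0 by ring, ENNReal.ofReal_zero, mul_zero] at t3
    refine tendsto_of_tendsto_of_tendsto_of_le_of_le' tendsto_const_nhds t3
      (Eventually.of_forall fun _ => zero_le) ?_
    filter_upwards [hfst.eventually (eventually_gt_atTop 0),
      hsnd.eventually (eventually_gt_atTop 0)] with q hX hY
    refine (hD (fun w => F k (S.a0 k) q.1 w - F k (S.a0 k) q.2 w)
      ((measurable_F hE _ _ _).sub (measurable_F hE _ _ _)) fun g hg w => ?_).trans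
      (le_of_eq ?_)
    · rw [aut0 g hg, aut0 g hg, ← mul_sub, norm_mul, nk g hg, one_mul]
    · congr 1
      have h5 := lint_sub_eq 1 (i1 q.2 q.2 hY) (i1 q.1 q.2 hY) (i1 q.1 q.1 hX)
      simp only [ofReal_one, one_mul] at h5
      refine Eq.trans (lintegral_congr fun w => ?_) (h5.trans ?_)
      · rw [← enorm_neg, neg_sub]
      · simp only [Function.comp]
  · obtain ⟨D, hD0, hD⟩ := cover_box hW (Gam_le_SLO k) h3 g r
    refine ⟨D * max (L.re + 1) 0, fun Y hY => ?_⟩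
    filter_upwards [eventually_gt_atTop 0,
      d1.eventually (eventually_le_nhds (lt_add_one L.re))] with X hX hle
    refine (hD Y hY _ (measurable_F hE _ _ _) fun γ hγ w => by
      rw [aut0 γ hγ, norm_mul, nk γ hγ, one_mul]).trans ?_
    have h5 : 0 ≤ ∏ j, Y j ^ 2 := Finset.prod_nonneg fun j _ => sq_nonneg _
    rw [lint_sq_eq (i1 X X hX), mul_right_comm D, ENNReal.ofReal_mul (p := D * _) (by positivity)]
    exact mul_le_mul_right (ENNReal.ofReal_le_ofReal (hle.trans (le_max_left _ _))) _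
  · have hle : Gam0 k (p : K) ≤ Gam K k := fun g hg => hg.1
    have hO : Gam0 k (p : K) ≤ SLO K := hle.trans (Gam_le_SLO k)
    obtain ⟨D, hD⟩ := cover_compact hW hO h3 h4 hΩ
    obtain ⟨i2, t2⟩ := gram_orb hk hb hE hR hW hA (orb_ap0 hR k p) (iadm_ap0 hR hk p)
      (fun g hg => eqv_ap0 hR hk hg) hF (m3 p hp).1 (m3 p hp).2
    obtain ⟨i3, t3⟩ := gram_orb hk hb hE hR hW hA (orb_ap0 hR k p) (iadm_a0 hR hk)
      (fun g hg => he0 g hg.1) hF m1 m2
    obtain ⟨n, hn0, hn, hidx⟩ := index_Gam0 k hp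
    have hind : ∀ X, ∫⁻ w, ‖F k (S.a0 k) X w‖ₑ ^ 2 ∂(qB W (Gam0 k (p : K))) =
        n * ∫⁻ w, ‖F k (S.a0 k) X w‖ₑ ^ 2 ∂(qB W (Gam K k)) := fun X =>
      H9.lintegral_qm_index (G := SLO K) (cmK K).mu hW (fun g hg => hle hg) hidx hn0
        ((measurable_F hE _ _ _).enorm.pow_const 2) fun g hg w => by
          show ‖F k (S.a0 k) X ((g : SL2 K) • w)‖ₑ ^ 2 = ‖F k (S.a0 k) X w‖ₑ ^ 2
          rw [← ofReal_norm, aut0 (g : SL2 K) hg, norm_mul, nk (g : SL2 K) hg, one_mul,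
            ofReal_norm]
    have hnn : ∀ (f : HK K → ℂ) (ν : Measure (HK K)), 0 ≤ (∫ w, f w * conj (f w) ∂ν).re := by
      intro f ν
      simp only [Complex.mul_conj]
      rw [integral_complex_ofReal, ofReal_re]
      exact integral_nonneg fun w => normSq_nonneg _
    have i4 : ∀ X, 0 < X → Integrable (fun w => F k (S.a0 k) X w * conj (F k (S.a0 k) X w))
        (qB W (Gam0 k (p : K))) := by
      intro X hX
      refine ⟨((measurable_F hE _ _ _).mul (Complex.continuous_conj.measurable.comp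
        (measurable_F hE _ _ _))).aestronglyMeasurable, ?_⟩
      have e : ∀ w, ‖F k (S.a0 k) X w * conj (F k (S.a0 k) X w)‖ₑ = ‖F k (S.a0 k) X w‖ₑ ^ 2 := by
        intro w
        rw [← ofReal_norm, ← ofReal_norm, norm_mul, Complex.norm_conj, ← sq,
          ENNReal.ofReal_pow (norm_nonneg _)]
      rw [HasFiniteIntegral]
      simp only [e]
      rw [hind, lint_sq_eq (i1 X X hX)]
      exact ENNReal.mul_lt_top (ENNReal.natCast_lt_top n) ENNReal.ofReal_lt_top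
    have e4 : ∀ X, 0 < X → (∫ w, F k (S.a0 k) X w * conj (F k (S.a0 k) X w)
        ∂(qB W (Gam0 k (p : K)))).re =
        n * (∫ w, F k (S.a0 k) X w * conj (F k (S.a0 k) X w) ∂(qB W (Gam K k))).re := by
      intro X hX
      have h5 := hind X
      rw [lint_sq_eq (i4 X hX), lint_sq_eq (i1 X X hX), ← ENNReal.ofReal_natCast,
        ← ENNReal.ofReal_mul (Nat.cast_nonneg n)] at h5
      exact (ENNReal.ofReal_eq_ofReal_iff (hnn _ _)
        (mul_nonneg (Nat.cast_nonneg n) (hnn _ _))).1 h5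
    set c : ℝ := ((Nr p : ℝ) + 1)⁻¹ with hc
    have d2 := (Complex.continuous_re.tendsto _).comp (t2.comp hdiag)
    have d3 := (Complex.continuous_re.tendsto _).comp (t3.comp hdiag)
    have t4 := (d2.sub (d3.const_mul (2 * c))).add ((d1.const_mul (n : ℝ)).const_mul (c ^ 2))
    have t5 := ENNReal.Tendsto.const_mul (a := ENNReal.ofReal D) (ENNReal.tendsto_ofReal t4)
      (Or.inr ENNReal.ofReal_ne_top)
    have hL0 : 0 ≤ L.re := ge_of_tendsto' d1 fun X => hnn _ _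
    have e5 : conj ((κ : ℂ) / ((Nr p : ℂ) + 1) * (ker0 hb).hat) = (c : ℂ) * L := by
      rw [hL, hc]
      simp only [map_mul, map_div₀, map_add, map_natCast, map_one]
      push_cast; ring
    have e6 : (conj ((κ : ℂ) / ((Nr p : ℂ) + 1) * (ker0 hb).hat)).re - 2 * c * L.re +
        c ^ 2 * (n * L.re) ≤ 0 := by
      rw [e5, re_ofReal_mul]
      have h6 : c * n ≤ 1 := by
        rw [hc, inv_mul_le_iff₀ (by positivity), mul_one]; exact_mod_cast hn
      have h7 : 0 ≤ c := by positivity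
      nlinarith [mul_nonneg h7 hL0]
    rw [ENNReal.ofReal_eq_zero.2 e6, mul_zero] at t5
    refine tendsto_of_tendsto_of_tendsto_of_le_of_le' tendsto_const_nhds t5
      (Eventually.of_forall fun _ => zero_le) ?_
    filter_upwards [eventually_gt_atTop 0] with X hX
    have e7 : F k (cen (S.a0 k) p 0 1) X = fun w =>
        F k (S.ap0 k p) X w - (c : ℂ) * F k (S.a0 k) X w :=
      funext fun w => F_cen hE k (iadm_a0 hR hk).adm.toBnd p 0 1 X w
    rw [e7]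
    refine (hD (fun w => F k (S.ap0 k p) X w - (c : ℂ) * F k (S.a0 k) X w)
      ((measurable_F hE _ _ _).sub ((measurable_F hE _ _ _).const_mul _))
      fun g hg w => ?_).trans (le_of_eq ?_)
    · rw [aut0 g hg.1, F_aut hR hE (hG1 hg.1) (eqv_ap0 hR hk (inv_mem hg)), mul_left_comm,
        ← mul_sub, norm_mul, nk g hg.1, one_mul]
    · congr 1
      rw [lint_sub_eq c (i2 X X hX) (i3 X X hX) (i4 X hX), e4 X hX]
      simp only [Function.comp]

end Vale.Agent.P016Z.TH
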