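import Vale.Agent.P016Z.TH.GramA

/-!
P016, block THETA: the cut-off function at the cusp, the kernel of the Gram computation and the
integral over the strip.
-/

namespace Vale.Agent.P016Z.TH

open NumberField MeasureTheory Filter Topology Complex
open Vale.Agent.P006
open scoped ENNReal ComplexConjugate

set_option linter.unusedSectionVars false

variable {K : Type} [Field K] [NumberField K] [Dat K]

theorem card_pos : 0 < Fintype.card (io K) := Fintype.card_pos

/-- the cut-off function in the height variables -/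
noncomputable def cut (K : Type) [Field K] [NumberField K] [Dat K] (k : ℕ) (Y : ℝ)
    (v : io K → ℝ) : ℝ :=
  bet K k v⁻¹ * if (∏ j, v j)⁻¹ ≤ Y then 1 else 0

theorem cut_eq (k : ℕ) (Y : ℝ) (w : HK K) :
    (bet K k ((cmK K).Qv w 0 1) : ℂ) * (if (cmK K).QQ w 0 1 ≤ Y then 1 else 0) =
      (cut K k Y (HS.v w) : ℂ) := by
  have e1 : (cmK K).Qv w 0 1 = (HS.v w)⁻¹ := funext fun j => (cmK K).Qv_zero_one w j
  rw [cut, e1, CM.QQ_zero_left, CM.nm_one, one_div]
  split_ifs <;> simp

section part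

variable {k : ℕ} {V : Subgroup Kˣ} {κ : ℝ} (hb : Part V κ (bet K k))

include hb

theorem measurable_cut (Y : ℝ) : Measurable (cut K k Y) := by
  unfold cut
  refine (hb.meas.comp measurable_inv).mul (Measurable.ite ?_ measurable_const measurable_const)
  exact measurableSet_le (Finset.measurable_prod _ fun j _ => measurable_pi_apply j).inv
    measurable_const

theorem cut_nonneg (Y : ℝ) (v : io K → ℝ) : 0 ≤ cut K k Y v := by
  unfold cut
  exact mul_nonneg (hb.nonneg _) (by split_ifs <;> norm_num)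

theorem cut_le_one (Y : ℝ) (v : io K → ℝ) : cut K k Y v ≤ 1 := by
  unfold cut
  split_ifs
  · rw [mul_one]; exact hb.le_one _
  · simp

theorem cut_bal : ∃ C : ℝ, 1 ≤ C ∧ ∀ (Y : ℝ) (v : io K → ℝ), (∀ j, 0 < v j) → cut K k Y v ≠ 0 →
    (∏ j, v j)⁻¹ ≤ Y ∧ ∀ i j, v i ≤ C * v j := by
  obtain ⟨C, hC⟩ := hb.bal
  refine ⟨max C 1, le_max_right _ _, fun Y v hv h => ?_⟩
  unfold cut at h
  have h1 := left_ne_zero_of_mul h
  have h2 := right_ne_zero_of_mul h
  refine ⟨by by_contra h3; exact h2 (if_neg h3), fun i j => ?_⟩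
  have h3 := hC v⁻¹ (fun j => inv_pos.2 (hv j)) h1 j i
  simp only [Pi.inv_apply] at h3
  have hi := hv i
  have hj := hv j
  have h4 : v i ≤ C * v j := by
    rw [← div_eq_mul_inv, inv_eq_one_div, div_le_div_iff₀ hj hi] at h3
    linarith
  exact h4.trans (mul_le_mul_of_nonneg_right (le_max_left _ _) hj.le)

theorem cut_lower : ∃ C : ℝ, 1 ≤ C ∧ ∀ (Y : ℝ) (v : io K → ℝ), 0 < Y → (∀ j, 0 < v j) →
    cut K k Y v ≠ 0 → ∀ j, Y ^ (-(Fintype.card (io K) : ℝ)⁻¹) / C ≤ v j := by
  obtain ⟨C, hC1, hC⟩ := cut_bal hb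
  refine ⟨C, hC1, fun Y v hY hv h j => ?_⟩
  obtain ⟨h1, h2⟩ := hC Y v hv h
  have hr := card_pos (K := K)
  have hP : 0 < ∏ j, v j := Finset.prod_pos fun j _ => hv j
  have h3 : ∏ i, v i ≤ (C * v j) ^ Fintype.card (io K) := by
    rw [← Finset.card_univ, ← Finset.prod_const]
    exact Finset.prod_le_prod (fun i _ => (hv i).le) fun i _ => h2 i j
  have h4 : Y⁻¹ ≤ (C * v j) ^ Fintype.card (io K) := (inv_le_of_inv_le₀ hP h1).trans h3
  have hv' := hv j
  rw [div_le_iff₀ (by linarith), mul_comm, Real.rpow_neg hY.le, ← Real.inv_rpow hY.le]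
  refine (Real.rpow_le_rpow (by positivity) h4 (by positivity)).trans (le_of_eq ?_)
  exact Real.pow_rpow_inv_natCast (by positivity) hr.ne'

theorem cut_meas_le : ∃ C : ℝ, ∀ Y : ℝ, 0 < Y →
    nuP (io K) {v | cut K k Y v ≠ 0} ≤ ENNReal.ofReal (C * Y ^ 2) := by
  obtain ⟨C, hC1, hC⟩ := cut_lower hb
  refine ⟨(C ^ 2) ^ Fintype.card (io K), fun Y hY => ?_⟩
  have hδ : 0 < Y ^ (-(Fintype.card (io K) : ℝ)⁻¹) / C := by positivity
  refine (measure_mono_ae ?_).trans ((nuP_Ici hδ).trans (le_of_eq ?_))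
  · filter_upwards [ae_nuP_pos (ι := io K)] with v hv h
    exact hC Y v hY hv h
  · congr 1
    have hr : (Fintype.card (io K) : ℝ) ≠ 0 := by exact_mod_cast (card_pos (K := K)).ne'
    rw [Real.div_rpow (by positivity) (by positivity), ← Real.rpow_mul hY.le, div_pow,
      ← Real.rpow_natCast (Y ^ _), ← Real.rpow_mul hY.le, Real.rpow_neg (by positivity),
      Real.rpow_two, inv_pow, div_inv_eq_mul, mul_comm]
    congr 1
    rw [← Real.rpow_two]
    congr 1
    field_simp

theorem integrable_cut {Y : ℝ} (hY : 0 < Y) : Integrable (cut K k Y) (nuP (io K)) := by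
  obtain ⟨C, hC⟩ := cut_meas_le hb
  have hm : MeasurableSet {v | cut K k Y v ≠ 0} :=
    (measurable_cut hb Y (measurableSet_singleton 0)).compl
  have h1 : Integrable ({v | cut K k Y v ≠ 0}.indicator fun _ => (1 : ℝ)) (nuP (io K)) :=
    (integrable_indicator_iff hm).2 (integrableOn_const ((hC Y hY).trans_lt
      ENNReal.ofReal_lt_top).ne)
  refine h1.mono' (measurable_cut hb Y).aestronglyMeasurable (Eventually.of_forall fun v => ?_)
  by_cases h : cut K k Y v = 0
  · rw [h, norm_zero]; exact Set.indicator_nonneg (fun _ _ => zero_le_one) _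
  · rw [Set.indicator_of_mem (show v ∈ {v | cut K k Y v ≠ 0} from h),
      Real.norm_of_nonneg (cut_nonneg hb Y v)]
    exact cut_le_one hb Y v

omit hb in
theorem integrable_nuV_rpow {δ : ℝ} (hδ : 0 < δ) :
    Integrable ((Set.Ici δ).indicator fun v : ℝ => v ^ (2 / 3 : ℝ)) H9.nuV := by
  rw [H9.nuV, integrable_withDensity_iff_integrable_smul' (by fun_prop)
    (Eventually.of_forall fun _ => ENNReal.ofReal_lt_top)]
  have h1 : IntegrableOn (fun v : ℝ => v ^ (-(7 / 3) : ℝ)) (Set.Ici δ) :=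
    (integrableOn_Ici_iff_integrableOn_Ioi).2 (integrableOn_Ioi_rpow_of_lt (by norm_num) hδ)
  refine (((integrable_indicator_iff measurableSet_Ici).2 h1).restrict).congr ?_
  refine (ae_restrict_iff' measurableSet_Ioi).2 (Eventually.of_forall fun v hv => ?_)
  have hv : (0 : ℝ) < v := hv
  by_cases h : v ∈ Set.Ici δ
  · simp only [Set.indicator_of_mem h, smul_eq_mul]
    rw [ENNReal.toReal_ofReal (by positivity), ← Real.rpow_natCast, ← Real.rpow_neg hv.le,
      ← Real.rpow_add hv]
    norm_num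
  · simp only [Set.indicator_of_notMem h, smul_zero]

theorem integrable_cut_rpow :
    Integrable (fun v => (∏ j, v j) ^ (2 / 3 : ℝ) * cut K k 1 v) (nuP (io K)) := by
  obtain ⟨C, hC1, hC⟩ := cut_lower hb
  have hδ : 0 < (1 : ℝ) ^ (-(Fintype.card (io K) : ℝ)⁻¹) / C := by positivity
  have h1 := Integrable.fintype_prod (ι := io K) (μ := fun _ => H9.nuV)
    (f := fun _ => (Set.Ici ((1 : ℝ) ^ (-(Fintype.card (io K) : ℝ)⁻¹) / C)).indicator
      fun v : ℝ => v ^ (2 / 3 : ℝ)) fun _ => integrable_nuV_rpow hδ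
  refine h1.mono' ?_ ?_
  · exact (((Finset.measurable_prod _ fun j _ => measurable_pi_apply j).pow_const _).mul
      (measurable_cut hb 1)).aestronglyMeasurable
  · filter_upwards [ae_nuP_pos (ι := io K)] with v hv
    by_cases h : cut K k 1 v = 0
    · rw [h, mul_zero, norm_zero]
      exact Finset.prod_nonneg fun j _ =>
        Set.indicator_nonneg (fun x hx => Real.rpow_nonneg (hδ.le.trans hx) _) _
    · have h2 := hC 1 v one_pos hv h
      have hP : 0 ≤ (∏ j, v j) ^ (2 / 3 : ℝ) :=
        Real.rpow_nonneg (Finset.prod_nonneg fun j _ => (hv j).le) _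
      rw [Real.norm_of_nonneg (mul_nonneg hP (cut_nonneg hb 1 v))]
      refine (mul_le_of_le_one_right hP (cut_le_one hb 1 v)).trans (le_of_eq ?_)
      rw [← Real.finsetProd_rpow _ _ fun j _ => (hv j).le]
      refine Finset.prod_congr rfl fun j _ => ?_
      rw [Set.indicator_of_mem (Set.mem_Ici.2 (h2 j))]

omit hb in
theorem measurable_PPw : Measurable fun w : HK K => PP (HS.z w) (HS.v w) := by
  have h : Measurable fun w : HK K => ((HS.z w, HS.v w) : (io K → ℂ) × (io K → ℝ)) :=
    HS.continuous_z.measurable.prodMk HS.continuous_v.measurable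
  have h2 := (measurable_PP (ι := io K)).comp h
  exact h2

theorem integrable_ker : Integrable (fun w : HK K =>
    PP (HS.z w) (HS.v w) ^ (-(4 / 3) : ℝ) * cut K k 1 (HS.v w)) (cmK K).mu := by
  have hm : Measurable fun w : HK K =>
      PP (HS.z w) (HS.v w) ^ (-(4 / 3) : ℝ) * cut K k 1 (HS.v w) :=
    (measurable_PPw.pow_const _).mul ((measurable_cut hb 1).comp HS.continuous_v.measurable)
  rw [← (cmK K).measurePreserving_pt.integrable_comp hm.aestronglyMeasurable]
  have hm2 := hm.comp (cmK K).measurable_pt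
  rw [integrable_prod_iff' hm2.aestronglyMeasurable]
  constructor
  · filter_upwards [ae_nuP_pos (ι := io K)] with v hv
    simp only [Function.comp, CM.pt_z, (cmK K).pt_v _ hv]
    exact (integrable_PP hv).mul_const _
  · refine ((integrable_cut_rpow hb).const_mul
      (cJ ^ Fintype.card (io K) * SG.G 0 ^ Fintype.card (io K))).congr ?_
    filter_upwards [ae_nuP_pos (ι := io K)] with v hv
    simp only [Function.comp, CM.pt_z, (cmK K).pt_v _ hv]
    have e : ∀ z : io K → ℂ, ‖PP z v ^ (-(4 / 3) : ℝ) * cut K k 1 v‖ =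
        PP z v ^ (-(4 / 3) : ℝ) * cut K k 1 v := fun z => Real.norm_of_nonneg
      (mul_nonneg (Real.rpow_nonneg (PP_pos z hv).le _) (cut_nonneg hb 1 v))
    simp only [e]
    rw [integral_mul_const, integral_PP hv, WW_zero v hv]
    ring

/-- the kernel of the Gram computation -/
noncomputable def ker0 : Ker where
  Om := HK K
  ms := inferInstance
  mu := (cmK K).mu
  sf := inferInstance
  P w := PP (HS.z w) (HS.v w)
  w w := (cut K k 1 (HS.v w) : ℂ)
  P_meas := measurable_PPw
  w_meas := Complex.measurable_ofReal.comp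
    ((measurable_cut hb 1).comp HS.continuous_v.measurable)
  P_pos w := PP_pos _ (HS.v_pos w)
  int1 := (integrable_ker hb).congr (Eventually.of_forall fun w => by
    simp only []
    rw [Complex.norm_real, Real.norm_of_nonneg (cut_nonneg hb 1 _)])
  int2 := by
    refine (integrable_ker hb).mono' ?_ (Eventually.of_forall fun w => ?_)
    · exact ((measurable_PPw.pow_const _).mul (Complex.measurable_ofReal.comp
        ((measurable_cut hb 1).comp HS.continuous_v.measurable)).norm).aestronglyMeasurable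
    · have hp := PP_pos (HS.z w) (HS.v_pos w)
      have hc := cut_nonneg hb 1 (HS.v w)
      rw [Complex.norm_real, Real.norm_of_nonneg hc,
        Real.norm_of_nonneg (mul_nonneg (Real.rpow_nonneg hp.le _) hc)]
      by_cases h : cut K k 1 (HS.v w) = 0
      · simp [h]
      · obtain ⟨C, -, hC⟩ := cut_bal hb
        have h1 := (hC 1 _ (HS.v_pos w) h).1
        have h2 : 0 < ∏ j, HS.v w j := Finset.prod_pos fun j _ => HS.v_pos w j
        have h3 : 1 ≤ PP (HS.z w) (HS.v w) :=
          ((inv_le_one₀ h2).1 h1).trans (le_PP _ (HS.v_pos w))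
        exact mul_le_mul_of_nonneg_right
          (Real.rpow_le_rpow_of_exponent_le h3 (by norm_num)) hc

theorem cut_dil {Y : ℝ} (hY : 0 < Y) {l : ℝ} (hl : 0 < l) (e : l ^ Fintype.card (io K) = Y⁻¹)
    {v : io K → ℝ} (hv : ∀ j, 0 < v j) : cut K k Y (l • v) = cut K k 1 v := by
  unfold cut
  have h1 : (l • v)⁻¹ = l⁻¹ • v⁻¹ := by
    funext j; simp [mul_comm]
  have h2 : ∏ j, (l • v) j = Y⁻¹ * ∏ j, v j := by
    simp only [Pi.smul_apply, smul_eq_mul]
    rw [Finset.prod_mul_distrib, Finset.prod_const, Finset.card_univ, e]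
  have h3 : 0 < ∏ j, v j := Finset.prod_pos fun j _ => hv j
  rw [h1, hb.hom _ _ (inv_pos.2 hl), h2, mul_inv, inv_inv]
  congr 1
  refine if_congr ?_ rfl rfl
  rw [mul_le_iff_le_one_right hY]

/-- the main term after dilation -/
theorem main_eq {T : ℝ → ℂ} (hT : Tame T) {X Y : ℝ} (hX : 0 < X) (hY : 0 < Y) :
    Integrable (fun w : HK K => T (X / PP (HS.z w) (HS.v w)) * (cut K k Y (HS.v w) : ℂ))
      (cmK K).mu ∧
    ∫ w : HK K, T (X / PP (HS.z w) (HS.v w)) * (cut K k Y (HS.v w) : ℂ) ∂(cmK K).mu =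
      (ker0 hb).sm T (X * Y) := by
  have hr := card_pos (K := K)
  set l : ℝ := Y⁻¹ ^ ((Fintype.card (io K) : ℝ)⁻¹) with hl
  have hl0 : 0 < l := by positivity
  have e : l ^ Fintype.card (io K) = Y⁻¹ := Real.rpow_inv_natCast_pow (by positivity) hr.ne'
  have hm : Measurable fun w : HK K =>
      T (X / PP (HS.z w) (HS.v w)) * (cut K k Y (HS.v w) : ℂ) :=
    (hT.1.comp (measurable_const.div measurable_PPw)).mul (Complex.measurable_ofReal.comp
      ((measurable_cut hb Y).comp HS.continuous_v.measurable))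
  have h1 : ∀ w : HK K, T (X / PP (HS.z (dil l hl0 w)) (HS.v (dil l hl0 w))) *
      (cut K k Y (HS.v (dil l hl0 w)) : ℂ) =
      T (X * Y / PP (HS.z w) (HS.v w)) * (cut K k 1 (HS.v w) : ℂ) := by
    intro w
    rw [PP_dil, dil_v, cut_dil hb hY hl0 e (HS.v_pos w), e]
    congr 2
    field_simp
  constructor
  · rw [← (mp_dil hl0).integrable_comp hm.aestronglyMeasurable]
    exact ((ker0 hb).integrable_sm hT (mul_pos hX hY)).congr
      (Eventually.of_forall fun w => (h1 w).symm)
  · rw [← (mp_dil hl0).map_eq, integral_map (mp_dil hl0).measurable.aemeasurable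
      hm.aestronglyMeasurable]
    exact integral_congr_ae (Eventually.of_forall h1)

end part

end Vale.Agent.P016Z.TH
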