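import Vale.Agent.P016Z.TH.GramB

/-!
P016, block THETA: unfolding of one orbit of rows and the asymptotic Gram formula.
-/

namespace Vale.Agent.P016Z.TH

open NumberField MeasureTheory Filter Topology Complex
open Vale.Agent.P006
open scoped ENNReal ComplexConjugate

set_option linter.unusedSectionVars false

variable {K : Type} [Field K] [NumberField K] [Dat K]

theorem one_le_nm' {x : K} (hx : IsIntegral ℤ x) (h0 : x ≠ 0) : 1 ≤ nm x :=
  (cmK K).one_le_nm (x := ⟨x, hx⟩) fun h => h0 (congrArg (fun t : 𝓞 K => (t : K)) h)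

theorem Row.ne {D c d : K} (h : Row D c d) : c ≠ 0 ∨ d ≠ 0 := by
  obtain ⟨g, -, rfl, rfl⟩ := h
  by_contra h
  push Not at h
  have := KU.det_eq g
  rw [h.1, h.2] at this
  simp at this

theorem Es_eq_E0 {k : ℕ} {a : K → K → ℂ} (hi : ∀ c d, a c d ≠ 0 → IsIntegral ℤ c) {X : ℝ}
    {w : HK K} (h : X < ∏ j, HS.v w j) : Es k a X w = E0 k a X (HS.v w) := by
  unfold Es E0
  have hinj : Function.Injective fun d : K => (((0 : K), d) : K × K) := fun _ _ e =>
    congrArg Prod.snd e
  rw [← hinj.tsum_eq]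
  · refine tsum_congr fun d => ?_
    have e1 : (cmK K).Qv w 0 d = ab d / HS.v w := funext fun j => (cmK K).Qv_zero_left w d j
    simp only [e1, CM.QQ_zero_left]
  · rintro ⟨c, d⟩ hx
    by_cases hc : c = 0
    · exact ⟨d, by rw [hc]⟩
    · exfalso
      apply hx
      have h1 : a c d ≠ 0 := left_ne_zero_of_mul (left_ne_zero_of_mul hx)
      have h2 := one_le_nm' (hi c d h1) hc
      have h3 := le_PP (HS.z w + (cmK K).em (d / c)) (HS.v_pos w)
      have h4 : 0 < ∏ j, HS.v w j := Finset.prod_pos fun j _ => HS.v_pos w j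
      have h5 : ¬ (cmK K).QQ w c d ≤ X := by
        rw [(cmK K).QQ_eq w hc, not_le]
        nlinarith
      simp only [if_neg h5, mul_zero]

theorem E0_eq_zero {k : ℕ} {a : K → K → ℂ} (hi : ∀ d, a 0 d ≠ 0 → IsIntegral ℤ d ∧ d ≠ 0)
    {X : ℝ} {v : io K → ℝ} (hv : ∀ j, 0 < v j) (h : X < (∏ j, v j)⁻¹) : E0 k a X v = 0 := by
  unfold E0
  refine (tsum_congr fun d => ?_).trans tsum_zero
  by_cases h1 : a 0 d = 0
  · simp [h1]
  · have h2 := one_le_nm' (hi d h1).1 (hi d h1).2
    have h4 : 0 < ∏ j, v j := Finset.prod_pos fun j _ => hv j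
    have h5 : ¬ nm d / ∏ j, v j ≤ X := by
      rw [not_le, div_eq_mul_inv]
      exact h.trans_le (le_mul_of_one_le_left (by positivity) h2)
    simp only [if_neg h5, mul_zero]

theorem measurable_E0 {k : ℕ} (hb : Measurable (bet K k)) (a : K → K → ℂ) (X : ℝ) :
    Measurable (E0 k a X) := by
  unfold E0
  refine Measurable.tsum fun d => (measurable_const.mul (Complex.measurable_ofReal.comp
    (hb.comp (measurable_const.div measurable_id)))).mul
    (Measurable.ite ?_ measurable_const measurable_const)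
  exact measurableSet_le (measurable_const.div
    (Finset.measurable_prod _ fun j _ => measurable_pi_apply j)) measurable_const

/-- row functions on integral rows -/
structure IAdm (k : ℕ) (a : K → K → ℂ) : Prop where
  adm : Adm k a
  per : Per (Lat (lv K k)) a
  int : ∀ c d, a c d ≠ 0 → IsIntegral ℤ c ∧ IsIntegral ℤ d

section strip

variable {k : ℕ} {V : Subgroup Kˣ} {κ : ℝ} (hb : Part V κ (bet K k)) (hE : EIS K)
  {a : K → K → ℂ} (ha : IAdm k a)

include hb hE ha

theorem Es_bdd (X : ℝ) {Y : ℝ} (hY : 0 < Y) :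
    ∃ M : ℝ, ∀ w : HK K, cut K k Y (HS.v w) ≠ 0 → ‖Es k a X w‖ ≤ M := by
  obtain ⟨C, hC1, hC⟩ := cut_bal hb
  obtain ⟨C', hC1', hC'⟩ := cut_lower hb
  set δ : ℝ := min (Y ^ (-(Fintype.card (io K) : ℝ)⁻¹) / C') (C * max X 1)⁻¹ with hδ
  have hδ0 : 0 < δ := lt_min (by positivity) (by positivity)
  obtain ⟨M1, hM1⟩ := hE.2.2.2.2.1 k a ha.adm.toBnd δ X hδ0
  obtain ⟨M2, hM2⟩ := hE.2.2.2.2.2 k a ha.adm.toBnd
  refine ⟨max M1 M2, fun w hw => ?_⟩
  by_cases h : X < ∏ j, HS.v w j
  · rw [Es_eq_E0 (fun c d h => (ha.int c d h).1) h]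
    exact (hM2 X _ (HS.v_pos w)).trans (le_max_right _ _)
  · refine (hM1 X le_rfl w fun j => ⟨(min_le_left _ _).trans
      (hC' Y _ hY (HS.v_pos w) hw j), ?_⟩).trans (le_max_left _ _)
    have h1 := (hC Y _ (HS.v_pos w) hw).2
    have hj := HS.v_pos w j
    have h2 : HS.v w j ^ Fintype.card (io K) ≤ (C * max X 1) ^ Fintype.card (io K) := by
      calc HS.v w j ^ Fintype.card (io K) = ∏ _i : io K, HS.v w j := by
            rw [Finset.prod_const, Finset.card_univ]
        _ ≤ ∏ i : io K, C * HS.v w i :=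
            Finset.prod_le_prod (fun _ _ => hj.le) fun i _ => h1 j i
        _ = C ^ Fintype.card (io K) * ∏ i, HS.v w i := by
            rw [Finset.prod_mul_distrib, Finset.prod_const, Finset.card_univ]
        _ ≤ C ^ Fintype.card (io K) * max X 1 ^ Fintype.card (io K) := by
            refine mul_le_mul_of_nonneg_left ((not_lt.1 h).trans ((le_max_left X 1).trans ?_))
              (by positivity)
            exact le_self_pow₀ (le_max_right _ _) (card_pos (K := K)).ne'
        _ = _ := (mul_pow _ _ _).symm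
    have h3 := (pow_le_pow_iff_left₀ hj.le (by positivity) (card_pos (K := K)).ne').1 h2
    refine h3.trans ?_
    rw [le_inv_comm₀ (by positivity) hδ0]
    exact min_le_right _ _

theorem integrable_strip {A : Set (io K → ℂ)} (hA : IsCell (lv K k) A) (X : ℝ) {Y : ℝ}
    (hY : 0 < Y) : Integrable (fun w : HK K => (cut K k Y (HS.v w) : ℂ) * conj (Es k a X w))
      ((cmK K).mu.restrict (HS.z ⁻¹' A)) := by
  obtain ⟨M, hM⟩ := Es_bdd hb hE ha X hY
  have hm : Measurable fun w : HK K => cut K k Y (HS.v w) :=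
    (measurable_cut hb Y).comp HS.continuous_v.measurable
  have h1 : Integrable (fun w : HK K => cut K k Y (HS.v w))
      ((cmK K).mu.restrict (HS.z ⁻¹' A)) := by
    rw [← (mp_strip hA.1).integrable_comp hm.aestronglyMeasurable]
    have : IsFiniteMeasure (volume.restrict A) := ⟨by
      rw [Measure.restrict_apply_univ]; exact hA.2.1.measure_lt_top⟩
    refine ((integrable_cut hb hY).comp_snd (volume.restrict A)).congr ?_
    filter_upwards [Measure.quasiMeasurePreserving_snd.ae (ae_nuP_pos (ι := io K))] with p hp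
    simp only [Function.comp, (cmK K).pt_v _ hp]
  refine (h1.mul_const M).mono' ((Complex.measurable_ofReal.comp hm).mul
    (Complex.continuous_conj.measurable.comp (hE.1 k a X))).aestronglyMeasurable
    (Eventually.of_forall fun w => ?_)
  rw [norm_mul, Complex.norm_real, Real.norm_of_nonneg (cut_nonneg hb Y _), Complex.norm_conj]
  by_cases h : cut K k Y (HS.v w) = 0
  · simp [h]
  · exact mul_le_mul_of_nonneg_left (hM w h) (cut_nonneg hb Y _)

omit hb hE ha in
theorem zero_mem_Dual (m : K) : (0 : K) ∈ Dual m := fun t _ => by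
  rw [zero_mul, eT, trR_zero, ee_zero]

/-- the integral over the strip -/
theorem strip_eq (hF : FOUR K) {A : Set (io K → ℂ)} (hA : IsCell (lv K k) A) :
    ∃ C : ℝ, ∀ X Y : ℝ, 0 < X → 0 < Y →
      ‖∫ w in HS.z ⁻¹' A, (cut K k Y (HS.v w) : ℂ) * conj (Es k a X w) ∂(cmK K).mu -
        conj ((ker0 hb).sm (Sg k (Lat (lv K k)) a 0) (X * Y))‖ ≤ C * min X Y ^ 2 := by
  obtain ⟨hT, -, h4⟩ := hF _ (lv_ne k) A hA k a ha.adm ha.per 0 (zero_mem_Dual _)
  obtain ⟨M, hM⟩ := hE.2.2.2.2.2 k a ha.adm.toBnd
  obtain ⟨C, hC⟩ := cut_meas_le hb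
  have hM0 : 0 ≤ M := (norm_nonneg _).trans (hM 0 (fun _ => 1) fun _ => one_pos)
  refine ⟨(volume A).toReal * (M * max C 0), fun X Y hX hY => ?_⟩
  set T := Sg k (Lat (lv K k)) a 0 with hTdef
  have hi := integrable_strip hb hE ha hA X hY
  have hm : Measurable fun w : HK K => (cut K k Y (HS.v w) : ℂ) * conj (Es k a X w) :=
    (Complex.measurable_ofReal.comp ((measurable_cut hb Y).comp HS.continuous_v.measurable)).mul
      (Complex.continuous_conj.measurable.comp (hE.1 k a X))
  obtain ⟨g1, g2⟩ := main_eq hb hT hX hY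
  have hm2 : Measurable fun w : HK K =>
      T (X / PP (HS.z w) (HS.v w)) * (cut K k Y (HS.v w) : ℂ) :=
    (hT.1.comp (measurable_const.div measurable_PPw)).mul (Complex.measurable_ofReal.comp
      ((measurable_cut hb Y).comp HS.continuous_v.measurable))
  have g3 := ((cmK K).measurePreserving_pt.integrable_comp hm2.aestronglyMeasurable).2 g1
  have g3' := ((mp_strip hA.1).integrable_comp hm.aestronglyMeasurable).2 hi
  rw [Function.comp_def] at g3 g3'
  have g4 : (ker0 hb).sm T (X * Y) =
      ∫ v, (cut K k Y v : ℂ) * (∫ z, T (X / PP z v)) ∂(nuP (io K)) := by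
    rw [← g2, ← (cmK K).measurePreserving_pt.map_eq, integral_map
      (cmK K).measurable_pt.aemeasurable hm2.aestronglyMeasurable, integral_prod_symm _ g3]
    refine integral_congr_ae ?_
    filter_upwards [ae_nuP_pos (ι := io K)] with v hv
    simp only [CM.pt_z, (cmK K).pt_v _ hv]
    rw [integral_mul_const, mul_comm]
  have g5 : Integrable (fun v => (cut K k Y v : ℂ) * (∫ z, T (X / PP z v))) (nuP (io K)) := by
    refine g3.integral_prod_right.congr ?_
    filter_upwards [ae_nuP_pos (ι := io K)] with v hv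
    simp only [CM.pt_z, (cmK K).pt_v _ hv]
    rw [integral_mul_const, mul_comm]
  have hE0 : Integrable (fun v => (cut K k Y v : ℂ) * E0 k a X v) (nuP (io K)) := by
    refine ((integrable_cut hb hY).mul_const M).mono' ((Complex.measurable_ofReal.comp
      (measurable_cut hb Y)).mul (measurable_E0 hb.meas a X)).aestronglyMeasurable ?_
    filter_upwards [ae_nuP_pos (ι := io K)] with v hv
    rw [norm_mul, Complex.norm_real, Real.norm_of_nonneg (cut_nonneg hb Y _)]
    exact mul_le_mul_of_nonneg_left (hM X v hv) (cut_nonneg hb Y _)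
  have g6 : ∫ w in HS.z ⁻¹' A, (cut K k Y (HS.v w) : ℂ) * conj (Es k a X w) ∂(cmK K).mu =
      conj (((volume A).toReal : ℂ) * (∫ v, (cut K k Y v : ℂ) * E0 k a X v ∂(nuP (io K))) +
        (ker0 hb).sm T (X * Y)) := by
    rw [← (mp_strip hA.1).map_eq, integral_map (cmK K).measurable_pt.aemeasurable
      hm.aestronglyMeasurable, integral_prod_symm _ g3', g4,
      ← integral_const_mul, ← integral_add (hE0.const_mul _) g5, ← integral_conj]
    refine integral_congr_ae ?_
    filter_upwards [ae_nuP_pos (ι := io K)] with v hv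
    have h5 := (h4 X v hv).2
    simp only [CM.ch_zero_left, map_one, mul_one, if_true] at h5
    simp only [(cmK K).pt_v _ hv]
    rw [integral_const_mul, integral_conj, h5]
    simp only [map_add, map_mul, conj_ofReal]
    ring
  rw [g6, map_add, add_sub_cancel_right, Complex.norm_conj, norm_mul, Complex.norm_real,
    Real.norm_of_nonneg ENNReal.toReal_nonneg, mul_assoc]
  refine mul_le_mul_of_nonneg_left ?_ ENNReal.toReal_nonneg
  have hZ : 0 < min X Y := lt_min hX hY
  have hms : MeasurableSet {v | cut K k (min X Y) v ≠ 0} :=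
    (measurable_cut hb _ (measurableSet_singleton 0)).compl
  have hfin := ((hC _ hZ).trans_lt ENNReal.ofReal_lt_top).ne
  have h6 : Integrable ({v | cut K k (min X Y) v ≠ 0}.indicator fun _ => M) (nuP (io K)) :=
    (integrable_indicator_iff hms).2 (integrableOn_const hfin)
  refine (norm_integral_le_of_norm_le h6 ?_).trans ?_
  · filter_upwards [ae_nuP_pos (ι := io K)] with v hv
    by_cases h : (cut K k Y v : ℂ) * E0 k a X v = 0
    · rw [h, norm_zero]; exact Set.indicator_nonneg (fun _ _ => hM0) _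
    · have h7 : cut K k Y v ≠ 0 := by exact_mod_cast left_ne_zero_of_mul h
      have h8 : (∏ j, v j)⁻¹ ≤ X := by
        by_contra h9
        refine right_ne_zero_of_mul h (E0_eq_zero (fun d hd => ⟨(ha.int 0 d hd).2, ?_⟩) hv
          (not_le.1 h9))
        obtain ⟨j, hj⟩ := ha.adm.supp
        exact (hj 0 d hd).ne.resolve_left (fun h => h rfl)
      have h9 : cut K k (min X Y) v ≠ 0 := by
        unfold cut at h7 ⊢
        have h10 : (∏ j, v j)⁻¹ ≤ Y := by
          by_contra h11
          exact right_ne_zero_of_mul h7 (if_neg h11)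
        rw [if_pos (le_min h8 h10), mul_one]
        exact left_ne_zero_of_mul h7
      rw [Set.indicator_of_mem (show v ∈ {v | cut K k (min X Y) v ≠ 0} from h9), norm_mul,
        Complex.norm_real, Real.norm_of_nonneg (cut_nonneg hb Y _)]
      exact (mul_le_of_le_one_left (norm_nonneg _) (cut_le_one hb Y v)).trans (hM X v hv)
  · rw [integral_indicator hms, setIntegral_const, smul_eq_mul, mul_comm, mul_assoc]
    refine mul_le_mul_of_nonneg_left ?_ hM0
    refine ENNReal.toReal_le_of_le_ofReal (by positivity) ((hC _ hZ).trans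
      (ENNReal.ofReal_le_ofReal ?_))
    exact mul_le_mul_of_nonneg_right (le_max_left _ _) (sq_nonneg _)

end strip

end Vale.Agent.P016Z.TH
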