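import Vale.Agent.P016Z.TH.Emb
import Vale.Agent.P006.SG.FLem
import Vale.Agent.P006.SG.Num
import Mathlib.Analysis.SpecialFunctions.Gaussian.FourierTransform
import Mathlib.MeasureTheory.Measure.Lebesgue.Complex
import Mathlib.MeasureTheory.Integral.Pi

/-!
P016, block THETA: the Jacquet integral `∫ ((|z|² + v²)/v)^{-4/3} e(-Tr(a z)) dz`.
-/

namespace Vale.Agent.P016Z.TH

open MeasureTheory Set Filter Complex Finset
open scoped Real
open Vale.Agent.P006

/-- the Whittaker function at one place -/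
noncomputable def Wh (a : ℂ) (v : ℝ) : ℝ := v ^ (2 / 3 : ℝ) * SG.G ((2 * π * ‖a‖ * v) ^ 2)

/-- `(|z|² + v²)/v` -/
noncomputable def P1 (z : ℂ) (v : ℝ) : ℝ := (normSq z + v ^ 2) / v

/-- the constant `π / Γ(4/3)` -/
noncomputable def cJ : ℝ := π / Real.Gamma (4 / 3)

theorem cJ_pos : 0 < cJ := div_pos Real.pi_pos (Real.Gamma_pos_of_pos (by norm_num))

theorem G_pos' {y : ℝ} (hy : 0 ≤ y) : 0 < SG.G y := by
  rcases hy.lt_or_eq with h | h
  · exact SG.G_pos h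
  · subst h
    unfold SG.G SG.F SG.fker
    have := Real.Gamma_eq_integral (s := 1 / 3) (by norm_num)
    have h2 := Real.Gamma_pos_of_pos (s := 1 / 3) (by norm_num)
    rw [this] at h2
    simpa [mul_comm] using h2

theorem Wh_pos (a : ℂ) {v : ℝ} (hv : 0 < v) : 0 < Wh a v :=
  mul_pos (Real.rpow_pos_of_pos hv _) (G_pos' (sq_nonneg _))

theorem Wh_le_exp : ∃ K : ℝ, 0 ≤ K ∧ ∀ (a : ℂ) (v : ℝ), 0 < v →
    Wh a v ≤ K * v ^ (2 / 3 : ℝ) * Real.exp (-(2 * π * ‖a‖ * v)) := by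
  obtain ⟨K, hK, h⟩ := SG.F_le_exp (a := 1 / 3) (by norm_num)
  refine ⟨K, hK, fun a v hv => ?_⟩
  have h1 := h ((2 * π * ‖a‖ * v) ^ 2) (sq_nonneg _)
  rw [Real.sqrt_sq (by positivity)] at h1
  unfold Wh SG.G
  calc _ ≤ v ^ (2 / 3 : ℝ) * (K * Real.exp (-(2 * π * ‖a‖ * v))) := by gcongr
    _ = _ := by ring

theorem continuousOn_Wh (a : ℂ) : ContinuousOn (Wh a) (Ioi 0) := by
  unfold Wh
  refine ContinuousOn.mul (continuousOn_id.rpow_const fun x hx => Or.inl (ne_of_gt hx)) ?_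
  exact SG.continuousOn_G.comp (by fun_prop) fun x _ => Set.mem_Ici.2 (sq_nonneg _)

theorem measurable_G : Measurable SG.G := by
  have h : Measurable fun p : ℝ × ℝ => SG.fker (1 / 3) p.1 p.2 := by
    unfold SG.fker; fun_prop
  exact (h.stronglyMeasurable.integral_prod_right'
    (ν := volume.restrict (Ioi (0 : ℝ)))).measurable

theorem measurable_Wh (a : ℂ) : Measurable (Wh a) := by
  unfold Wh
  exact (measurable_id.pow_const _).mul (measurable_G.comp (by fun_prop))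

theorem le_P1 (z : ℂ) {v : ℝ} (hv : 0 < v) : v ≤ P1 z v := by
  rw [P1, le_div_iff₀ hv]
  have := normSq_nonneg z
  nlinarith

theorem P1_pos (z : ℂ) {v : ℝ} (hv : 0 < v) : 0 < P1 z v := hv.trans_le (le_P1 z hv)

@[fun_prop] theorem measurable_P1 : Measurable fun p : ℂ × ℝ => P1 p.1 p.2 := by
  unfold P1
  exact ((continuous_normSq.measurable.comp measurable_fst).add
    (measurable_snd.pow_const 2)).div measurable_snd

theorem gauss_ft {t : ℝ} (ht : 0 < t) (a : ℂ) :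
    ∫ z : ℂ, ((Real.exp (-(t * normSq z)) : ℝ) : ℂ) * ee (-(2 * (a * z).re)) =
      ((π / t * Real.exp (-(4 * π ^ 2 * ‖a‖ ^ 2 / t)) : ℝ) : ℂ) := by
  have hre : 0 < ((t : ℂ)).re := by simpa using ht
  have h := GaussianFourier.integral_cexp_neg_mul_sq_norm_add (V := ℂ) hre
    (-(4 * π * I)) ((starRingEnd ℂ) a)
  have e1 : ∀ z : ℂ, ((Real.exp (-(t * normSq z)) : ℝ) : ℂ) * ee (-(2 * (a * z).re)) =
      Complex.exp (-(t : ℂ) * ‖z‖ ^ 2 + -(4 * π * I) * inner ℝ ((starRingEnd ℂ) a) z) := by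
    intro z
    rw [ee, Complex.ofReal_exp, ← Complex.exp_add]
    congr 1
    rw [Complex.inner, normSq_eq_norm_sq]
    simp only [Complex.conj_conj]
    rw [mul_comm z a]
    push_cast
    ring
  rw [integral_congr_ae (Eventually.of_forall e1), h]
  have e2 : ((Module.finrank ℝ ℂ : ℂ) / 2) = 1 := by
    rw [Complex.finrank_real_complex]; norm_num
  rw [e2, Complex.cpow_one, Complex.norm_conj]
  have ht' : (t : ℂ) ≠ 0 := by exact_mod_cast ht.ne'
  push_cast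
  congr 2
  have : I ^ 2 = -1 := I_sq
  field_simp
  linear_combination ((‖a‖ : ℂ) ^ 2) * this

theorem integrable_gauss {t : ℝ} (ht : 0 < t) :
    Integrable fun z : ℂ => Real.exp (-(t * normSq z)) := by
  have hre : 0 < ((t : ℂ)).re := by simpa using ht
  have h := (GaussianFourier.integrable_cexp_neg_mul_sq_norm_add (V := ℂ) hre 0 0).norm
  refine h.congr (Eventually.of_forall fun z => ?_)
  simp only [zero_mul, add_zero]
  rw [Complex.norm_exp, normSq_eq_norm_sq]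
  congr 1
  have : (-(t : ℂ) * (‖z‖ : ℂ) ^ 2) = ((-(t * ‖z‖ ^ 2) : ℝ) : ℂ) := by push_cast; ring
  rw [this, ofReal_re]

theorem integral_gauss {t : ℝ} (ht : 0 < t) :
    ∫ z : ℂ, Real.exp (-(t * normSq z)) = π / t := by
  have h := gauss_ft ht 0
  simp only [zero_mul, zero_re, mul_zero, neg_zero, ee_zero, mul_one, norm_zero] at h
  rw [integral_complex_ofReal] at h
  have h2 := ofReal_injective h
  simpa using h2

theorem rpow_eq_int {p : ℝ} (hp : 0 < p) :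
    ∫ s in Ioi (0 : ℝ), s ^ ((4 / 3 : ℝ) - 1) * Real.exp (-(p * s)) =
      Real.Gamma (4 / 3) * p ^ (-(4 / 3) : ℝ) := by
  rw [Real.integral_rpow_mul_exp_neg_mul_Ioi (by norm_num) hp, one_div, Real.inv_rpow hp.le,
    Real.rpow_neg hp.le, mul_comm]

theorem split_exp (z : ℂ) {v : ℝ} (hv : 0 < v) (s : ℝ) :
    Real.exp (-(P1 z v * s)) = Real.exp (-(v * s)) * Real.exp (-(s / v * normSq z)) := by
  rw [← Real.exp_add, P1]; congr 1; field_simp; ring

theorem integrable_joint {v : ℝ} (hv : 0 < v) :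
    Integrable (fun p : ℝ × ℂ => p.1 ^ ((4 / 3 : ℝ) - 1) * Real.exp (-(P1 p.2 v * p.1)))
      ((volume.restrict (Ioi (0 : ℝ))).prod volume) := by
  have hm : Measurable fun p : ℝ × ℂ =>
      p.1 ^ ((4 / 3 : ℝ) - 1) * Real.exp (-(P1 p.2 v * p.1)) := by
    have : Measurable fun p : ℝ × ℂ => P1 p.2 v :=
      measurable_P1.comp (measurable_snd.prodMk measurable_const)
    fun_prop
  rw [integrable_prod_iff hm.aestronglyMeasurable]
  constructor
  · refine (ae_restrict_iff' measurableSet_Ioi).2 (Eventually.of_forall fun s hs => ?_)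
    have hs : (0 : ℝ) < s := hs
    simp only [split_exp _ hv, ← mul_assoc]
    exact (integrable_gauss (div_pos hs hv)).const_mul _
  · have h1 : IntegrableOn (fun s : ℝ => (π * v) * (s ^ ((1 / 3 : ℝ) - 1) *
        Real.exp (-v * s ^ (1 : ℝ)))) (Ioi 0) :=
      (integrableOn_rpow_mul_exp_neg_mul_rpow (by norm_num) one_pos hv).const_mul _
    refine h1.congr_fun (fun s hs => ?_) measurableSet_Ioi
    have hs : (0 : ℝ) < s := hs
    have e : ∀ z : ℂ, ‖s ^ ((4 / 3 : ℝ) - 1) * Real.exp (-(P1 z v * s))‖ =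
        (s ^ ((4 / 3 : ℝ) - 1) * Real.exp (-(v * s))) * Real.exp (-(s / v * normSq z)) := by
      intro z
      rw [Real.norm_of_nonneg (by positivity), split_exp _ hv, mul_assoc]
    simp only [e]
    rw [integral_const_mul, integral_gauss (div_pos hs hv), Real.rpow_one]
    have h2 : s ^ ((4 / 3 : ℝ) - 1) = s ^ ((1 / 3 : ℝ) - 1) * s := by
      rw [← Real.rpow_add_one hs.ne']; norm_num
    rw [h2, neg_mul]
    field_simp

theorem Gamma43_pos : 0 < Real.Gamma (4 / 3) := Real.Gamma_pos_of_pos (by norm_num)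

theorem integrable_P1 {v : ℝ} (hv : 0 < v) :
    Integrable fun z : ℂ => P1 z v ^ (-(4 / 3) : ℝ) := by
  have h := ((integrable_joint hv).integral_prod_right).const_mul (Real.Gamma (4 / 3))⁻¹
  refine h.congr (Eventually.of_forall fun z => ?_)
  simp only []
  rw [rpow_eq_int (P1_pos z hv), ← mul_assoc, inv_mul_cancel₀ Gamma43_pos.ne', one_mul]

/-- the Jacquet integral at one place -/
theorem jac1 (a : ℂ) {v : ℝ} (hv : 0 < v) :
    ∫ z : ℂ, ((P1 z v ^ (-(4 / 3) : ℝ) : ℝ) : ℂ) * ee (-(2 * (a * z).re)) =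
      ((cJ * Wh a v : ℝ) : ℂ) := by
  have hG := Gamma43_pos
  have hint : Integrable (fun p : ℝ × ℂ =>
      ((p.1 ^ ((4 / 3 : ℝ) - 1) * Real.exp (-(P1 p.2 v * p.1)) : ℝ) : ℂ) *
        ee (-(2 * (a * p.2).re))) ((volume.restrict (Ioi (0 : ℝ))).prod volume) := by
    refine (integrable_joint hv).ofReal.mul_bdd (c := 1) ?_
      (Eventually.of_forall fun p => (norm_ee _).le)
    exact (continuous_ee.comp (by fun_prop)).aestronglyMeasurable
  have h1 : ∀ z : ℂ, ((P1 z v ^ (-(4 / 3) : ℝ) : ℝ) : ℂ) * ee (-(2 * (a * z).re)) =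
      (((Real.Gamma (4 / 3))⁻¹ : ℝ) : ℂ) * ∫ s in Ioi (0 : ℝ),
        ((s ^ ((4 / 3 : ℝ) - 1) * Real.exp (-(P1 z v * s)) : ℝ) : ℂ) *
          ee (-(2 * (a * z).re)) := by
    intro z
    rw [integral_mul_const, integral_complex_ofReal, rpow_eq_int (P1_pos z hv), ← mul_assoc,
      ← ofReal_mul, ← mul_assoc, inv_mul_cancel₀ hG.ne', one_mul]
  simp only [h1]
  rw [integral_const_mul, ← integral_integral_swap hint]
  have h2 : ∫ s in Ioi (0 : ℝ), ∫ z : ℂ,
      ((s ^ ((4 / 3 : ℝ) - 1) * Real.exp (-(P1 z v * s)) : ℝ) : ℂ) * ee (-(2 * (a * z).re)) =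
      ∫ s in Ioi (0 : ℝ), ((π * v * (s ^ ((1 / 3 : ℝ) - 1) *
        Real.exp (-(v * s) - 4 * π ^ 2 * ‖a‖ ^ 2 * v / s)) : ℝ) : ℂ) := by
    refine setIntegral_congr_fun measurableSet_Ioi fun s hs => ?_
    have hs : (0 : ℝ) < s := hs
    simp only [split_exp _ hv, ← mul_assoc]
    simp only [ofReal_mul _ (Real.exp (-(s / v * normSq _))), mul_assoc _ (ofReal (Real.exp
      (-(s / v * normSq _))))]
    rw [integral_const_mul, gauss_ft (div_pos hs hv), ← ofReal_mul]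
    congr 1
    have h2 : s ^ ((4 / 3 : ℝ) - 1) = s ^ ((1 / 3 : ℝ) - 1) * s := by
      rw [← Real.rpow_add_one hs.ne']; norm_num
    have h3 : 4 * π ^ 2 * ‖a‖ ^ 2 / (s / v) = 4 * π ^ 2 * ‖a‖ ^ 2 * v / s := by field_simp
    rw [h2, h3, sub_eq_add_neg (-(v * s)), Real.exp_add]
    field_simp
  rw [h2, integral_complex_ofReal, integral_const_mul, SG.integral_scale hv, ← ofReal_mul]
  congr 1
  have h4 : v * (4 * π ^ 2 * ‖a‖ ^ 2 * v) = (2 * π * ‖a‖ * v) ^ 2 := by ring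
  have h5 : v ^ (2 / 3 : ℝ) = v * v ^ (-(1 / 3) : ℝ) := by
    rw [mul_comm, ← Real.rpow_add_one hv.ne']; norm_num
  rw [h4, cJ, Wh, SG.G, h5]
  field_simp

variable {ι : Type} [Fintype ι]

/-- `∏ (|z_j|² + v_j²)/v_j` -/
noncomputable def PP (z : ι → ℂ) (v : ι → ℝ) : ℝ := ∏ j, P1 (z j) (v j)

/-- the Whittaker function -/
noncomputable def WW (a : ι → ℂ) (v : ι → ℝ) : ℝ := ∏ j, Wh (a j) (v j)

theorem PP_pos (z : ι → ℂ) {v : ι → ℝ} (hv : ∀ j, 0 < v j) : 0 < PP z v :=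
  prod_pos fun j _ => P1_pos _ (hv j)

theorem le_PP (z : ι → ℂ) {v : ι → ℝ} (hv : ∀ j, 0 < v j) : ∏ j, v j ≤ PP z v :=
  prod_le_prod (fun j _ => (hv j).le) fun j _ => le_P1 _ (hv j)

theorem WW_pos (a : ι → ℂ) {v : ι → ℝ} (hv : ∀ j, 0 < v j) : 0 < WW a v :=
  prod_pos fun j _ => Wh_pos _ (hv j)

theorem measurable_PP : Measurable fun p : (ι → ℂ) × (ι → ℝ) => PP p.1 p.2 := by
  unfold PP
  refine Finset.measurable_prod _ fun j _ => ?_
  have h : Measurable fun p : (ι → ℂ) × (ι → ℝ) => ((p.1 j, p.2 j) : ℂ × ℝ) := by fun_prop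
  exact measurable_P1.comp h

theorem measurable_WW (a : ι → ℂ) : Measurable (WW a) := by
  unfold WW
  exact Finset.measurable_prod _ fun j _ => (measurable_Wh _).comp (measurable_pi_apply j)

theorem PP_rpow (z : ι → ℂ) {v : ι → ℝ} (hv : ∀ j, 0 < v j) (s : ℝ) :
    PP z v ^ s = ∏ j, P1 (z j) (v j) ^ s :=
  (Real.finsetProd_rpow _ _ (fun j _ => (P1_pos _ (hv j)).le) s).symm

theorem integrable_PP {v : ι → ℝ} (hv : ∀ j, 0 < v j) :
    Integrable fun z : ι → ℂ => PP z v ^ (-(4 / 3) : ℝ) := by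
  simp only [PP_rpow _ hv]
  exact Integrable.fintype_prod (f := fun j (z : ℂ) => P1 z (v j) ^ (-(4 / 3) : ℝ))
    fun j => integrable_P1 (hv j)

/-- the Jacquet integral -/
theorem jac (a : ι → ℂ) {v : ι → ℝ} (hv : ∀ j, 0 < v j) :
    ∫ z : ι → ℂ, ((PP z v ^ (-(4 / 3) : ℝ) : ℝ) : ℂ) * ee (-pr a z) =
      ((cJ ^ Fintype.card ι * WW a v : ℝ) : ℂ) := by
  have e : ∀ z : ι → ℂ, ((PP z v ^ (-(4 / 3) : ℝ) : ℝ) : ℂ) * ee (-pr a z) =
      ∏ j, (((P1 (z j) (v j) ^ (-(4 / 3) : ℝ) : ℝ) : ℂ) * ee (-(2 * (a j * z j).re))) := by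
    intro z
    rw [PP_rpow _ hv, pr, ← sum_neg_distrib, ee_sum, prod_mul_distrib, ofReal_prod]
  simp only [e]
  rw [integral_fintype_prod_volume_eq_prod (f := fun j (z : ℂ) =>
    ((P1 z (v j) ^ (-(4 / 3) : ℝ) : ℝ) : ℂ) * ee (-(2 * (a j * z).re)))]
  simp only [fun j => jac1 (a j) (hv j)]
  rw [← ofReal_prod, prod_mul_distrib, prod_const, card_univ, WW]

theorem integral_PP {v : ι → ℝ} (hv : ∀ j, 0 < v j) :
    ∫ z : ι → ℂ, PP z v ^ (-(4 / 3) : ℝ) = cJ ^ Fintype.card ι * WW 0 v := by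
  have h := jac (0 : ι → ℂ) hv
  simp only [pr_zero_left, neg_zero, ee_zero, mul_one] at h
  rw [integral_complex_ofReal] at h
  exact ofReal_injective h

theorem WW_zero (v : ι → ℝ) (hv : ∀ j, 0 < v j) :
    WW 0 v = SG.G 0 ^ Fintype.card ι * (∏ j, v j) ^ (2 / 3 : ℝ) := by
  rw [WW, ← Real.finsetProd_rpow _ _ (fun j _ => (hv j).le), ← card_univ, ← prod_const,
    ← prod_mul_distrib]
  refine prod_congr rfl fun j _ => ?_
  simp [Wh, mul_comm]

end Vale.Agent.P016Z.TH
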