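import Vale.Agent.P016Z.TH.LimA

/-!
P016, block THETA: the limit function and its Fourier coefficients (blocks LIM and LIM0).
-/

namespace Vale.Agent.P016Z.TH

open MeasureTheory Set Filter Complex Finset NumberField Topology Module
open scoped ENNReal ComplexConjugate
open Vale.Agent.P006 Vale.Agent.P006.H9

namespace CM

variable {K : Type} [Field K] [NumberField K] {ι : Type} [Fintype ι] (C : CM K ι)
  {m : K} (hm : m ≠ 0)

/-- Fourier coefficients on a strip -/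
noncomputable def cf (B : Set (ι → ℝ)) (H : (ι → ℂ) × (ι → ℝ) → ℂ) (ν : K) : ℂ :=
  ∫ p, H p * conj (C.ch ν p.1) ∂mz (C.cel hm) B

omit [NumberField K] in
theorem measurable_cc (ν : K) : Measurable fun p : (ι → ℂ) × (ι → ℝ) => conj (C.ch ν p.1) :=
  (continuous_conj.comp ((C.continuous_ch ν).comp continuous_fst)).measurable

variable {a b : ℝ} (ha : 0 < a) {B : Set (ι → ℝ)} (hB : MeasurableSet B) (hab : B ⊆ vb ι a b)

include ha hab in
theorem finite_mz : IsFiniteMeasure (mz (C.cel hm) B) := by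
  have := finite_nuP ha hab
  unfold mz
  infer_instance

theorem mz_mono {B' : Set (ι → ℝ)} (h : B' ⊆ B) (f : (ι → ℂ) × (ι → ℝ) → ℝ≥0∞) :
    ∫⁻ p, f p ∂mz (C.cel hm) B' ≤ ∫⁻ p, f p ∂mz (C.cel hm) B := by
  rw [mz, mz, Measure.prod_restrict, Measure.prod_restrict]
  exact lintegral_mono_set (Set.prod_mono subset_rfl h)

include hB in
theorem ae_mz {Z : Set (ι → ℂ)} : ∀ᵐ p ∂mz Z B, p.2 ∈ B :=
  Measure.quasiMeasurePreserving_snd.ae (ae_restrict_mem hB)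

include ha hab in
theorem integrable_cf {H : (ι → ℂ) × (ι → ℝ) → ℂ} (hH : Measurable H)
    (h2 : ∫⁻ p, ‖H p‖ₑ ^ 2 ∂mz (C.cel hm) B ≠ ∞) (ν : K) :
    Integrable (fun p => H p * conj (C.ch ν p.1)) (mz (C.cel hm) B) := by
  have := C.finite_mz hm ha hab
  refine (integrable_of_sq hH h2).mul_bdd (c := 1) (C.measurable_cc ν).aestronglyMeasurable
    (Eventually.of_forall fun p => ?_)
  rw [norm_conj, norm_ch]

include ha hab in
theorem cf_eq {H : (ι → ℂ) × (ι → ℝ) → ℂ} (hH : Measurable H)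
    (h2 : ∫⁻ p, ‖H p‖ₑ ^ 2 ∂mz (C.cel hm) B ≠ ∞) (ν : K) :
    C.cf hm B H ν = ∫ v in B, (∫ z in C.cel hm, H (z, v) * conj (C.ch ν z)) ∂nuP ι :=
  integral_prod_symm _ (C.integrable_cf hm ha hab hH h2 ν)

include ha hab in
theorem cf_sub {H H' : (ι → ℂ) × (ι → ℝ) → ℂ} (hH : Measurable H)
    (h2 : ∫⁻ p, ‖H p‖ₑ ^ 2 ∂mz (C.cel hm) B ≠ ∞) (hH' : Measurable H')
    (h2' : ∫⁻ p, ‖H' p‖ₑ ^ 2 ∂mz (C.cel hm) B ≠ ∞) (ν : K) :
    C.cf hm B (fun p => H p - H' p) ν = C.cf hm B H ν - C.cf hm B H' ν := by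
  simp only [cf, sub_mul]
  exact integral_sub (C.integrable_cf hm ha hab hH h2 ν) (C.integrable_cf hm ha hab hH' h2' ν)

include ha hab in
theorem tendsto_cf_zero {F : ℝ → (ι → ℂ) × (ι → ℝ) → ℂ} (hF : ∀ X, Measurable (F X))
    (h : Tendsto (fun X => ∫⁻ p, ‖F X p‖ₑ ^ 2 ∂mz (C.cel hm) B) atTop (𝓝 0)) (ν : K) :
    Tendsto (fun X => C.cf hm B (F X) ν) atTop (𝓝 0) := by
  have := C.finite_mz hm ha hab
  refine tendsto_integral_of_sq (fun X => (hF X).mul (C.measurable_cc ν)) (h.congr fun X => ?_)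
  refine lintegral_congr fun p => ?_
  rw [enorm_mul, ← ofReal_norm (conj _), norm_conj, norm_ch, ENNReal.ofReal_one, mul_one]

theorem measurable_coef {H : (ι → ℂ) × (ι → ℝ) → ℂ} (hH : Measurable H) (ν : K) :
    Measurable fun v => ∫ z in C.cel hm, H (z, v) * conj (C.ch ν z) :=
  ((hH.mul (C.measurable_cc ν)).stronglyMeasurable.integral_prod_left'
    (μ := (volume : Measure (ι → ℂ)).restrict (C.cel hm))).measurable

include ha hab in
theorem bessel_strip {H : (ι → ℂ) × (ι → ℝ) → ℂ} (hH : Measurable H)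
    (h2 : ∫⁻ p, ‖H p‖ₑ ^ 2 ∂mz (C.cel hm) B ≠ ∞) (s : Finset K) (hs : ∀ ν ∈ s, ν ∈ Dual m) :
    ∑ ν ∈ s, ‖C.cf hm B H ν‖ₑ ^ 2 ≤
      nuP ι B * (volume (C.cel hm) * ∫⁻ p, ‖H p‖ₑ ^ 2 ∂mz (C.cel hm) B) := by
  calc _ ≤ ∑ ν ∈ s, nuP ι B *
        ∫⁻ v in B, ‖∫ z in C.cel hm, H (z, v) * conj (C.ch ν z)‖ₑ ^ 2 ∂nuP ι := by
        refine sum_le_sum fun ν _ => ?_
        rw [C.cf_eq hm ha hab hH h2, ← Measure.restrict_apply_univ B]
        exact cs_integral (C.measurable_coef hm hH ν).aemeasurable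
    _ = nuP ι B * ∫⁻ v in B, ∑ ν ∈ s,
          ‖∫ z in C.cel hm, H (z, v) * conj (C.ch ν z)‖ₑ ^ 2 ∂nuP ι := by
        rw [← mul_sum, lintegral_finsetSum _ fun ν _ =>
          (C.measurable_coef hm hH ν).enorm.pow_const 2]
    _ ≤ nuP ι B * ∫⁻ v in B, (volume (C.cel hm) *
          ∫⁻ z in C.cel hm, ‖H (z, v)‖ₑ ^ 2) ∂nuP ι := by
        gcongr with v
        exact C.bessel hm (hH.comp measurable_prodMk_right) s hs
    _ = _ := by
        rw [lintegral_const_mul' _ _ (C.cel_ne_top hm), mz,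
          lintegral_prod_symm _ (hH.enorm.pow_const 2).aemeasurable]

include ha hB hab in
theorem complete_strip {H : (ι → ℂ) × (ι → ℝ) → ℂ} (hH : Measurable H)
    (h2 : ∫⁻ p, ‖H p‖ₑ ^ 2 ∂mz (C.cel hm) B ≠ ∞)
    (h0 : ∀ ν ∈ Dual m, ∀ B', MeasurableSet B' → B' ⊆ B → C.cf hm B' H ν = 0) :
    ∫⁻ p, ‖H p‖ₑ ^ 2 ∂mz (C.cel hm) B = 0 := by
  have : Countable K := Countable.of_equiv _ (integralBasis K).equivFun.toEquiv.symm
  have h1 : ∀ ν, ∀ᵐ v ∂(nuP ι).restrict B, ν ∈ Dual m →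
      ∫ z in C.cel hm, H (z, v) * conj (C.ch ν z) = 0 := by
    intro ν
    by_cases hν : ν ∈ Dual m
    · have hi := (C.integrable_cf hm ha hab hH h2 ν).integral_prod_right
      have h3 := hi.ae_eq_zero_of_forall_setIntegral_eq_zero fun s hs _ => by
        rw [Measure.restrict_restrict hs, ← h0 ν hν (s ∩ B) (hs.inter hB) Set.inter_subset_right,
          C.cf_eq hm ha (Set.inter_subset_right.trans hab) hH
            (ne_top_of_le_ne_top h2 (C.mz_mono hm Set.inter_subset_right _))]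
      filter_upwards [h3] with v hv _
      exact hv
    · exact Eventually.of_forall fun _ h => absurd h hν
  rw [mz, lintegral_prod_symm _ (hH.enorm.pow_const 2).aemeasurable] at h2 ⊢
  have hm2 : Measurable fun v => ∫⁻ z in C.cel hm, ‖H (z, v)‖ₑ ^ 2 :=
    (hH.enorm.pow_const 2).lintegral_prod_left'
  rw [lintegral_eq_zero_iff hm2]
  filter_upwards [ae_all_iff.2 h1, ae_lt_top hm2 h2] with v hv hv2
  exact C.complete hm (hH.comp measurable_prodMk_right) hv2.ne hv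

/-- a periodic function is controlled by its restriction to the cell -/
theorem ball_le (r : ℝ) : ∃ N : ℕ, ∀ g : (ι → ℂ) → ℝ≥0∞,
    (∀ z (t : 𝓞 K), g (z + C.em (m * t)) = g z) →
    ∫⁻ z in Metric.closedBall 0 r, g z ≤ N * ∫⁻ z in C.cel hm, g z := by
  obtain ⟨R, hR⟩ := C.cel_norm hm
  have hf := C.finite_lat hm (r + R)
  refine ⟨hf.toFinset.card, fun g hg => ?_⟩
  rw [← lintegral_indicator measurableSet_closedBall, C.lintegral_fold' hm,
    tsum_eq_sum (s := hf.toFinset), ← nsmul_eq_mul]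
  · refine sum_le_card_nsmul _ _ _ fun t _ => lintegral_mono fun z => ?_
    rw [← hg z t]
    exact indicator_le_self _ _ _
  · intro t ht
    rw [Set.Finite.mem_toFinset, Set.mem_ofPred_eq, not_le] at ht
    refine (setLIntegral_congr_fun (g := fun _ => 0) (C.measurableSet_cel hm)
      fun z hz => ?_).trans lintegral_zero
    refine indicator_of_notMem (fun h => ?_) _
    rw [mem_closedBall_zero_iff] at h
    have h1 := norm_sub_le (z + C.em (m * t)) z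
    rw [add_sub_cancel_left] at h1
    linarith [hR z hz]

variable {τ : K → ℂ} (hs : ∀ ν, τ ν ≠ 0 → ν ∈ Dual m) {A : ℝ} {p : ℕ}
  (hτ : ∀ ν, ‖τ ν‖ ≤ A * (1 + ‖C.em ν‖) ^ p)

include ha hB hab hs hτ in
theorem ser_sq : ∫⁻ q, ‖C.ser τ (C.pt q.1 q.2)‖ₑ ^ 2 ∂mz (C.cel hm) B ≠ ∞ := by
  have := C.finite_mz hm ha hab
  obtain ⟨u, hu, hb⟩ := C.exp_bound hm hs hτ ha b
  refine sq_ne_top_of_bdd (B := ∑' ν, u ν) ((ae_mz hB).mono fun q hq => ?_)
  refine tsum_of_norm_bounded hu.hasSum fun ν => ?_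
  rw [norm_mul, norm_ch, mul_one, C.pt_v _ (pos_of_mem ha hab hq)]
  exact hb ν _ (hab hq)

include hB hs hτ in
theorem cf_ser {ν : K} (hν : ν ∈ Dual m) :
    C.cf hm B (fun q => C.ser τ (C.pt q.1 q.2)) ν =
      ((C.vol hm / cJ ^ Fintype.card ι : ℝ) : ℂ) * τ ν * (C.kb ha hB hab ν).hat := by
  rw [C.cf_eq hm ha hab (H := fun q => C.ser τ (C.pt q.1 q.2))
    ((C.continuous_ser hm hs hτ).measurable.comp C.measurable_pt) (C.ser_sq hm ha hB hab hs hτ), kb_hat]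
  have e : ∫ v in B, (∫ z in C.cel hm, C.ser τ (C.pt z v) * conj (C.ch ν z)) ∂nuP ι =
      ∫ v in B, (C.vol hm * τ ν) * (WW (C.em ν) v : ℝ) ∂nuP ι := by
    refine integral_congr_ae ((ae_restrict_mem hB).mono fun v hv => ?_)
    simp only []
    rw [C.coef_ser hm hs hτ (pos_of_mem ha hab hv) hν, mul_assoc]
  rw [e, integral_const_mul, integral_complex_ofReal]
  have : (cJ : ℂ) ≠ 0 := ofReal_ne_zero.2 cJ_pos.ne'
  push_cast
  field_simp

end CM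

variable {K : Type} [Field K] [NumberField K] [Dat K]

theorem n2_Box (r a b : ℝ) {f : HK K → ℂ} (hf : Measurable f) :
    n2 (Box r (fun _ => a) fun _ => b) f = ∫⁻ q, ‖f ((cmK K).pt q.1 q.2)‖ₑ ^ 2
      ∂CM.mz (Metric.closedBall 0 r) (vb (io K) a b) := by
  rw [← (cmK K).lintegral_zv measurableSet_closedBall (measurableSet_vb a b)
    (hf.enorm.pow_const 2), n2]
  congr 2
  ext w
  simp only [Box, Set.mem_ofPred_eq, mem_closedBall_zero_iff, mem_vb]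

theorem strip_le_n2 {m : K} (hm : m ≠ 0) {R : ℝ} (hR : ∀ z ∈ (cmK K).cel hm, ‖z‖ ≤ R) (a b : ℝ)
    {f : HK K → ℂ} (hf : Measurable f) :
    ∫⁻ q, ‖f ((cmK K).pt q.1 q.2)‖ₑ ^ 2 ∂CM.mz ((cmK K).cel hm) (vb (io K) a b) ≤
      n2 (Box R (fun _ => a) fun _ => b) f := by
  rw [n2_Box R a b hf, CM.mz, CM.mz, Measure.prod_restrict, Measure.prod_restrict]
  exact lintegral_mono_set (Set.prod_mono (fun z hz => mem_closedBall_zero_iff.2 (hR z hz))
    subset_rfl)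

theorem n2_le_strip {m : K} (hm : m ≠ 0) (r : ℝ) : ∃ N : ℕ, ∀ (a b : ℝ) (f : HK K → ℂ),
    Measurable f → (∀ (t : 𝓞 K) (w : HK K), f (KU.tr (m * t) • w) = f w) →
    n2 (Box r (fun _ => a) fun _ => b) f ≤
      N * ∫⁻ q, ‖f ((cmK K).pt q.1 q.2)‖ₑ ^ 2 ∂CM.mz ((cmK K).cel hm) (vb (io K) a b) := by
  obtain ⟨N, hN⟩ := (cmK K).ball_le hm r
  refine ⟨N, fun a b f hf hp => ?_⟩
  have h : Measurable fun q : (io K → ℂ) × (io K → ℝ) => ‖f ((cmK K).pt q.1 q.2)‖ₑ ^ 2 :=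
    (hf.comp (cmK K).measurable_pt).enorm.pow_const 2
  rw [n2_Box r a b hf, CM.mz, CM.mz, lintegral_prod_symm _ h.aemeasurable,
    lintegral_prod_symm _ h.aemeasurable, ← lintegral_const_mul' _ _ (ENNReal.natCast_ne_top N)]
  refine lintegral_mono fun v => hN _ fun z t => ?_
  simp only []
  rw [← CM.tr_smul_pt, hp]

theorem mul_coe_mem_Lat {m : K} (hm : m ≠ 0) (t : 𝓞 K) : m * t ∈ Lat m := by
  rw [mem_Lat, mul_div_cancel_left₀ _ hm]
  exact t.2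

section main

variable (hE : EIS K) (hF : FOUR K) {m : K} (hm : m ≠ 0) {k : ℕ} {a : K → K → ℂ}

include hE in
theorem measurable_FL (k : ℕ) (a : K → K → ℂ) (X : ℝ) : Measurable (F k a X) :=
  (hE.1 k a X).const_mul _

include hE hm in
theorem F_per (hp : Per (Lat m) a) (X : ℝ) (t : 𝓞 K) (w : HK K) :
    F k a X (KU.tr (m * t) • w) = F k a X w := by
  have e : act a (KU.tr (m * t)) = a := by
    funext c d
    have h := hp c d _ (mul_coe_mem_Lat hm t)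
    show a (c * 1 + d * 0) (c * (m * t) + d * 1) = a c d
    rw [mul_one, mul_zero, add_zero, mul_one, add_comm, h]
  have h := hE.2.1 k a X (KU.tr (m * t)) (KU.tr (m * t) • w)
  rw [e, inv_smul_smul] at h
  rw [F, F, h]

variable {δ : ℝ} (hδ : 0 < δ) {B : Set (io K → ℝ)} (hB : MeasurableSet B)
  (hab : B ⊆ vb (io K) δ δ⁻¹)

include hE hδ hB hab in
theorem Es_sq (ha : Bnd a) (X : ℝ) :
    ∫⁻ q, ‖Es k a X ((cmK K).pt q.1 q.2)‖ₑ ^ 2 ∂CM.mz ((cmK K).cel hm) B ≠ ∞ := by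
  have := (cmK K).finite_mz hm hδ hab
  obtain ⟨D, hD⟩ := hE.2.2.2.2.1 k a ha δ X hδ
  refine sq_ne_top_of_bdd (B := D) ((CM.ae_mz hB).mono fun q hq => hD X le_rfl _ ?_)
  rw [(cmK K).pt_v _ (CM.pos_of_mem hδ hab hq)]
  exact mem_vb.1 (hab hq)

include hE hδ hB hab in
theorem F_sq (ha : Bnd a) (X : ℝ) :
    ∫⁻ q, ‖F k a X ((cmK K).pt q.1 q.2)‖ₑ ^ 2 ∂CM.mz ((cmK K).cel hm) B ≠ ∞ := by
  simp only [F, enorm_mul, mul_pow]
  rw [lintegral_const_mul' _ _ (ENNReal.pow_ne_top enorm_ne_top)]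
  exact ENNReal.mul_ne_top (ENNReal.pow_ne_top enorm_ne_top) (Es_sq hE hm hδ hB hab ha X)

include hE hF in
theorem cf_sub_sm (ha : Adm k a) (hp : Per (Lat m) a) {ν : K} (hν : ν ∈ Dual m) :
    ∃ D : ℝ, ∀ X, 0 < X → ‖(cmK K).cf hm B (fun q => Es k a X ((cmK K).pt q.1 q.2)) ν -
      ((cmK K).kb hδ hB hab ν).sm (Sg k (Lat m) a ν) X‖ ≤ D := by
  have := CM.finite_nuP hδ hab
  obtain ⟨hT, -, h4⟩ := hF m hm _ (isCell_cel hm) k a ha hp ν hν
  obtain ⟨D, hD⟩ := hE.2.2.2.2.2 k a ha.toBnd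
  refine ⟨(cmK K).vol hm * |D| * ((nuP (io K)).restrict B).real Set.univ, fun X hX => ?_⟩
  have hme : Measurable fun q : (io K → ℂ) × (io K → ℝ) => Es k a X ((cmK K).pt q.1 q.2) :=
    (hE.1 k a X).comp (cmK K).measurable_pt
  have h2 := Es_sq hE hm hδ hB hab (k := k) ha.toBnd X
  obtain ⟨i2, e2⟩ := (cmK K).kb_sm hδ hB hab ν hT hX
  rw [(cmK K).cf_eq hm hδ hab hme h2, e2,
    ← integral_sub ((cmK K).integrable_cf hm hδ hab hme h2 ν).integral_prod_right i2]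
  refine norm_integral_le_of_norm_le_const ((ae_restrict_mem hB).mono fun v hv => ?_)
  have hv' := CM.pos_of_mem hδ hab hv
  rw [(h4 X v hv').2, add_sub_cancel_right]
  have h0 := (cmK K).vol_pos hm
  split_ifs
  · rw [norm_mul, norm_real, Real.norm_of_nonneg ENNReal.toReal_nonneg]
    exact mul_le_mul_of_nonneg_left ((hD X v hv').trans (le_abs_self _)) h0.le
  · rw [norm_zero]; positivity

include hE hF in
theorem lim_of_cf (ha : Adm k a) (hp : Per (Lat m) a) {ν : K} (hν : ν ∈ Dual m) {L : ℂ}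
    (h : Tendsto (fun X => (cmK K).cf hm B (fun q => F k a X ((cmK K).pt q.1 q.2)) ν)
      atTop (𝓝 L)) : ((cmK K).kb hδ hB hab ν).Lim (Sg k (Lat m) a ν) L := by
  obtain ⟨D, hD⟩ := cf_sub_sm hE hF hm hδ hB hab ha hp hν
  refine Ker.lim_of_tame _ (hF m hm _ (isCell_cel hm) k a ha hp ν hν).1 ?_
  have h0 : Tendsto (fun X : ℝ => X ^ (-(4 / 3) : ℝ) * D) atTop (𝓝 0) := by
    simpa using (tendsto_rpow_neg_atTop (y := 4 / 3) (by norm_num)).mul_const D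
  have h1 : Tendsto (fun X : ℝ => ((X ^ (-(4 / 3) : ℝ) : ℝ) : ℂ) *
      ((cmK K).cf hm B (fun q => Es k a X ((cmK K).pt q.1 q.2)) ν -
        ((cmK K).kb hδ hB hab ν).sm (Sg k (Lat m) a ν) X)) atTop (𝓝 0) := by
    refine squeeze_zero_norm' ?_ h0
    filter_upwards [eventually_gt_atTop 0] with X hX
    rw [norm_mul, norm_real, Real.norm_of_nonneg (Real.rpow_nonneg hX.le _)]
    exact mul_le_mul_of_nonneg_left (hD X hX) (Real.rpow_nonneg hX.le _)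
  have h2 := h.sub h1
  rw [sub_zero] at h2
  refine h2.congr fun X => ?_
  have e : (cmK K).cf hm B (fun q => F k a X ((cmK K).pt q.1 q.2)) ν =
      ((X ^ (-(4 / 3) : ℝ) : ℝ) : ℂ) *
        (cmK K).cf hm B (fun q => Es k a X ((cmK K).pt q.1 q.2)) ν := by
    simp only [CM.cf, F, mul_assoc]
    rw [integral_const_mul]
  rw [e]; ring

end main

theorem half_hat (ν : K) : ((cmK K).kb (a := 2⁻¹) (b := 2⁻¹⁻¹) (by norm_num)
    (measurableSet_vb _ _) subset_rfl ν).hat ≠ 0 := by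
  rw [CM.kb_hat, ofReal_ne_zero]
  exact (mul_pos (pow_pos cJ_pos _) (CM.integral_WW_pos (by norm_num) _ (by norm_num))).ne'

theorem lim0 (hE : EIS K) (hF : FOUR K) (hC : CNT4 K) : LIM0 K := by
  intro m hm k a ha hp hz ν hν
  obtain ⟨R, hR⟩ := (cmK K).cel_norm hm
  have h2 : (0 : ℝ) < 2⁻¹ := by norm_num
  have h1 := hz _ (hC.2.1 R (fun _ => 2⁻¹) (fun _ => 2⁻¹⁻¹) fun _ => h2)
  have h3 := (cmK K).tendsto_cf_zero hm h2 (B := vb (io K) 2⁻¹ 2⁻¹⁻¹) subset_rfl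
    (F := fun X q => F k a X ((cmK K).pt q.1 q.2))
    (fun X => (measurable_FL hE k a X).comp (cmK K).measurable_pt)
    (tendsto_of_tendsto_of_tendsto_of_le_of_le tendsto_const_nhds h1 (fun _ => zero_le)
      fun X => strip_le_n2 hm hR _ _ (measurable_FL hE k a X)) ν
  have h4 := hasRes_of_lim (hF m hm _ (isCell_cel hm) k a ha hp ν hν).1 (half_hat ν)
    (lim_of_cf hE hF hm h2 (measurableSet_vb _ _) subset_rfl ha hp hν h3)
  rwa [zero_div] at h4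

theorem rs_alg {r : ℕ} {X a g V n D T : ℝ} (hX : 1 ≤ X) (ha : a = (√X)⁻¹) (hg : 0 < g)
    (hV : 0 < V) (hn : (((2 * a) ^ 3)⁻¹ * (2 * a - a)) ^ r ≤ n) (hD : 0 ≤ D)
    (h : T * (V * ((g * a ^ (2 / 3 : ℝ)) ^ r * n)) ^ 2 ≤ n * (V * (D * (1 + X ^ r)))) :
    T ≤ 2 * D * 8 ^ r / (V * g ^ (2 * r)) * (X ^ (2 / 3 : ℝ)) ^ r := by
  have hX0 : 0 < X := by linarith
  have hs : 0 < √X := Real.sqrt_pos.2 hX0
  have ha0 : 0 < a := by rw [ha]; positivity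
  have h1 : ((2 * a) ^ 3)⁻¹ * (2 * a - a) = X / 8 := by
    have : X = √X ^ 2 := (Real.sq_sqrt hX0.le).symm
    rw [ha]
    conv_rhs => rw [this]
    field_simp
    ring
  rw [h1] at hn
  have hn0 : 0 < n := lt_of_lt_of_le (by positivity) hn
  have h2 : (a ^ (2 / 3 : ℝ)) ^ 2 * X ^ (2 / 3 : ℝ) = 1 := by
    rw [sq, ← Real.mul_rpow ha0.le ha0.le, ← Real.mul_rpow (by positivity) hX0.le, ha,
      ← mul_inv, Real.mul_self_sqrt hX0.le, inv_mul_cancel₀ hX0.ne', Real.one_rpow]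
  set q := a ^ (2 / 3 : ℝ) with hq
  set Y := X ^ (2 / 3 : ℝ) with hY
  have hq0 : 0 < q := Real.rpow_pos_of_pos ha0 _
  have hY0 : 0 < Y := Real.rpow_pos_of_pos hX0 _
  have h3 : (q ^ r) ^ 2 * Y ^ r = 1 := by
    rw [← pow_mul, mul_comm r, pow_mul, ← mul_pow, h2, one_pow]
  have h4 : 1 ≤ X ^ r := one_le_pow₀ hX
  have h5 : X ^ r ≤ 8 ^ r * n := by
    rw [div_pow, div_le_iff₀ (by positivity)] at hn
    linarith
  have h6 : T * (V * g ^ (2 * r)) * (q ^ r) ^ 2 * (V * n * n) ≤ 2 * D * 8 ^ r * (V * n * n) := by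
    calc _ = T * (V * ((g * q) ^ r * n)) ^ 2 := by rw [mul_pow g q]; ring
      _ ≤ n * (V * (D * (1 + X ^ r))) := h
      _ ≤ n * (V * (D * (2 * (8 ^ r * n)))) := by gcongr; linarith
      _ = _ := by ring
  have h7 := le_of_mul_le_mul_right h6 (by positivity)
  rw [div_mul_eq_mul_div, le_div_iff₀ (by positivity)]
  calc T * (V * g ^ (2 * r)) = T * (V * g ^ (2 * r)) * (q ^ r) ^ 2 * Y ^ r := by
        rw [mul_assoc _ ((q ^ r) ^ 2), h3, mul_one]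
    _ ≤ _ := by gcongr

section pieces

variable (hE : EIS K) (hC : CNT4 K) {m : K} (hm : m ≠ 0) {k : ℕ} {a : K → K → ℂ}

include hE in
theorem measurable_Fp (k : ℕ) (a : K → K → ℂ) (X : ℝ) :
    Measurable fun q : (io K → ℂ) × (io K → ℝ) => F k a X ((cmK K).pt q.1 q.2) :=
  (measurable_FL hE k a X).comp (cmK K).measurable_pt

include hE hC in
theorem exists_strip_lim (ha : Bnd a) (hc : LC (F k a)) {δ : ℝ} (hδ : 0 < δ) :
    ∃ f : (io K → ℂ) × (io K → ℝ) → ℂ, Measurable f ∧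
      ∫⁻ q, ‖f q‖ₑ ^ 2 ∂CM.mz ((cmK K).cel hm) (vb (io K) δ δ⁻¹) ≠ ∞ ∧
      Tendsto (fun X => ∫⁻ q, ‖F k a X ((cmK K).pt q.1 q.2) - f q‖ₑ ^ 2
        ∂CM.mz ((cmK K).cel hm) (vb (io K) δ δ⁻¹)) atTop (𝓝 0) := by
  obtain ⟨R, hR⟩ := (cmK K).cel_norm hm
  refine exists_l2_lim (measurable_Fp hE k a)
    (fun X => F_sq hE hm hδ (measurableSet_vb _ _) subset_rfl ha X) ?_
  exact tendsto_of_tendsto_of_tendsto_of_le_of_le tendsto_const_nhds
    (hc _ (hC.2.1 R (fun _ => δ) (fun _ => δ⁻¹) fun _ => hδ)) (fun _ => zero_le)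
    fun p => strip_le_n2 hm hR _ _ ((measurable_FL hE k a p.1).sub (measurable_FL hE k a p.2))

include hE in
theorem tendsto_cf (ha : Bnd a) {δ : ℝ} (hδ : 0 < δ) {f : (io K → ℂ) × (io K → ℝ) → ℂ}
    (hfm : Measurable f) (hf2 : ∫⁻ q, ‖f q‖ₑ ^ 2 ∂CM.mz ((cmK K).cel hm) (vb (io K) δ δ⁻¹) ≠ ∞)
    (hft : Tendsto (fun X => ∫⁻ q, ‖F k a X ((cmK K).pt q.1 q.2) - f q‖ₑ ^ 2
      ∂CM.mz ((cmK K).cel hm) (vb (io K) δ δ⁻¹)) atTop (𝓝 0)) {B : Set (io K → ℝ)}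
    (hB : MeasurableSet B) (hab : B ⊆ vb (io K) δ δ⁻¹) (ν : K) :
    Tendsto (fun X => (cmK K).cf hm B (fun q => F k a X ((cmK K).pt q.1 q.2)) ν)
      atTop (𝓝 ((cmK K).cf hm B f ν)) := by
  have h1 := (cmK K).tendsto_cf_zero hm hδ hab
    (F := fun X q => F k a X ((cmK K).pt q.1 q.2) - f q)
    (fun X => (measurable_Fp hE k a X).sub hfm)
    (tendsto_of_tendsto_of_tendsto_of_le_of_le tendsto_const_nhds hft
      (fun _ => zero_le) fun X => (cmK K).mz_mono hm hab _) ν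
  rw [← tendsto_sub_nhds_zero_iff]
  refine h1.congr fun X => ?_
  exact (cmK K).cf_sub hm hδ hab (measurable_Fp hE k a X) (F_sq hE hm hδ hB hab ha X) hfm
    (ne_top_of_le_ne_top hf2 ((cmK K).mz_mono hm hab _)) ν

include hE in
theorem rs_of_cf (ha : Bnd a) (hb : LB (F k a)) {τ : K → ℂ} (hs : ∀ ν, τ ν ≠ 0 → ν ∈ Dual m)
    (hcf : ∀ (δ : ℝ) (hδ : 0 < δ) (B : Set (io K → ℝ)) (hB : MeasurableSet B)
      (hab : B ⊆ vb (io K) δ δ⁻¹), ∀ ν ∈ Dual m,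
      Tendsto (fun X => (cmK K).cf hm B (fun q => F k a X ((cmK K).pt q.1 q.2)) ν) atTop
        (𝓝 ((((cmK K).vol hm / cJ ^ Fintype.card (io K) : ℝ) : ℂ) * τ ν *
          ((cmK K).kb hδ hB hab ν).hat))) :
    ∃ A : ℝ, 0 ≤ A ∧ ∀ X : ℝ, 1 ≤ X → ∀ s : Finset K, (∀ ν ∈ s, ∀ j, ab ν j ≤ X) →
      ∑ ν ∈ s, ‖τ ν‖ ^ 2 ≤ A * (X ^ (2 / 3 : ℝ)) ^ Fintype.card (io K) := by
  classical
  set C := cmK K with hCdef
  set r := Fintype.card (io K) with hr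
  have hV := C.vol_pos hm
  have hcv : 0 < C.vol hm / cJ ^ r := div_pos hV (pow_pos cJ_pos _)
  obtain ⟨R, hR⟩ := C.cel_norm hm
  have hFm := measurable_Fp hE k a
  obtain ⟨g, hg, hW⟩ := CM.integral_WW_ge (ι := io K)
  obtain ⟨D, hD⟩ := hb 1 R
  refine ⟨2 * |D| * 8 ^ r / (C.vol hm * g ^ (2 * r)), by positivity, fun X hX s hsX => ?_⟩
  have hX0 : 0 < X := by linarith
  have hs1 : 1 ≤ √X := Real.one_le_sqrt.2 hX
  set y := (√X)⁻¹ with hy
  have hy0 : 0 < y := by positivity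
  have hy1 : y ≤ 1 := inv_le_one_of_one_le₀ hs1
  have hδ : 0 < y / 2 := by positivity
  have hab : vb (io K) y (2 * y) ⊆ vb (io K) (y / 2) (y / 2)⁻¹ := by
    intro v hv
    rw [mem_vb] at hv ⊢
    refine fun j => ⟨by linarith [(hv j).1], (hv j).2.trans ?_⟩
    rw [inv_div, le_div_iff₀ hy0]
    nlinarith
  have hB := measurableSet_vb (ι := io K) y (2 * y)
  set n := (nuP (io K) (vb (io K) y (2 * y))).toReal with hn
  have hnt := nuP_vb_ne_top (ι := io K) hy0 (2 * y)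
  have hn0 : 0 ≤ n := ENNReal.toReal_nonneg
  have hs' : ∀ ν ∈ s.filter (· ∈ Dual m), ν ∈ Dual m := fun ν hν => (mem_filter.1 hν).2
  have h3 : ∀ᶠ X' in atTop, ∑ ν ∈ s.filter (· ∈ Dual m),
      ‖C.cf hm (vb (io K) y (2 * y)) (fun q => F k a X' (C.pt q.1 q.2)) ν‖ ^ 2 ≤
        n * (C.vol hm * (|D| * (1 + X ^ r))) := by
    filter_upwards [hD (fun _ => √X) fun _ => by positivity] with X' hX'
    simp only [one_smul, Real.sq_sqrt hX0.le, prod_const, card_univ] at hX'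
    have h4 := C.bessel_strip hm hδ hab (hFm X') (F_sq hE hm hδ hB hab ha X') _ hs'
    have h5 := (strip_le_n2 hm hR y (2 * y) (measurable_FL hE k a X')).trans hX'
    have h6 : ENNReal.ofReal (D * (1 + X ^ r)) ≤ ENNReal.ofReal (|D| * (1 + X ^ r)) :=
      ENNReal.ofReal_le_ofReal (mul_le_mul_of_nonneg_right (le_abs_self _) (by positivity))
    have h7 := h4.trans (mul_le_mul_right (mul_le_mul_right (h5.trans h6) _) _)
    have h8 := ENNReal.toReal_mono (ENNReal.mul_ne_top hnt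
      (ENNReal.mul_ne_top (C.cel_ne_top hm) ENNReal.ofReal_ne_top)) h7
    rw [ENNReal.toReal_mul, ENNReal.toReal_mul, ENNReal.toReal_ofReal (by positivity),
      ENNReal.toReal_sum fun _ _ => ENNReal.pow_ne_top enorm_ne_top] at h8
    simp only [ENNReal.toReal_pow, toReal_enorm] at h8
    exact h8
  have h4 := le_of_tendsto (tendsto_finsetSum _ fun ν hν =>
    ((hcf _ hδ _ hB hab ν (hs' ν hν)).norm.pow 2)) h3
  have h5 : ∑ ν ∈ s, ‖τ ν‖ ^ 2 = ∑ ν ∈ s.filter (· ∈ Dual m), ‖τ ν‖ ^ 2 := by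
    refine (sum_filter_of_ne fun ν _ h => hs ν fun h' => h ?_).symm
    rw [h', norm_zero, zero_pow two_ne_zero]
  rw [h5]
  refine rs_alg (n := n) hX hy hg hV ?_ (abs_nonneg D) ?_
  · rw [hn, nuP_vb, ENNReal.toReal_pow]
    refine pow_le_pow_left₀ (mul_nonneg (by positivity) (by linarith)) ?_ _
    have h6 := ENNReal.toReal_mono (ne_top_of_le_ne_top
      (ENNReal.mul_ne_top ENNReal.ofReal_ne_top ENNReal.ofReal_ne_top) (nuV_Icc_le hy0 (2 * y)))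
      (le_nuV_Icc (b := 2 * y) hy0)
    rwa [ENNReal.toReal_mul, ENNReal.toReal_ofReal (by positivity),
      ENNReal.toReal_ofReal (by linarith)] at h6
  · rw [sum_mul]
    refine le_trans (sum_le_sum fun ν hν => ?_) h4
    have h6 := hW y hy0 (C.em ν) fun j => by
      rw [hy, inv_inv]
      refine Real.le_sqrt_of_sq_le ?_
      rw [← normSq_eq_norm_sq]
      exact hsX ν (mem_filter.1 hν).1 j
    have h7 : 0 ≤ (g * y ^ (2 / 3 : ℝ)) ^ r * n := by positivity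
    rw [CM.kb_hat, norm_mul, norm_mul, norm_real, norm_real,
      Real.norm_of_nonneg hcv.le, Real.norm_of_nonneg
        (mul_nonneg (pow_pos cJ_pos _).le (h7.trans h6)), ← mul_pow]
    refine pow_le_pow_left₀ (by positivity) ?_ 2
    have h8 := (pow_pos cJ_pos r).ne'
    calc _ ≤ ‖τ ν‖ * (C.vol hm * ∫ v in vb (io K) y (2 * y), WW (C.em ν) v ∂nuP (io K)) := by
          gcongr
      _ = _ := by rw [← hr]; field_simp

theorem pol_of_rs {τ : K → ℂ} {A : ℝ} (hA : 0 ≤ A)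
    (hrs : ∀ X : ℝ, 1 ≤ X → ∀ s : Finset K, (∀ ν ∈ s, ∀ j, ab ν j ≤ X) →
      ∑ ν ∈ s, ‖τ ν‖ ^ 2 ≤ A * (X ^ (2 / 3 : ℝ)) ^ Fintype.card (io K)) (ν : K) :
    ‖τ ν‖ ≤ √A * (1 + ‖(cmK K).em ν‖) ^ Fintype.card (io K) := by
  set C := cmK K with hCdef
  set r := Fintype.card (io K) with hr
  have h0 := norm_nonneg (C.em ν)
  have h1 : 1 ≤ (1 + ‖C.em ν‖) ^ 2 := one_le_pow₀ (by linarith)
  have h3 := hrs _ h1 {ν} fun μ hμ j => by
    rw [mem_singleton.1 hμ, ab, normSq_eq_norm_sq]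
    have : ‖C.sig j ν‖ ≤ ‖C.em ν‖ := norm_le_pi_norm (C.em ν) j
    exact pow_le_pow_left₀ (norm_nonneg _) (by linarith) 2
  rw [sum_singleton] at h3
  have h4 : ((1 + ‖C.em ν‖) ^ 2) ^ (2 / 3 : ℝ) ≤ (1 + ‖C.em ν‖) ^ 2 := by
    conv_rhs => rw [← Real.rpow_one ((1 + ‖C.em ν‖) ^ 2)]
    exact Real.rpow_le_rpow_of_exponent_le h1 (by norm_num)
  refine (pow_le_pow_iff_left₀ (norm_nonneg _) (by positivity) two_ne_zero).1 (h3.trans ?_)
  rw [mul_pow, Real.sq_sqrt hA, ← pow_mul, mul_comm r, pow_mul]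
  gcongr

include hE hC in
theorem lz_of_cf (hp : Per (Lat m) a) {τ : K → ℂ} (hs : ∀ ν, τ ν ≠ 0 → ν ∈ Dual m) {A : ℝ} {p : ℕ}
    (hpol : ∀ ν, ‖τ ν‖ ≤ A * (1 + ‖(cmK K).em ν‖) ^ p)
    {f : (δ : ℝ) → 0 < δ → (io K → ℂ) × (io K → ℝ) → ℂ} (hfm : ∀ δ hδ, Measurable (f δ hδ))
    (hf2 : ∀ δ hδ, ∫⁻ q, ‖f δ hδ q‖ₑ ^ 2 ∂CM.mz ((cmK K).cel hm) (vb (io K) δ δ⁻¹) ≠ ∞)
    (hft : ∀ δ hδ, Tendsto (fun X => ∫⁻ q, ‖F k a X ((cmK K).pt q.1 q.2) - f δ hδ q‖ₑ ^ 2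
      ∂CM.mz ((cmK K).cel hm) (vb (io K) δ δ⁻¹)) atTop (𝓝 0))
    (hval : ∀ (δ : ℝ) (hδ : 0 < δ) (B : Set (io K → ℝ)) (hB : MeasurableSet B)
      (hab : B ⊆ vb (io K) δ δ⁻¹), ∀ ν ∈ Dual m, (cmK K).cf hm B (f δ hδ) ν =
        (((cmK K).vol hm / cJ ^ Fintype.card (io K) : ℝ) : ℂ) * τ ν *
          ((cmK K).kb hδ hB hab ν).hat) :
    LZ fun X w => F k a X w - (cmK K).ser τ w := by
  intro Z hZ
  set C := cmK K with hCdef
  have hθ := C.continuous_ser hm hs hpol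
  have hFm := measurable_Fp hE k a
  obtain ⟨r', δ, hδ, -, hsub⟩ := hC.1 Z hZ
  obtain ⟨N, hN⟩ := n2_le_strip hm r'
  have hB := measurableSet_vb (ι := io K) δ δ⁻¹
  have hθm : Measurable fun q : (io K → ℂ) × (io K → ℝ) => C.ser τ (C.pt q.1 q.2) :=
    hθ.measurable.comp C.measurable_pt
  have h0 : ∫⁻ q, ‖f δ hδ q - C.ser τ (C.pt q.1 q.2)‖ₑ ^ 2
      ∂CM.mz (C.cel hm) (vb (io K) δ δ⁻¹) = 0 := by
    have hθ2 := C.ser_sq hm hδ hB subset_rfl hs hpol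
    refine C.complete_strip hm hδ hB subset_rfl (H := fun q => f δ hδ q - C.ser τ (C.pt q.1 q.2))
      ((hfm δ hδ).sub hθm) ?_ fun ν hν B' hB' hsub => ?_
    · have h3 := lintegral_add_sq_le (μ := CM.mz (C.cel hm) (vb (io K) δ δ⁻¹)) (hfm δ hδ)
        (g := fun q => -C.ser τ (C.pt q.1 q.2)) hθm.neg
      simp only [enorm_neg, ← sub_eq_add_neg] at h3
      exact ne_top_of_le_ne_top (ENNReal.add_ne_top.2
        ⟨ENNReal.mul_ne_top ENNReal.ofNat_ne_top (hf2 δ hδ),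
          ENNReal.mul_ne_top ENNReal.ofNat_ne_top hθ2⟩) h3
    · rw [C.cf_sub hm hδ hsub (hfm δ hδ) (ne_top_of_le_ne_top (hf2 δ hδ) (C.mz_mono hm hsub _))
        hθm (C.ser_sq hm hδ hB' hsub hs hpol), hval δ hδ B' hB' hsub ν hν,
        C.cf_ser hm hδ hB' hsub hs hpol hν, sub_self]
  have h1 := ENNReal.Tendsto.const_mul (a := (N : ℝ≥0∞) * 2) (hft δ hδ)
    (Or.inr (ENNReal.mul_ne_top (ENNReal.natCast_ne_top N) ENNReal.ofNat_ne_top))
  rw [mul_zero] at h1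
  refine tendsto_of_tendsto_of_tendsto_of_le_of_le tendsto_const_nhds h1 (fun _ => zero_le)
    fun X => (lintegral_mono_set hsub).trans ((hN δ δ⁻¹ (fun w => F k a X w - C.ser τ w)
      ((measurable_FL hE k a X).sub hθ.measurable) fun t w => ?_).trans ?_)
  · rw [F_per hE hm hp]
    congr 1
    refine tsum_congr fun ν => ?_
    rw [C.tr_smul_v, C.tr_smul_z, C.ch_add]
    by_cases h : τ ν = 0
    · rw [h, zero_mul, zero_mul, zero_mul]
    · rw [C.ch_em]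
      have h3 : ee _ = 1 := hs ν h _ (mul_coe_mem_Lat hm t)
      rw [trR] at h3
      rw [h3, mul_one]
  · rw [mul_assoc]
    refine mul_le_mul_right ?_ _
    have h3 := lintegral_add_sq_le (μ := CM.mz (C.cel hm) (vb (io K) δ δ⁻¹))
      (f := fun q => F k a X (C.pt q.1 q.2) - f δ hδ q)
      (g := fun q => f δ hδ q - C.ser τ (C.pt q.1 q.2))
      ((hFm X).sub (hfm δ hδ)) ((hfm δ hδ).sub hθm)
    simp only [sub_add_sub_cancel] at h3
    rwa [h0, mul_zero, add_zero] at h3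

end pieces

theorem lim (hE : EIS K) (hF : FOUR K) (hC : CNT4 K) : LIM K := by
  classical
  intro m hm
  set C := cmK K with hCdef
  set r := Fintype.card (io K) with hr
  have hV := C.vol_pos hm
  have hcv : 0 < C.vol hm / cJ ^ r := div_pos hV (pow_pos cJ_pos _)
  refine ⟨C.vol hm / cJ ^ r, hcv, fun k a ha hp hc hb => ?_⟩
  have hT : ∀ ν ∈ Dual m, Tame (Sg k (Lat m) a ν) := fun ν hν =>
    (hF m hm _ (isCell_cel hm) k a ha hp ν hν).1
  choose f hfm hf2 hft using fun (δ : ℝ) (hδ : 0 < δ) => exists_strip_lim hE hC hm ha.toBnd hc hδ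
  have hcf := fun (δ : ℝ) (hδ : 0 < δ) (B : Set (io K → ℝ)) (hB : MeasurableSet B)
    (hab : B ⊆ vb (io K) δ δ⁻¹) (ν : K) =>
    tendsto_cf hE hm ha.toBnd hδ (hfm δ hδ) (hf2 δ hδ) (hft δ hδ) hB hab ν
  have h2 : (0 : ℝ) < 2⁻¹ := by norm_num
  have hres : ∀ ν ∈ Dual m, ∃ ρ, HasRes (Sg k (Lat m) a ν) ρ := fun ν hν =>
    ⟨_, hasRes_of_lim (hT ν hν) (half_hat ν) (lim_of_cf hE hF hm h2 (measurableSet_vb _ _)
      subset_rfl ha hp hν (hcf _ h2 _ (measurableSet_vb _ _) subset_rfl ν))⟩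
  choose! ρ hρ using hres
  set τ : K → ℂ := fun ν => if ν ∈ Dual m then ρ ν / ((C.vol hm / cJ ^ r : ℝ) : ℂ) else 0 with hτ
  have hs : ∀ ν, τ ν ≠ 0 → ν ∈ Dual m := fun ν h => by_contra fun h' => h (if_neg h')
  have hρτ : ∀ ν ∈ Dual m, ((C.vol hm / cJ ^ r : ℝ) : ℂ) * τ ν = ρ ν := fun ν hν => by
    simp only [hτ]
    rw [if_pos hν, mul_div_cancel₀ _ (ofReal_ne_zero.2 hcv.ne')]
  have hval : ∀ (δ : ℝ) (hδ : 0 < δ) (B : Set (io K → ℝ)) (hB : MeasurableSet B)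
      (hab : B ⊆ vb (io K) δ δ⁻¹), ∀ ν ∈ Dual m, C.cf hm B (f δ hδ) ν =
        ((C.vol hm / cJ ^ r : ℝ) : ℂ) * τ ν * (C.kb hδ hB hab ν).hat := by
    intro δ hδ B hB hab ν hν
    rw [hρτ ν hν]
    exact (hρ ν hν).eq_of_lim (lim_of_cf hE hF hm hδ hB hab ha hp hν (hcf δ hδ B hB hab ν))
  obtain ⟨A, hA, hrs⟩ := rs_of_cf hE hm ha.toBnd hb hs fun δ hδ B hB hab ν hν => by
    rw [← hval δ hδ B hB hab ν hν]
    exact hcf δ hδ B hB hab ν
  have hpol := pol_of_rs hA hrs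
  refine ⟨τ, C.ser τ, C.continuous_ser hm hs hpol, C.hasSum_ser hm hs hpol,
    lz_of_cf hE hC hm hp hs hpol hfm hf2 hft hval, ⟨A, fun X hX s hsX => ?_⟩, hs,
    fun ν hν => ?_⟩
  · have hX0 : 0 < X := by linarith
    calc _ ≤ ∑ ν ∈ s, ‖τ ν‖ ^ 2 * (X ^ (1 / 3 : ℝ)) ^ r := by
          refine sum_le_sum fun ν hν => mul_le_mul_of_nonneg_left ?_ (sq_nonneg _)
          rw [← Real.rpow_natCast, ← Real.rpow_mul hX0.le, mul_comm, Real.rpow_mul hX0.le,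
            Real.rpow_natCast]
          refine Real.rpow_le_rpow (C.nm_nonneg ν) ?_ (by norm_num)
          rw [hr, ← card_univ, ← prod_const]
          exact prod_le_prod (fun _ _ => normSq_nonneg _) fun j _ => (hsX ν hν).2 j
      _ ≤ A * (X ^ (2 / 3 : ℝ)) ^ r * (X ^ (1 / 3 : ℝ)) ^ r := by
          rw [← sum_mul]
          exact mul_le_mul_of_nonneg_right (hrs X hX s fun ν hν => (hsX ν hν).2) (by positivity)
      _ = _ := by
          rw [mul_assoc, ← mul_pow, ← Real.rpow_add hX0, ← hr]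
          norm_num
  · rw [hρτ ν hν]
    exact hρ ν hν

end Vale.Agent.P016Z.TH
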