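import Mathlib.NumberTheory.NumberField.Ideal.Asymptotics
import Mathlib.NumberTheory.NumberField.ClassNumber
import Mathlib.Analysis.Normed.Group.Tannery
import Mathlib.Analysis.SpecialFunctions.Log.Summable
import Mathlib.Analysis.Asymptotics.SpecificAsymptotics
import Mathlib.Analysis.SpecialFunctions.Pow.Real

/-!
P016, block THETA: mean values of multiplicative weights over the ideals of a class.
-/

namespace Vale.Agent.P016Z.TH.Mn

open NumberField Filter Topology UniqueFactorizationMonoid Finset Asymptotics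
open scoped nonZeroDivisors Classical

/-- partial summation with the weight `m ^ 3` -/
theorem tendsto_cube {c : ℕ → ℝ} {L : ℝ}
    (h : Tendsto (fun n : ℕ => (∑ m ∈ range (n + 1), c m) / n) atTop (𝓝 L)) :
    Tendsto (fun n : ℕ => (∑ m ∈ range (n + 1), (m : ℝ) ^ 3 * c m) / (n : ℝ) ^ 4) atTop
      (𝓝 (L / 4)) := by
  set s : ℕ → ℝ := fun n => ∑ m ∈ range (n + 1), c m with hs
  have hT : ∀ n : ℕ, ∑ m ∈ range (n + 1), (m : ℝ) ^ 3 * c m =
      (n : ℝ) ^ 3 * s n - ∑ m ∈ range n, (3 * (m : ℝ) ^ 2 + 3 * m + 1) * s m := by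
    intro n
    induction n with
    | zero => simp
    | succ n ih =>
      have e : s (n + 1) = s n + c (n + 1) := sum_range_succ _ _
      rw [sum_range_succ, ih, sum_range_succ (fun m => (3 * (m : ℝ) ^ 2 + 3 * m + 1) * s m), e]
      push_cast
      ring
  have hG : ∀ n : ℕ, ∑ m ∈ range n, (3 * (m : ℝ) ^ 2 + 3 * m + 1) * m =
      (n : ℝ) ^ 2 * (n - 1) * (3 * n + 1) / 4 := by
    intro n
    induction n with
    | zero => simp
    | succ n ih => rw [sum_range_succ, ih]; push_cast; ring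
  have hinv : Tendsto (fun n : ℕ => ((n : ℝ))⁻¹) atTop (𝓝 0) := tendsto_inv_atTop_nhds_zero_nat
  have h1 : (fun m : ℕ => s m - L * m) =o[atTop] fun m : ℕ => (m : ℝ) := by
    refine (isLittleO_iff_tendsto' ?_).2 ?_
    · filter_upwards [eventually_gt_atTop 0] with m hm h0
      exact absurd (by exact_mod_cast h0) hm.ne'
    · have := h.sub_const L
      rw [sub_self] at this
      refine this.congr' ?_
      filter_upwards [eventually_gt_atTop 0] with m hm
      have : (m : ℝ) ≠ 0 := by exact_mod_cast hm.ne'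
      change s m / m - L = _
      field_simp
  have h2 := ((isBigO_refl (fun m : ℕ => 3 * (m : ℝ) ^ 2 + 3 * m + 1) atTop).mul_isLittleO
    h1).sum_range (fun m => by positivity) (by
      simp only [hG]
      refine tendsto_atTop_mono' atTop ?_ tendsto_natCast_atTop_atTop
      filter_upwards [eventually_ge_atTop 2] with n hn
      have h3 : (2 : ℝ) ≤ n := by exact_mod_cast hn
      have h5 : (1 : ℝ) ≤ n * (n - 1) := by nlinarith
      have h4 : (4 : ℝ) ≤ n * (n - 1) * (3 * n + 1) := by nlinarith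
      nlinarith)
  have h3 : Tendsto (fun n : ℕ => (∑ m ∈ range n, (3 * (m : ℝ) ^ 2 + 3 * m + 1) * m) /
      (n : ℝ) ^ 4) atTop (𝓝 (3 / 4)) := by
    have := ((hinv.const_sub 1).mul (hinv.const_add 3)).div_const 4
    rw [sub_zero, add_zero, one_mul] at this
    refine this.congr' ?_
    filter_upwards [eventually_gt_atTop 0] with n hn
    have : (n : ℝ) ≠ 0 := by exact_mod_cast hn.ne'
    rw [hG]
    field_simp
  have h4 := (h2.trans_isBigO (isBigO_of_div_tendsto_nhds ?_ _ h3)).tendsto_div_nhds_zero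
  · have h5 := (h.sub (h3.const_mul L)).sub h4
    rw [show L - L * (3 / 4) - 0 = L / 4 by ring] at h5
    refine h5.congr' ?_
    filter_upwards [eventually_gt_atTop 0] with n hn
    have : (n : ℝ) ≠ 0 := by exact_mod_cast hn.ne'
    have e : ∑ m ∈ range n, (3 * (m : ℝ) ^ 2 + 3 * m + 1) * (s m - L * m) =
        ∑ m ∈ range n, (3 * (m : ℝ) ^ 2 + 3 * m + 1) * s m -
          L * ∑ m ∈ range n, (3 * (m : ℝ) ^ 2 + 3 * m + 1) * m := by
      rw [mul_sum, ← sum_sub_distrib]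
      exact sum_congr rfl fun _ _ => by ring
    rw [hT, e]
    field_simp
    ring
  · filter_upwards [eventually_gt_atTop 0] with n hn h0
    exact absurd (pow_eq_zero_iff (by norm_num)|>.1 h0) (by exact_mod_cast hn.ne')

variable {K : Type} [Field K] [NumberField K]

/-- the class of an ideal -/
noncomputable def cls (I : Ideal (𝓞 K)) : ClassGroup (𝓞 K) :=
  if h : I ∈ (Ideal (𝓞 K))⁰ then ClassGroup.mk0 ⟨I, h⟩ else 1

theorem cls_eq (I : (Ideal (𝓞 K))⁰) : cls (I : Ideal (𝓞 K)) = ClassGroup.mk0 I := dif_pos I.2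

theorem cls_mul {I J : Ideal (𝓞 K)} (hI : I ≠ 0) (hJ : J ≠ 0) : cls (I * J) = cls I * cls J := by
  have := cls_eq ((⟨I, mem_nonZeroDivisors_of_ne_zero hI⟩ : (Ideal (𝓞 K))⁰) *
    ⟨J, mem_nonZeroDivisors_of_ne_zero hJ⟩)
  rw [map_mul, ← cls_eq, ← cls_eq] at this
  exact this

theorem cls_eq_one {I : Ideal (𝓞 K)} (hI : I ≠ 0) : cls I = 1 ↔ I.IsPrincipal := by
  rw [← ClassGroup.mk0_eq_one_iff (mem_nonZeroDivisors_of_ne_zero hI), ← cls_eq]

theorem one_le_norm {I : Ideal (𝓞 K)} (hI : I ≠ 0) : (1 : ℝ) ≤ Ideal.absNorm I := by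
  exact_mod_cast Nat.pos_of_ne_zero fun h => hI (Ideal.absNorm_eq_zero_iff.1 h)

/-- the nonzero ideals of norm at most `y` -/
noncomputable def Fa (K : Type) [Field K] [NumberField K] (y : ℝ) : Finset (Ideal (𝓞 K)) :=
  (Ideal.finite_setOfPred_absNorm_le ⌊y⌋₊).toFinset.filter (fun I => I ≠ 0)

theorem mem_Fa {y : ℝ} {I : Ideal (𝓞 K)} : I ∈ Fa K y ↔ I ≠ 0 ∧ (Ideal.absNorm I : ℝ) ≤ y := by
  simp only [Fa, mem_filter, Set.Finite.mem_toFinset, Set.mem_ofPred_eq]
  rw [and_comm]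
  exact and_congr_right fun h => Nat.le_floor_iff' fun h0 => h (Ideal.absNorm_eq_zero_iff.1 h0)

/-- the nonzero ideals of norm at most `y` in the class `C` -/
noncomputable def Fc (C : ClassGroup (𝓞 K)) (y : ℝ) : Finset (Ideal (𝓞 K)) :=
  (Fa K y).filter (fun I => cls I = C)

theorem mem_Fc {C : ClassGroup (𝓞 K)} {y : ℝ} {I : Ideal (𝓞 K)} :
    I ∈ Fc C y ↔ I ≠ 0 ∧ (Ideal.absNorm I : ℝ) ≤ y ∧ cls I = C := by
  rw [Fc, mem_filter, mem_Fa, and_assoc]

theorem exists_k0 (K : Type) [Field K] [NumberField K] : ∃ k0 : ℝ, 0 < k0 ∧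
    ∀ C : ClassGroup (𝓞 K), Tendsto (fun y : ℝ => ((Fc C y).card : ℝ) / y) atTop (𝓝 k0) := by
  refine ⟨_, ?_, fun C => (Ideal.tendsto_norm_le_and_mk_eq_div_atTop K C).congr fun y => ?_⟩
  · have h1 := Units.regulator_pos K
    have h2 : (0 : ℝ) < Units.torsionOrder K := by
      exact_mod_cast Nat.pos_of_ne_zero (Units.torsionOrder_ne_zero K)
    have h3 : (0 : ℝ) < |(discr K : ℝ)| := abs_pos.2 (by exact_mod_cast discr_ne_zero K)
    have h4 := Real.pi_pos
    positivity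
  · rw [← Nat.card_eq_finsetCard]
    congr 2
    exact Nat.card_congr ⟨fun I => ⟨I.1.1, mem_Fc.2 ⟨nonZeroDivisors.coe_ne_zero I.1, I.2.1,
      (cls_eq I.1).trans I.2.2⟩⟩, fun I => ⟨⟨I.1, mem_nonZeroDivisors_of_ne_zero (mem_Fc.1 I.2).1⟩,
      (mem_Fc.1 I.2).2.1, (cls_eq _).symm.trans (mem_Fc.1 I.2).2.2⟩, fun _ => rfl, fun _ => rfl⟩

theorem exists_bound (K : Type) [Field K] [NumberField K] : ∃ M : ℝ, 0 ≤ M ∧
    ∀ y : ℝ, 0 ≤ y → ((Fa K y).card : ℝ) ≤ M * y := by
  obtain ⟨k0, hk, h⟩ := exists_k0 K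
  have h1 : Tendsto (fun y : ℝ => ((Fa K y).card : ℝ) / y) atTop
      (𝓝 (∑ _C : ClassGroup (𝓞 K), k0)) := by
    refine (tendsto_finsetSum univ fun C _ => h C).congr fun y => ?_
    rw [← sum_div, card_eq_sum_card_fiberwise (f := cls) (t := univ) fun _ _ => mem_univ _]
    push_cast
    rfl
  generalize ∑ _C : ClassGroup (𝓞 K), k0 = L at h1
  obtain ⟨y0, hy0⟩ := eventually_atTop.1 (h1.eventually (gt_mem_nhds (lt_add_one L)))
  refine ⟨|L + 1| + (Fa K y0).card, by positivity, fun y hy => ?_⟩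
  rcases lt_or_ge y 1 with h2 | h2
  · have : Fa K y = ∅ := eq_empty_of_forall_notMem fun I hI => by
      rw [mem_Fa] at hI
      linarith [one_le_norm hI.1, hI.2]
    rw [this, card_empty, Nat.cast_zero]
    positivity
  have h3 : (0 : ℝ) ≤ (Fa K y0).card := Nat.cast_nonneg _
  rcases le_total y0 y with h4 | h4
  · have h5 := (hy0 y h4).le.trans (le_abs_self _)
    rw [div_le_iff₀ (by linarith)] at h5
    nlinarith
  · have h5 : ((Fa K y).card : ℝ) ≤ (Fa K y0).card := by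
      exact_mod_cast card_le_card fun I hI => mem_Fa.2 ⟨(mem_Fa.1 hI).1, (mem_Fa.1 hI).2.trans h4⟩
    nlinarith [abs_nonneg (L + 1)]

theorem summable_norm (K : Type) [Field K] [NumberField K] :
    Summable fun I : Ideal (𝓞 K) => 1 / (Ideal.absNorm I : ℝ) ^ 2 := by
  obtain ⟨M, hM, h⟩ := exists_bound K
  refine summable_of_sum_le (c := ∑' k : ℕ, 2 * M * (1 / 2) ^ k) (fun _ => by positivity) fun T => ?_
  rw [← sum_fiberwise_of_maps_to (t := T.image fun I => Nat.log 2 (Ideal.absNorm I))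
    (g := fun I => Nat.log 2 (Ideal.absNorm I)) fun I hI => mem_image_of_mem _ hI]
  refine le_trans (sum_le_sum fun k _ => ?_)
    ((summable_geometric_two.mul_left (2 * M)).sum_le_tsum _ fun _ _ => by positivity)
  calc ∑ I ∈ T with Nat.log 2 (Ideal.absNorm I) = k, 1 / (Ideal.absNorm I : ℝ) ^ 2
      ≤ ∑ I ∈ T with Nat.log 2 (Ideal.absNorm I) = k,
        if I ∈ Fa K (2 ^ (k + 1)) then 1 / ((2 : ℝ) ^ k) ^ 2 else 0 := by
        refine sum_le_sum fun I hI => ?_
        rcases eq_or_ne I 0 with rfl | h0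
        · simp only [map_zero, Nat.cast_zero]
          split_ifs
          · norm_num
          · norm_num
        have h1 : Ideal.absNorm I ≠ 0 := fun h => h0 (Ideal.absNorm_eq_zero_iff.1 h)
        have h2 := Nat.pow_log_le_self 2 h1
        have h3 := Nat.lt_pow_succ_log_self (by norm_num : 1 < 2) (Ideal.absNorm I)
        rw [(mem_filter.1 hI).2] at h2 h3
        rw [if_pos (mem_Fa.2 ⟨h0, by exact_mod_cast h3.le⟩)]
        have h4 : (2 : ℝ) ^ k ≤ Ideal.absNorm I := by exact_mod_cast h2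
        gcongr
    _ ≤ ((Fa K (2 ^ (k + 1))).card : ℝ) * (1 / ((2 : ℝ) ^ k) ^ 2) := by
        rw [← sum_filter, sum_const, nsmul_eq_mul]
        gcongr
        exact fun I hI => (mem_filter.1 hI).2
    _ ≤ M * 2 ^ (k + 1) * (1 / ((2 : ℝ) ^ k) ^ 2) := by gcongr; exact h _ (by positivity)
    _ = 2 * M * (1 / 2) ^ k := by rw [one_div_pow]; field_simp; ring

theorem card_dvd (C : ClassGroup (𝓞 K)) (y : ℝ) {E : Ideal (𝓞 K)} (hE : E ≠ 0) :
    ((Fc C y).filter (fun A => E ∣ A)).card =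
      (Fc ((cls E)⁻¹ * C) (y / Ideal.absNorm E)).card := by
  have h1 := one_le_norm hE
  symm
  refine card_bij (fun B _ => E * B) (fun B hB => ?_) (fun B _ B' _ h => mul_left_cancel₀ hE h)
    fun A hA => ?_
  · rw [mem_Fc, le_div_iff₀ (by linarith)] at hB
    rw [mem_filter, mem_Fc, map_mul, cls_mul hE hB.1, hB.2.2, mul_inv_cancel_left]
    exact ⟨⟨mul_ne_zero hE hB.1, by push_cast; linarith [hB.2.1], rfl⟩, dvd_mul_right _ _⟩
  · rw [mem_filter, mem_Fc] at hA
    obtain ⟨⟨h2, h3, h4⟩, B, rfl⟩ := hA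
    have h5 := right_ne_zero_of_mul h2
    refine ⟨B, mem_Fc.2 ⟨h5, ?_, ?_⟩, rfl⟩
    · rw [le_div_iff₀ (by linarith)]
      rw [map_mul] at h3
      push_cast at h3
      linarith
    · rw [← h4, cls_mul hE h5, inv_mul_cancel_left]

/-- the multiplicative weight attached to `a` -/
noncomputable def ww (a : Ideal (𝓞 K) → ℝ) (A : Ideal (𝓞 K)) : ℝ :=
  ∏ P ∈ (normalizedFactors A).toFinset, (1 + a P)

theorem subset_iff {S : Finset (Ideal (𝓞 K))} (hS : ∀ P ∈ S, Prime P) {A : Ideal (𝓞 K)}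
    (hA : A ≠ 0) : S ⊆ (normalizedFactors A).toFinset ↔ ∏ P ∈ S, P ∣ A := by
  constructor
  · intro h
    refine prod_primes_dvd A hS (fun P hP => dvd_of_mem_normalizedFactors
      (Multiset.mem_toFinset.1 (h hP)))
  · intro h P hP
    exact Multiset.mem_toFinset.2 ((mem_normalizedFactors_iff hA).2
      ⟨hS P hP, (dvd_prod_of_mem (fun P => P) hP).trans h⟩)

theorem tendsto_ww {k0 : ℝ}
    (hk : ∀ C : ClassGroup (𝓞 K), Tendsto (fun y : ℝ => ((Fc C y).card : ℝ) / y) atTop (𝓝 k0))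
    {a : Ideal (𝓞 K) → ℝ} (h0 : ∀ P, ¬ Prime P → a P = 0)
    (hs : Summable fun P => ‖a P / Ideal.absNorm P‖) (C : ClassGroup (𝓞 K)) :
    Tendsto (fun y : ℝ => (∑ A ∈ Fc C y, ww a A) / y) atTop
      (𝓝 (k0 * ∏' P, (1 + a P / Ideal.absNorm P))) := by
  obtain ⟨M, hM, hb⟩ := exists_bound K
  rw [tprod_one_add (summable_finsetProd_of_summable_norm hs), ← tsum_mul_left]
  have key : ∀ S : Finset (Ideal (𝓞 K)), (∀ P ∈ S, Prime P) → ∀ y : ℝ, y ≠ 0 →
      (∑ A ∈ Fc C y, if S ⊆ (normalizedFactors A).toFinset then ∏ P ∈ S, a P else 0) / y =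
        ((Fc ((cls (∏ P ∈ S, P))⁻¹ * C) (y / Ideal.absNorm (∏ P ∈ S, P))).card : ℝ) /
          (y / Ideal.absNorm (∏ P ∈ S, P)) * ∏ P ∈ S, (a P / Ideal.absNorm P) := by
    intro S hS y hy
    have h1 : ∏ P ∈ S, P ≠ 0 := prod_ne_zero_iff.2 fun P hP => (hS P hP).ne_zero
    have h2 := one_le_norm h1
    rw [← card_dvd C y h1, ← sum_filter, sum_const, nsmul_eq_mul, prod_div_distrib,
      filter_congr fun A hA => subset_iff hS (mem_Fc.1 hA).1, ← Nat.cast_prod, ← map_prod]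
    field_simp
  have key0 : ∀ S : Finset (Ideal (𝓞 K)), ¬ (∀ P ∈ S, Prime P) →
      ∏ P ∈ S, a P = 0 ∧ ∏ P ∈ S, (a P / Ideal.absNorm P) = 0 := fun S hS => by
    push Not at hS
    obtain ⟨P, hP, h⟩ := hS
    exact ⟨prod_eq_zero hP (h0 P h), prod_eq_zero hP (by rw [h0 P h, zero_div])⟩
  refine (tendsto_tsum_of_dominated_convergence (f := fun (y : ℝ) (S : Finset (Ideal (𝓞 K))) =>
    (∑ A ∈ Fc C y, if S ⊆ (normalizedFactors A).toFinset then ∏ P ∈ S, a P else 0) / y)
    ((summable_finsetProd_of_summable_nonneg (fun _ => norm_nonneg _) hs).mul_left M)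
    (fun S => ?_) ?_).congr fun y => ?_
  · by_cases hS : ∀ P ∈ S, Prime P
    · have h1 : ∏ P ∈ S, P ≠ 0 := prod_ne_zero_iff.2 fun P hP => (hS P hP).ne_zero
      refine (((hk ((cls (∏ P ∈ S, P))⁻¹ * C)).comp (tendsto_id.atTop_div_const
        (lt_of_lt_of_le one_pos (one_le_norm h1)))).mul_const _).congr' ?_
      filter_upwards [eventually_gt_atTop 0] with y hy
      exact (key S hS y hy.ne').symm
    · simp only [(key0 S hS).1, (key0 S hS).2, ite_self, sum_const_zero, zero_div, mul_zero]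
      exact tendsto_const_nhds
  · filter_upwards [eventually_gt_atTop 0] with y hy S
    by_cases hS : ∀ P ∈ S, Prime P
    · have h1 : ∏ P ∈ S, P ≠ 0 := prod_ne_zero_iff.2 fun P hP => (hS P hP).ne_zero
      have h2 : 0 < y / Ideal.absNorm (∏ P ∈ S, P) :=
        div_pos hy (lt_of_lt_of_le one_pos (one_le_norm h1))
      rw [key S hS y hy.ne', norm_mul, norm_prod, Real.norm_of_nonneg (by positivity)]
      refine mul_le_mul_of_nonneg_right ?_ (prod_nonneg fun _ _ => norm_nonneg _)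
      rw [div_le_iff₀ h2]
      exact le_trans (by exact_mod_cast card_filter_le _ _) (hb _ h2.le)
    · simp only [(key0 S hS).1, ite_self, sum_const_zero, zero_div, norm_zero]
      exact mul_nonneg hM (prod_nonneg fun _ _ => norm_nonneg _)
  · have h1 : ∀ A : Ideal (𝓞 K), HasSum (fun S : Finset (Ideal (𝓞 K)) =>
        if S ⊆ (normalizedFactors A).toFinset then ∏ P ∈ S, a P else 0) (ww a A) := fun A => by
      rw [ww, prod_one_add, ← sum_congr rfl fun S (hS : S ∈ powerset _) =>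
        if_pos (e := 0) (mem_powerset.1 hS)]
      exact hasSum_sum_of_ne_finset_zero fun S hS => if_neg fun h => hS (mem_powerset.2 h)
    exact ((hasSum_sum fun A _ => h1 A).div_const y).tsum_eq

theorem tendsto_ww3 {k0 : ℝ}
    (hk : ∀ C : ClassGroup (𝓞 K), Tendsto (fun y : ℝ => ((Fc C y).card : ℝ) / y) atTop (𝓝 k0))
    {a : Ideal (𝓞 K) → ℝ} (h0 : ∀ P, ¬ Prime P → a P = 0)
    (hs : Summable fun P => ‖a P / Ideal.absNorm P‖) (C : ClassGroup (𝓞 K)) :
    Tendsto (fun y : ℝ => (∑ A ∈ Fc C y, (Ideal.absNorm A : ℝ) ^ 3 * ww a A) / y ^ 4) atTop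
      (𝓝 (k0 * (∏' P, (1 + a P / Ideal.absNorm P)) / 4)) := by
  have hf : ∀ (f : Ideal (𝓞 K) → ℝ) (n : ℕ), ∑ A ∈ Fc C n, f A = ∑ m ∈ range (n + 1),
      ∑ A ∈ (Fc C m).filter (fun A => Ideal.absNorm A = m), f A := fun f n => by
    rw [← sum_fiberwise_of_maps_to (t := range (n + 1)) (g := fun A => Ideal.absNorm A)
      fun A hA => mem_range.2 (Nat.lt_succ_of_le (by exact_mod_cast (mem_Fc.1 hA).2.1))]
    refine sum_congr rfl fun m hm => sum_congr ?_ fun _ _ => rfl
    have h1 : (m : ℝ) ≤ n := by exact_mod_cast Nat.le_of_lt_succ (mem_range.1 hm)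
    ext A
    simp only [mem_filter, mem_Fc]
    refine and_congr_left fun h => ?_
    rw [h]
    simp [h1]
  have h1 := tendsto_cube (c := fun m => ∑ A ∈ (Fc C m).filter (fun A => Ideal.absNorm A = m),
    ww a A) (((tendsto_ww hk h0 hs C).comp tendsto_natCast_atTop_atTop).congr fun n => by
      simp only [Function.comp, hf])
  have h2 := (h1.comp tendsto_nat_floor_atTop).mul
    ((tendsto_nat_floor_div_atTop (R := ℝ)).pow 4)
  rw [one_pow, mul_one] at h2
  refine h2.congr' ?_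
  filter_upwards [eventually_ge_atTop 1] with y hy
  have h3 : Fc C y = Fc C (⌊y⌋₊ : ℕ) := by simp only [Fc, Fa, Nat.floor_natCast]
  have h4 : (⌊y⌋₊ : ℝ) ≠ 0 := by exact_mod_cast (Nat.floor_pos.2 hy).ne'
  have h5 : ∑ m ∈ range (⌊y⌋₊ + 1), (m : ℝ) ^ 3 *
      ∑ A ∈ (Fc C m).filter (fun A => Ideal.absNorm A = m), ww a A =
      ∑ A ∈ Fc C y, (Ideal.absNorm A : ℝ) ^ 3 * ww a A := by
    rw [h3, hf]
    refine sum_congr rfl fun m _ => ?_
    rw [mul_sum]
    exact sum_congr rfl fun A hA => by rw [(mem_filter.1 hA).2]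
  simp only [Function.comp, h5]
  field_simp

end Vale.Agent.P016Z.TH.Mn
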