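import Vale.Agent.P016Z.Base.Dat
import Mathlib.Analysis.SpecialFunctions.Pow.Real

/-!
P016, block THETA: the mean value over ideals, definitions.
-/

namespace Vale.Agent.P016Z.TH

open NumberField Filter Topology UniqueFactorizationMonoid

variable {K : Type} [Field K] [NumberField K] [Dat K]

open Classical in
/-- the product of `1 - 1 / N P` over the primes `P ∣ I` which do not contain `Q` -/
noncomputable def bI (I : Ideal (𝓞 K)) : ℝ :=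
  ∏ P ∈ (normalizedFactors I).toFinset.filter (fun P => ((Q K : ℕ) : 𝓞 K) ∉ P),
    (1 - 1 / (Ideal.absNorm P : ℝ))

open Classical in
/-- `I` is a cube away from `Q` -/
def Cub (I : Ideal (𝓞 K)) : Prop :=
  ∀ P : Ideal (𝓞 K), P.IsPrime → ((Q K : ℕ) : 𝓞 K) ∉ P → 3 ∣ (normalizedFactors I).count P

open Classical in
/-- the sum of `N I * bI I` over the principal `I` divisible by `J`, cubes away from `Q`, of norm
at most `x` -/
noncomputable def AI (J : Ideal (𝓞 K)) (x : ℝ) : ℝ :=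
  ∑' I : Ideal (𝓞 K), if I ≠ ⊥ ∧ I.IsPrincipal ∧ (Ideal.absNorm I : ℝ) ≤ x ∧ Cub I ∧ J ∣ I then
    (Ideal.absNorm I : ℝ) * bI I else 0

/-- MEANI: the mean value over ideals -/
def MEANI (K : Type) [Field K] [NumberField K] [Dat K] : Prop :=
  ∃ κ : ℝ, 0 < κ ∧ ∃ C : ℝ, (∀ x : ℝ, 0 < x → AI (⊤ : Ideal (𝓞 K)) x ≤ C * x ^ (4 / 3 : ℝ)) ∧
    Tendsto (fun x : ℝ => x ^ (-(4 / 3) : ℝ) * AI (⊤ : Ideal (𝓞 K)) x) atTop (𝓝 κ) ∧
    ∀ P : Ideal (𝓞 K), P.IsPrime → P ≠ ⊥ → ((Q K : ℕ) : 𝓞 K) ∉ P →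
      Tendsto (fun x : ℝ => x ^ (-(4 / 3) : ℝ) * AI P x) atTop
        (𝓝 (κ / ((Ideal.absNorm P : ℝ) + 1)))

end Vale.Agent.P016Z.TH
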