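import Vale.Agent.P016Z.TH.Defs
import Vale.Agent.P016Z.TH.MeanDefs

/-!
P016, block THETA: the constant terms, from the mean value over ideals.
-/

namespace Vale.Agent.P016Z.TH

open NumberField Filter Topology UniqueFactorizationMonoid

set_option linter.unusedSectionVars false

variable {K : Type} [Field K] [NumberField K] [Dat K]

namespace MG

theorem cop_iff {x y : R K} : Cop (x : K) (y : K) ↔ y ≠ 0 ∧ IsCoprime x y := by
  constructor
  · rintro ⟨-, -, h0, a, ha, b, hb, h⟩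
    exact ⟨fun h => h0 (by rw [h]; rfl), ⟨a, ha⟩, ⟨b, hb⟩, Subtype.ext h⟩
  · rintro ⟨h0, a, b, h⟩
    exact ⟨x.2, y.2, coe_ne_zero h0, a, a.2, b, b.2, congrArg Subtype.val h⟩

variable (S : Sy K)

theorem s_congr {c x y : R K} (h : c ∣ x - y) : S.s x c = S.s y c := by
  obtain ⟨t, ht⟩ := h
  have h1 : (x : K) = y + c * t := by
    have := congrArg Subtype.val ht
    push_cast at this
    linear_combination this
  rw [h1, S.s_add _ _ _ t.2]

theorem s_per (c : R K) : PerM c (fun x : R K => S.s x c) := fun _ _ h => s_congr S h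

theorem s_one {c : R K} (hc : c ≠ 0) : S.s 1 c = 1 := by
  have h1 := S.s_cube 1 c ((cop_iff (x := 1)).2 ⟨hc, isCoprime_one_left⟩)
  have h2 := S.s_mul_left 1 1 c (one_mem _) (one_mem _)
  rw [mul_one] at h2
  have h3 : S.s 1 c ≠ 0 := fun h => by simp [h] at h1
  exact mul_left_cancel₀ h3 (by rw [← h2, mul_one])

theorem s_unit {u : R K} (hu : IsUnit u) (x : R K) : S.s x u = 1 := by
  rw [← s_one S hu.ne_zero]
  exact s_congr S (y := 1) hu.dvd

theorem s_mul (x : K) (a b : R K) : S.s x ((a * b : R K) : K) = S.s x a * S.s x b :=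
  S.s_mul_right x a b a.2 b.2

theorem s_pow (x p : R K) (n : ℕ) : S.s x ((p ^ n : R K) : K) = S.s x p ^ n := by
  induction n with
  | zero => rw [pow_zero, pow_zero]; exact s_unit S isUnit_one x
  | succ n ih => rw [pow_succ, pow_succ, s_mul, ih]

/-- the complete sum of the symbol -/
noncomputable def G0 (c : R K) : ℂ := rsum c fun x : R K => S.s x c

theorem G0_assoc {a b : R K} (h : Associated a b) : G0 S b = G0 S a := by
  rw [G0, G0, ← rsum_assoc h (s_per S a)]
  obtain ⟨u, rfl⟩ := h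
  refine rsum_congr fun x => ?_
  rw [s_mul, s_unit S u.isUnit, mul_one]

theorem G0_unit {u : R K} (hu : IsUnit u) : G0 S u = 1 := by
  rw [G0_assoc S (associated_one_iff_isUnit.2 hu).symm, G0, rsum_one (s_per S 1)]
  exact s_unit S isUnit_one 0

theorem G0_mul {a b : R K} (ha : a ≠ 0) (hb : b ≠ 0) (hab : IsCoprime a b) :
    G0 S (a * b) = G0 S a * G0 S b := by
  have := finite_Rs ha
  have := finite_Rs hb
  rw [G0, rsum_crt ha hab (s_per S _), G0, G0, ← rsum_comp_mul hab.symm (s_per S a),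
    ← rsum_comp_mul hab (s_per S b), ← rsum_mul_const]
  refine rsum_congr fun x => ?_
  rw [← rsum_const_mul]
  refine rsum_congr fun y => ?_
  rw [s_mul, s_congr S (c := a) (x := b * x + a * y) (y := b * x) ⟨y, by ring⟩,
    s_congr S (c := b) (x := b * x + a * y) (y := a * y) ⟨x, by ring⟩]

open Classical in
theorem rsum_ind (p : R K) : rsum p (fun x => if p ∣ x then (1 : ℂ) else 0) = 1 := by
  rw [rsum, finsum_eq_single _ (0 : Rs p) fun x hx => if_neg fun h => hx ?_, if_pos]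
  · rw [← rs_eq_zero, rs_out]
  · rw [← rs_out x, rs_eq_zero]
    exact h

theorem G0_pow {p : R K} (hp : Prime p) (j : ℕ) :
    G0 S (p ^ (j + 1)) = (Nr (p ^ (j + 1)) : ℂ) *
      if 3 ∣ j + 1 then 1 - 1 / (Nr p : ℂ) else 0 := by
  classical
  have := finite_Rs hp.ne_zero
  have := finite_Rs (pow_ne_zero j hp.ne_zero)
  have hN : (Nr p : ℂ) ≠ 0 := by exact_mod_cast Nr_ne_zero hp.ne_zero
  have h1 : G0 S (p ^ (j + 1)) = (Nr (p ^ j) : ℂ) * rsum p fun x => S.s x p ^ (j + 1) := by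
    have h2 := s_per S (p ^ (j + 1))
    rw [G0, rsum_congr fun x => s_pow S x p (j + 1), pow_succ' p,
      rsum_mul hp.ne_zero (((s_per S p).pow (j + 1)).mono (dvd_mul_right _ _)), ← rsum_const_mul]
    refine rsum_congr fun x => ?_
    rw [← rsum_const]
    exact rsum_congr fun y => by rw [s_congr S (c := p) (x := x + p * y) (y := x) ⟨y, by ring⟩]
  rw [h1, pow_succ p, Nr_mul, Nat.cast_mul, mul_assoc]
  congr 1
  split_ifs with h
  · obtain ⟨i, hi⟩ := h
    have h3 : ∀ x : R K, S.s x p ^ (j + 1) = 1 + (-1) * if p ∣ x then (1 : ℂ) else 0 := by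
      intro x
      split_ifs with hx
      · rw [S.s_zero _ _ fun hc => hp.not_isUnit ((cop_iff.1 hc).2.symm.isUnit_of_dvd hx)]
        simp
      · rw [hi, pow_mul, S.s_cube _ _
          (cop_iff.2 ⟨hp.ne_zero, (hp.irreducible.coprime_iff_not_dvd.2 hx).symm⟩)]
        simp
    rw [rsum_congr h3, rsum_add, rsum_const, rsum_const_mul, rsum_ind]
    field_simp
    ring
  · obtain ⟨x0, hc, hx0⟩ := S.nontriv p hp
    lift x0 to R K using hc.1
    have h3 := rsum_comp_mul (cop_iff.1 hc).2 ((s_per S p).pow (j + 1))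
    have h4 : ∀ x : R K, S.s ((x0 * x : R K) : K) p ^ (j + 1) =
        S.s x0 p ^ (j + 1) * S.s x p ^ (j + 1) := fun x => by
      rw [← mul_pow, ← S.s_mul_left _ _ _ x0.2 x.2]
      rfl
    rw [rsum_congr h4, rsum_const_mul] at h3
    have h5 : S.s x0 p ^ (j + 1) ≠ 1 := fun h5 => hx0 ((pow_eq_one_iff_of_coprime
      ((Nat.Prime.coprime_iff_not_dvd Nat.prime_three).2 h)).1 ⟨S.s_cube _ _ hc, h5⟩)
    rw [mul_zero]
    by_contra h6
    exact h5 (mul_right_cancel₀ h6 (h3.trans (one_mul _).symm))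

open Classical in
/-- the density of the sum -/
noncomputable def TI (I : Ideal (𝓞 K)) : ℝ := if Cub I then bI I else 0

theorem TI_one : TI (1 : Ideal (𝓞 K)) = 1 := by
  rw [TI, if_pos, bI, normalizedFactors_one]
  · simp
  · intro P _ _
    rw [normalizedFactors_one]
    simp

theorem TI_mul {I J : Ideal (𝓞 K)} (hI : I ≠ 0) (hJ : J ≠ 0) (h : IsRelPrime I J) :
    TI (I * J) = TI I * TI J := by
  classical
  have hd := disjoint_normalizedFactors h
  have h1 : bI (I * J) = bI I * bI J := by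
    rw [bI, bI, bI, normalizedFactors_mul hI hJ, Multiset.toFinset_add, Finset.filter_union,
      Finset.prod_union (Finset.disjoint_filter_filter (Multiset.disjoint_toFinset.2 hd))]
  have h2 : Cub (I * J) ↔ Cub I ∧ Cub J := by
    simp only [Cub, normalizedFactors_mul hI hJ, Multiset.count_add, ← forall_and]
    refine forall₃_congr fun P _ _ => ?_
    by_cases hP : P ∈ normalizedFactors I
    · rw [Multiset.count_eq_zero.2 (Multiset.disjoint_left.1 hd hP)]
      simp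
    · rw [Multiset.count_eq_zero.2 hP]
      simp
  rw [TI, TI, TI, h1, h2]
  by_cases ha : Cub I <;> by_cases hb : Cub J <;> simp [ha, hb]

open Classical in
theorem TI_pow {P : Ideal (𝓞 K)} (hP : Prime P) (j : ℕ) :
    TI (P ^ (j + 1)) = if ((Q K : ℕ) : 𝓞 K) ∈ P then 1 else
      if 3 ∣ j + 1 then 1 - 1 / (Ideal.absNorm P : ℝ) else 0 := by
  have h1 : normalizedFactors (P ^ (j + 1)) = Multiset.replicate (j + 1) P := by
    rw [hP.irreducible.normalizedFactors_pow, normalize_eq]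
  have h2 : bI (P ^ (j + 1)) = if ((Q K : ℕ) : 𝓞 K) ∈ P then 1 else
      1 - 1 / (Ideal.absNorm P : ℝ) := by
    rw [bI, h1, Multiset.toFinset_replicate, if_neg j.succ_ne_zero, Finset.filter_singleton]
    by_cases h : ((Q K : ℕ) : 𝓞 K) ∈ P <;> simp [h]
  rw [TI, h2]
  by_cases h : ((Q K : ℕ) : 𝓞 K) ∈ P
  · rw [if_pos h, if_pos h, if_pos]
    intro P' _ hQ
    rw [h1, Multiset.count_replicate, if_neg fun e : P = P' => hQ (e ▸ h)]
    exact dvd_zero 3
  · rw [if_neg h, if_neg h]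
    refine if_congr ⟨fun hc => ?_, fun hc P' _ _ => ?_⟩ rfl rfl
    · have := hc P (Ideal.isPrime_of_prime hP) h
      rwa [h1, Multiset.count_replicate_self] at this
    · rw [h1, Multiset.count_replicate]
      split_ifs
      · exact hc
      · exact dvd_zero 3

theorem exists_prime {P : Ideal (𝓞 K)} (hP : Prime P) (h : ((Q K : ℕ) : 𝓞 K) ∉ P) :
    ∃ p : R K, Prime p ∧ P.map toR = Ideal.span {p} ∧ Nr p = Ideal.absNorm P := by
  have := isLocalization_Loc (K := K) (zero_notMem_powers K)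
  have hP' := Ideal.isPrime_of_prime hP
  have hd : Disjoint (((Submonoid.powers (Q K)).map (Nat.castRingHom (𝓞 K)) : Submonoid (𝓞 K)) :
      Set (𝓞 K)) (P : Set (𝓞 K)) := by
    rw [Set.disjoint_left]
    rintro _ ⟨_, ⟨n, rfl⟩, rfl⟩ hn
    exact h (hP'.mem_of_pow_mem n (by simpa using hn))
  obtain ⟨p, hp⟩ := (IsPrincipalIdealRing.principal (P.map (toR (K := K)))).principal
  have hp' : P.map toR = Ideal.span {p} := hp
  have h1 : idl p = P := by
    rw [idl, ← hp']
    exact IsLocalization.under_map_of_isPrime_disjoint _ (R K) hP' hd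
  have h2 : p ≠ 0 := by
    rintro rfl
    refine hP.ne_zero (h1.symm.trans (eq_bot_iff.2 fun x hx => ?_))
    rw [mem_idl, zero_dvd_iff] at hx
    exact RingOfIntegers.ext (congrArg (fun t : R K => (t : K)) hx)
  refine ⟨p, (Ideal.span_singleton_prime h2).1 ?_, hp', by rw [Nr_eq_absNorm h2, h1]⟩
  rw [← hp']
  exact IsLocalization.isPrime_of_isPrime_disjoint _ (R K) P hP' hd

theorem G0_eq (I : Ideal (𝓞 K)) : I ≠ 0 → ∀ c : R K, I.map toR = Ideal.span {c} →
    G0 S c = (Nr c : ℂ) * (TI I : ℂ) := by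
  have hu : ∀ c : R K, (⊤ : Ideal (R K)) = Ideal.span {c} → G0 S c = (Nr c : ℂ) * ((1 : ℝ) : ℂ) :=
    fun c hc => by
      have h := Ideal.span_singleton_eq_top.1 hc.symm
      rw [G0_unit S h, Nr, Nq_eq_one_iff.2 h]
      simp
  have h1 : ∀ c : R K, (1 : Ideal (𝓞 K)).map toR = Ideal.span {c} →
      G0 S c = (Nr c : ℂ) * (TI (1 : Ideal (𝓞 K)) : ℂ) := fun c hc => by
    rw [TI_one]
    rw [Ideal.one_eq_top, Ideal.map_top] at hc
    exact hu c hc
  induction I using induction_on_coprime with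
  | h0 => exact fun h => (h rfl).elim
  | h1 hx =>
    rw [isUnit_iff_eq_one.1 hx]
    exact fun _ => h1
  | @hpr P n hP =>
    intro _ c hc
    cases n with
    | zero => rw [pow_zero] at hc ⊢; exact h1 c hc
    | succ j =>
      rw [TI_pow hP]
      rw [Ideal.map_pow] at hc
      by_cases h : ((Q K : ℕ) : 𝓞 K) ∈ P
      · rw [if_pos h]
        refine hu c ?_
        rw [← hc, Ideal.eq_top_of_isUnit_mem _ (Ideal.mem_map_of_mem toR h)
          (by simpa using isUnit_Q), Ideal.top_pow]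
      · obtain ⟨p, hp, h2, h3⟩ := exists_prime hP h
        rw [h2, Ideal.span_singleton_pow, Ideal.span_singleton_eq_span_singleton] at hc
        rw [if_neg h, G0_assoc S hc, G0_pow S hp, Nr, Nq_congr hc, h3]
        split_ifs <;> simp
  | @hcp I J hIJ ih1 ih2 =>
    intro h0 c hc
    have hI := left_ne_zero_of_mul h0
    have hJ := right_ne_zero_of_mul h0
    have hinj : Function.Injective (toR (K := K)) := fun x y h =>
      RingOfIntegers.ext (congrArg (fun t : R K => (t : K)) h)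
    obtain ⟨a, ha⟩ := (IsPrincipalIdealRing.principal (I.map (toR (K := K)))).principal
    obtain ⟨b, hb⟩ := (IsPrincipalIdealRing.principal (J.map (toR (K := K)))).principal
    have ha' : I.map toR = Ideal.span {a} := ha
    have hb' : J.map toR = Ideal.span {b} := hb
    have ha0 : a ≠ 0 := fun h => hI ((Ideal.map_eq_bot_iff_of_injective hinj).1 (by
      rw [ha', h, Ideal.span_singleton_zero]))
    have hb0 : b ≠ 0 := fun h => hJ ((Ideal.map_eq_bot_iff_of_injective hinj).1 (by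
      rw [hb', h, Ideal.span_singleton_zero]))
    have hs : I ⊔ J = ⊤ := Ideal.isUnit_iff.1
      (hIJ (Ideal.dvd_iff_le.2 le_sup_left) (Ideal.dvd_iff_le.2 le_sup_right))
    have hab : IsCoprime a b := by
      rw [← Ideal.isCoprime_span_singleton_iff, Ideal.isCoprime_iff_sup_eq, ← ha', ← hb',
        ← Ideal.map_sup, hs, Ideal.map_top]
    rw [Ideal.map_mul, ha', hb', Ideal.span_singleton_mul_span_singleton,
      Ideal.span_singleton_eq_span_singleton] at hc
    rw [G0_assoc S hc, G0_mul S ha0 hb0 hab, ih1 hI a ha', ih2 hJ b hb', TI_mul hI hJ hIJ,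
      show Nr c = Nr (a * b) from (Nq_congr hc).symm, Nr_mul]
    push_cast
    ring

theorem a0_eq {k : ℕ} (hk : 1 ≤ k) {c : K} (hc : c ∈ Lat (lv K k)) (hc0 : c ≠ 0) {d : K}
    (hd : d - 1 ∈ Lat (lv K k)) : S.a0 k c d = S.s d c := by
  have h1 : (d - 1) / (Q K : K) ^ (k + 1) ∈ Si K := mem_Si_of_isIntegral hd
  have h2 : (d - 1) / lv K 1 ∈ Si K := div_pow_mem_Si_mono h1 (by omega)
  have h3 : d ≠ 0 := (inv_mem_Si_of_sub_one
    (by simpa using div_pow_mem_Si_mono (k := 1) h1 (by omega))).2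
  rw [Sy.a0, if_pos ⟨hc, hd⟩]
  by_cases h : Cop c d
  · rw [S.recip c d h hc0, S.h_one c d hc0 h2, one_mul]
  · rw [S.s_zero c d h, S.s_zero d c]
    rintro ⟨e1, e2, -, a, ha, b, hb, e⟩
    exact h ⟨e2, e1, h3, b, hb, a, ha, by rw [add_comm, e]⟩

theorem exists_eq_mul {m x : K} (hm : m ≠ 0) (h : x ∈ Lat m) : ∃ y : 𝓞 K, x = m * y :=
  ⟨⟨x / m, h⟩, by
    change x = m * (x / m)
    field_simp⟩

theorem mul_mem_self {m : K} (hm : m ≠ 0) (y : 𝓞 K) : m * y ∈ Lat m := by
  rw [mem_Lat, mul_div_cancel_left₀ _ hm]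
  exact y.isIntegral_coe

theorem gs_eq_rsum {k : ℕ} (hk : 1 ≤ k) {c : 𝓞 K} (hc : (c : K) ∈ Lat (lv K k)) (hc0 : c ≠ 0) :
    gs (Lat (lv K k)) (S.a0 k) 0 c = rsum c fun y => S.s (1 + lv K k * y) c := by
  have hm := lv_ne (K := K) k
  have hcK : (c : K) ≠ 0 := by exact_mod_cast hc0
  let F : Rs c → K ⧸ Lat (lv K k) := fun y =>
    QuotientAddGroup.mk ((1 + lv K k * ((Quotient.out y : 𝓞 K) : K)) / c)
  have hF : ∀ (y : Rs c) (x : 𝓞 K), F y = QuotientAddGroup.mk ((1 + lv K k * (x : K)) / c) ↔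
      y = rs c x := by
    intro y x
    rw [QuotientAddGroup.eq, mem_Lat, ← rs_out y, rs_eq, rs_out, dvd_sub_comm]
    have e : (-((1 + lv K k * ((Quotient.out y : 𝓞 K) : K)) / c) + (1 + lv K k * (x : K)) / c) /
        lv K k = ((x - Quotient.out y : 𝓞 K) : K) / c := by
      push_cast
      field_simp
      ring
    rw [e]
    constructor
    · intro h
      refine ⟨⟨_, h⟩, RingOfIntegers.ext ?_⟩
      change ((x - Quotient.out y : 𝓞 K) : K) = (c : K) * (((x - Quotient.out y : 𝓞 K) : K) / c)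
      field_simp
    · rintro ⟨t, ht⟩
      rw [ht]
      push_cast
      rw [mul_div_cancel_left₀ _ hcK]
      exact t.isIntegral_coe
  have hinj : Function.Injective F := fun y y' h => ((hF y _).1 h).trans (rs_out y')
  have e0 : ∀ t : K, eT ((0 : K) * t) = 1 := fun t => by rw [zero_mul, eT, trR_zero, ee_zero]
  rw [gs, qs, ← finsum_mem_univ, finsum_mem_inter_support_eq' _ _ (Set.range F) fun q hq => ?_,
    finsum_mem_range hinj, rsum]
  · refine finsum_congr fun y => ?_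
    obtain ⟨t, ht⟩ := QuotientAddGroup.mk_out_eq_add (Lat (lv K k))
      ((1 + lv K k * ((Quotient.out y : 𝓞 K) : K)) / c)
    have e : (c : K) * (F y).out = 1 + lv K k * ((Quotient.out y : 𝓞 K) : K) + c * t := by
      rw [ht]
      field_simp
    rw [e0, mul_one, e, a0_eq S hk hc hcK, S.s_add _ _ _
      (mem_R_of_isIntegral (isIntegral_of_mem_Lat t.2))]
    rw [add_assoc, add_sub_cancel_left]
    exact add_mem (mul_mem_self hm _) (mul_mem_Lat c.isIntegral_coe t.2)
  · refine ⟨fun _ => ?_, fun _ => trivial⟩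
    have h1 : (c : K) * q.out - 1 ∈ Lat (lv K k) := by
      by_contra h
      refine hq (mul_eq_zero_of_left ?_ _)
      rw [Sy.a0, if_neg fun h' => h h'.2]
    obtain ⟨x, hx⟩ := exists_eq_mul hm h1
    refine ⟨rs c x, ((hF _ _).2 rfl).trans ?_⟩
    rw [← hx, add_sub_cancel, mul_div_cancel_left₀ _ hcK, QuotientAddGroup.out_eq']

theorem rsum_O (k : ℕ) {c : 𝓞 K} (hc0 : c ≠ 0) :
    (Nr (toR c) : ℂ) * (rsum c fun y => S.s (1 + lv K k * y) c) = (nm (c : K) : ℂ) * G0 S (toR c) := by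
  have hcR : toR c ≠ 0 := fun h => hc0 (RingOfIntegers.ext (congrArg (fun t : R K => (t : K)) h))
  have := finite_Rs hcR
  have hN : Nq c = Ideal.absNorm (Ideal.span {c}) := by
    rw [Ideal.absNorm_apply, Submodule.cardQuot_apply]
    rfl
  have : Finite (Rs c) := Nat.finite_of_card_ne_zero (hN.trans_ne (by
    rwa [Ne, Ideal.absNorm_eq_zero_iff, Ideal.span_singleton_eq_bot]))
  let h : 𝓞 K → R K → ℂ := fun y b => S.s ((b + (1 + (Q K : R K) ^ (k + 1) * toR y) : R K) : K) (toR c)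
  have h0 : ∀ y : 𝓞 K, S.s (1 + lv K k * y) c = h y 0 := fun y => by
    simp only [h, zero_add, lv]
    push_cast
    rfl
  have h1 : ∀ b, rsum c (fun y => h y b) = rsum c (fun y => h y 0) := by
    intro b
    obtain ⟨y₀, hy⟩ := exists_small_mod b (toR c) hcR (k + 1)
    have hp : PerM c fun y => h y 0 := fun y y' ⟨t, ht⟩ => s_congr S
      ⟨(Q K : R K) ^ (k + 1) * toR t, by
        rw [sub_eq_iff_eq_add.1 ht, map_add, map_mul]
        ring⟩
    rw [← rsum_comp_add y₀ hp]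
    refine rsum_congr fun y => s_congr S ?_
    rw [← dvd_neg]
    refine hy.trans (dvd_of_eq ?_)
    rw [map_add]
    ring
  have h2 : ∀ y, rsum (toR c) (h y) = G0 S (toR c) := fun y =>
    rsum_comp_add _ (s_per S (toR c))
  have h3 : rsum (toR c) (fun b => rsum c fun y => h y b) = rsum c fun y => rsum (toR c) (h y) := by
    have := Fintype.ofFinite (Rs c)
    have := Fintype.ofFinite (Rs (toR c))
    simp only [rsum_eq_sum]
    exact Finset.sum_comm
  rw [rsum_congr h1, rsum_congr h2, rsum_const, rsum_const] at h3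
  rw [rsum_congr h0, h3, nm, nm_eq_absNorm, hN]
  rfl

theorem gs_a0 {k : ℕ} (hk : 1 ≤ k) {c : 𝓞 K} (hc0 : c ≠ 0) :
    gs (Lat (lv K k)) (S.a0 k) 0 (lv K k * c) =
      ((nm (lv K k * c) * TI (Ideal.span {c}) : ℝ) : ℂ) := by
  have hm := lv_ne (K := K) k
  let c' : 𝓞 K := (Q K : 𝓞 K) ^ (k + 1) * c
  have e : lv K k * c = (c' : K) := by simp [c', lv]
  have hc' : c' ≠ 0 := mul_ne_zero (pow_ne_zero _ (by exact_mod_cast Q_ne K)) hc0
  have hcR : toR c' ≠ 0 := fun h => hc' (RingOfIntegers.ext (congrArg (fun t : R K => (t : K)) h))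
  have hN : (Nr (toR c') : ℂ) ≠ 0 := by exact_mod_cast Nr_ne_zero hcR
  have hL : (c' : K) ∈ Lat (lv K k) := e ▸ mul_mem_self hm c
  have h1 := G0_eq S (Ideal.span {c}) (by rwa [Ne, Ideal.zero_eq_bot, Ideal.span_singleton_eq_bot])
    (toR c') (by
      rw [Ideal.map_span, Set.image_singleton, map_mul, map_pow, map_natCast,
        Ideal.span_singleton_mul_left_unit (isUnit_Q.pow _)])
  rw [e, gs_eq_rsum S hk hL hc']
  refine mul_left_cancel₀ hN ?_
  rw [rsum_O S k hc', h1]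
  push_cast
  ring

/-- sums over the elements modulo units as sums over principal ideals -/
theorem us_eq {k : ℕ} (hβ : Part (Ou K) 1 (bet K k)) {m : K} (hm : m ≠ 0)
    {Φ : Ideal (𝓞 K) → ℂ} (hfin : (Function.support Φ).Finite)
    (hΦ : ∀ I, Φ I ≠ 0 → I ≠ ⊥ ∧ I.IsPrincipal) {f : K → ℂ}
    (h1 : ∀ c : 𝓞 K, f (m * c) = Φ (Ideal.span {c})) (h2 : ∀ c, c ∉ Lat m → f c = 0) :
    us k f = ∑' I, Φ I := by
  classical
  let g : Ideal (𝓞 K) → K → ℂ := fun I c =>
    if ∃ x : 𝓞 K, c = m * x ∧ Ideal.span {x} = I then (bet K k (ab c) : ℂ) * Φ I else 0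
  have hg : ∀ I ∈ hfin.toFinset, HasSum (g I) (Φ I) := by
    intro I hI
    obtain ⟨hI0, x, hx⟩ := hΦ I (hfin.mem_toFinset.1 hI)
    have hx' : I = Ideal.span {x} := hx
    have hx0 : (x : K) ≠ 0 := by
      rw [hx', Ne, Ideal.span_singleton_eq_bot] at hI0
      exact_mod_cast hI0
    have hinj : Function.Injective fun u : Ou K => ((u : Kˣ) : K) * (m * x) := fun u v h =>
      Subtype.ext (Units.ext (mul_right_cancel₀ (mul_ne_zero hm hx0) h))
    rw [← hinj.hasSum_iff]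
    · have h3 := hβ.sum (ab (m * x)) fun j =>
        Complex.normSq_pos.2 ((map_ne_zero _).2 (mul_ne_zero hm hx0))
      have h4 := (Complex.hasSum_ofReal.2 h3).mul_right (Φ I)
      rw [Complex.ofReal_one, one_mul] at h4
      refine h4.congr_fun fun u => ?_
      let v : 𝓞 K := ⟨_, isIntegral_of_mem u.2.1.1 u.2.2.1⟩
      have hv : IsUnit v := IsUnit.of_mul_eq_one ⟨_, isIntegral_of_mem u.2.1.2 u.2.2.2⟩
        (RingOfIntegers.ext (mul_inv_cancel₀ (u : Kˣ).ne_zero))
      have e : ab (((u : Kˣ) : K) * (m * x)) = ab ((u : Kˣ) : K) * ab (m * x) := by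
        funext j
        simp only [ab, map_mul, Pi.mul_apply]
      rw [← e]
      refine if_pos ⟨v * x, ?_, by rw [Ideal.span_singleton_mul_left_unit hv, hx']⟩
      change ((u : Kˣ) : K) * (m * x) = m * (((u : Kˣ) : K) * x)
      ring
    · intro c hc
      refine if_neg ?_
      rintro ⟨y, rfl, hy⟩
      rw [hx', Ideal.span_singleton_eq_span_singleton] at hy
      obtain ⟨u, rfl⟩ := hy.symm
      let v : Kˣ := Units.map (algebraMap (𝓞 K) K : 𝓞 K →* K) u
      have hv : IsIntegral ℤ (v : K) := (u : 𝓞 K).isIntegral_coe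
      have hv' : IsIntegral ℤ (v : K)⁻¹ := by
        rw [← Units.val_inv_eq_inv_val]
        exact ((u⁻¹ : (𝓞 K)ˣ) : 𝓞 K).isIntegral_coe
      refine hc ⟨⟨v, ⟨mem_R_of_isIntegral hv, mem_R_of_isIntegral hv'⟩,
        mem_Si_of_isIntegral hv, mem_Si_of_isIntegral hv'⟩, ?_⟩
      change ((u : 𝓞 K) : K) * (m * x) = _
      push_cast
      ring
  have h5 := hasSum_sum hg
  rw [tsum_eq_sum (s := hfin.toFinset) fun I hI => by simpa using hI, ← h5.tsum_eq, us]
  refine tsum_congr fun c => ?_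
  by_cases hc : c ∈ Lat m
  · obtain ⟨x, rfl⟩ := exists_eq_mul hm hc
    rw [h1, Finset.sum_eq_single (Ideal.span {x})]
    · exact (if_pos ⟨x, rfl, rfl⟩).symm
    · intro I _ hI
      refine if_neg ?_
      rintro ⟨y, hy, rfl⟩
      exact hI (by rw [RingOfIntegers.ext (mul_left_cancel₀ hm hy)])
    · intro hI
      have : Φ (Ideal.span {x}) = 0 := by simpa using hI
      simp [g, this]
  · rw [h2 c hc, mul_zero]
    refine (Finset.sum_eq_zero fun I _ => if_neg ?_).symm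
    rintro ⟨y, rfl, -⟩
    exact hc (mul_mem_self hm y)

theorem bI_nonneg (I : Ideal (𝓞 K)) : 0 ≤ bI I := by
  refine Finset.prod_nonneg fun P _ => sub_nonneg.2 ?_
  rw [one_div]
  exact Nat.cast_inv_le_one _

open Classical in
/-- the terms of `AI` -/
noncomputable def tA (J : Ideal (𝓞 K)) (x : ℝ) (I : Ideal (𝓞 K)) : ℝ :=
  if I ≠ ⊥ ∧ I.IsPrincipal ∧ (Ideal.absNorm I : ℝ) ≤ x ∧ Cub I ∧ J ∣ I then
    (Ideal.absNorm I : ℝ) * bI I else 0

theorem tA_nonneg (J : Ideal (𝓞 K)) (x : ℝ) (I : Ideal (𝓞 K)) : 0 ≤ tA J x I := by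
  unfold tA
  split_ifs
  · exact mul_nonneg (Nat.cast_nonneg _) (bI_nonneg I)
  · exact le_rfl

theorem tA_fin (J : Ideal (𝓞 K)) (x : ℝ) : (Function.support (tA J x)).Finite :=
  (Ideal.finite_setOfPred_absNorm_le ⌊x⌋₊).subset fun I hI => by
    by_contra h
    exact hI (if_neg fun h' => h (Nat.le_floor h'.2.2.1))

theorem abs_AI_le (J : Ideal (𝓞 K)) (x : ℝ) : |AI J x| ≤ AI (⊤ : Ideal (𝓞 K)) x := by
  change |∑' I, tA J x I| ≤ ∑' I, tA ⊤ x I
  rw [abs_of_nonneg (tsum_nonneg (tA_nonneg J x))]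
  refine (summable_of_hasFiniteSupport (tA_fin J x)).tsum_le_tsum (fun I => ?_)
    (summable_of_hasFiniteSupport (tA_fin ⊤ x))
  rw [tA]
  split_ifs with h
  · rw [tA, if_pos ⟨h.1, h.2.1, h.2.2.1, h.2.2.2.1, Ideal.dvd_iff_le.2 le_top⟩]
  · exact tA_nonneg _ _ _

theorem Sg_eq {k : ℕ} (hk : 1 ≤ k) (hβ : Part (Ou K) 1 (bet K k)) {p : R K} (hp : p ≠ 0) (x : ℝ) :
    Sg k (Lat (lv K k)) (fun c d => S.a0 k c d * ln (p : K) 0 1 c d) 0 x =
      ((nm (lv K k) * AI (idl p) (x / nm (lv K k)) : ℝ) : ℂ) := by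
  classical
  have hm := lv_ne (K := K) k
  have hM : 0 < nm (lv K k) := (cmK K).nm_pos hm
  have hg : ∀ c, gs (Lat (lv K k)) (fun c d => S.a0 k c d * ln (p : K) 0 1 c d) 0 c =
      (if c / p ∈ R K then 1 else 0) * gs (Lat (lv K k)) (S.a0 k) 0 c := fun c => by
    rw [gs, gs, qs, qs, mul_finsum]
    refine finsum_congr fun q => ?_
    simp only [ln, mul_one, mul_zero, sub_zero]
    ring
  change _ = ((nm (lv K k) * ∑' I, tA (idl p) (x / nm (lv K k)) I : ℝ) : ℂ)
  rw [← tsum_mul_left, Complex.ofReal_tsum, Sg]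
  refine us_eq hβ hm ((tA_fin (idl p) (x / nm (lv K k))).subset fun I hI h => hI (by simp [h]))
    (fun I hI => ?_) (fun c => ?_) fun c hc => ?_
  · by_contra h
    exact hI (by rw [tA, if_neg fun h' => h ⟨h'.1, h'.2.1⟩]; simp)
  · by_cases hc : c = 0
    · simp [hc, tA]
    have hcK : (c : K) ≠ 0 := by exact_mod_cast hc
    have e1 : nm (lv K k * c) = nm (lv K k) * Ideal.absNorm (Ideal.span {c}) := by
      rw [nm, (cmK K).nm_mul, nm_eq_absNorm]
    have e2 : lv K k * c / p ∈ R K ↔ idl p ∣ Ideal.span {c} := by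
      rw [Ideal.dvd_iff_le, Ideal.span_singleton_le_iff_mem, mem_idl,
        ← (isUnit_Q.pow (k + 1)).dvd_mul_left, dvd_iff_div_mem hp]
      simp [lv]
    have e3 : (Ideal.span {c} : Ideal (𝓞 K)).IsPrincipal := ⟨c, rfl⟩
    rw [hg, gs_a0 S hk hc, e1, tA, TI]
    simp only [le_div_iff₀' hM, e2, ne_eq, mul_ne_zero hm hcK, Ideal.span_singleton_eq_bot, hc, e3,
      not_false_eq_true, true_and]
    generalize (Ideal.span {c} : Ideal (𝓞 K)) = I
    by_cases h1 : nm (lv K k) * Ideal.absNorm I ≤ x <;> by_cases h2 : Cub I <;>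
      by_cases h3 : idl p ∣ I <;> simp [h1, h2, h3, mul_assoc]
  · rw [hg, gs, qs, finsum_eq_zero_of_forall_eq_zero fun q => by
      rw [Sy.a0, if_neg fun h => hc h.1, zero_mul]]
    simp

theorem scale {M : ℝ} (hM : 0 < M) {x : ℝ} (hx : 0 < x) (a : ℝ) :
    x ^ (-(4 / 3) : ℝ) * (M * a) = M * M ^ (-(4 / 3) : ℝ) * ((x / M) ^ (-(4 / 3) : ℝ) * a) := by
  have := (Real.rpow_pos_of_pos hM (-(4 / 3) : ℝ)).ne'
  rw [Real.div_rpow hx.le hM.le]
  field_simp

theorem tendsto_scale {M κ : ℝ} (hM : 0 < M) {A : ℝ → ℝ}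
    (h : Tendsto (fun x : ℝ => x ^ (-(4 / 3) : ℝ) * A x) atTop (𝓝 κ)) :
    Tendsto (fun x : ℝ => ((x ^ (-(4 / 3) : ℝ) : ℝ) : ℂ) * ((M * A (x / M) : ℝ) : ℂ)) atTop
      (𝓝 ((M * M ^ (-(4 / 3) : ℝ) * κ : ℝ) : ℂ)) := by
  have h1 := ((h.comp (tendsto_id.atTop_div_const hM)).const_mul
    (M * M ^ (-(4 / 3) : ℝ))).ofReal
  refine h1.congr' ((eventually_gt_atTop 0).mono fun x hx => ?_)
  beta_reduce
  rw [← Complex.ofReal_mul, scale hM hx]
  rfl

end MG

open MG in
/-- the constant terms -/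
theorem mean_of (S : Sy K) (hP : PART K) (_hR : RESEL K) (hI : MEANI K) : MEAN S := by
  intro k hk
  obtain ⟨κ, hκ, C, h1, h2, h3⟩ := hI
  have hβ := hP.2.2 k
  have hM : 0 < nm (lv K k) := (cmK K).nm_pos (lv_ne k)
  have hb : ∀ (J : Ideal (𝓞 K)) (x : ℝ), 0 < x →
      ‖((nm (lv K k) * AI J (x / nm (lv K k)) : ℝ) : ℂ)‖ ≤
        nm (lv K k) * C / nm (lv K k) ^ (4 / 3 : ℝ) * x ^ (4 / 3 : ℝ) := fun J x hx => by
    rw [Complex.norm_real, Real.norm_eq_abs, abs_mul, abs_of_pos hM]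
    refine (mul_le_mul_of_nonneg_left ((abs_AI_le J _).trans (h1 _ (div_pos hx hM))) hM.le).trans
      (le_of_eq ?_)
    rw [Real.div_rpow hx.le hM.le]
    ring
  have e : ∀ x, Sg k (Lat (lv K k)) (S.a0 k) 0 x =
      ((nm (lv K k) * AI (⊤ : Ideal (𝓞 K)) (x / nm (lv K k)) : ℝ) : ℂ) := fun x => by
    have h := Sg_eq S hk hβ one_ne_zero x
    rw [idl, Ideal.span_singleton_one, Ideal.comap_top] at h
    rw [← h]
    congr 1
    funext c d
    rw [Sy.a0, ln]
    split_ifs with h4 h5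
    · rw [mul_one]
    · exact (h5 (by simpa using mem_R_of_isIntegral (isIntegral_of_mem_Lat h4.1))).elim
    · rw [zero_mul]
    · rw [zero_mul]
  refine ⟨nm (lv K k) * nm (lv K k) ^ (-(4 / 3) : ℝ) * κ, by positivity,
    nm (lv K k) * C / nm (lv K k) ^ (4 / 3 : ℝ), fun x hx => e x ▸ hb _ x hx, ?_,
    fun p hp => ⟨fun x hx => Sg_eq S hk hβ hp.ne_zero x ▸ hb _ x hx, ?_⟩⟩
  · simp only [e]
    exact tendsto_scale hM h2
  · simp only [Sg_eq S hk hβ hp.ne_zero]
    have h4 := tendsto_scale hM (h3 (idl p)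
      (((Ideal.span_singleton_prime hp.ne_zero).2 hp).comap toR) (idl_ne_bot hp.ne_zero) fun h =>
        hp.not_isUnit (isUnit_of_dvd_unit (by simpa using mem_idl.1 h) isUnit_Q))
    rw [← Nr_eq_absNorm hp.ne_zero, ← mul_div_assoc, Complex.ofReal_div] at h4
    simpa only [Complex.ofReal_add, Complex.ofReal_natCast, Complex.ofReal_one] using h4

end Vale.Agent.P016Z.TH
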