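import Vale.Agent.P016Z.TH.MeanDefs
import Vale.Agent.P016Z.TH.MeanA

/-!
P016, block THETA: the mean value over ideals.
-/

namespace Vale.Agent.P016Z.TH

open NumberField Filter Topology UniqueFactorizationMonoid Finset
open scoped Classical

set_option linter.unusedSectionVars false

variable {K : Type} [Field K] [NumberField K] [Dat K]

namespace Mn

theorem two_le_norm {P : Ideal (𝓞 K)} (hP : Prime P) : (2 : ℝ) ≤ Ideal.absNorm P := by
  have h0 : Ideal.absNorm P ≠ 0 := fun h => hP.ne_zero (Ideal.absNorm_eq_zero_iff.1 h)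
  have h1 : Ideal.absNorm P ≠ 1 := fun h => hP.ne_one
    ((Ideal.absNorm_eq_one_iff.1 h).trans Ideal.one_eq_top.symm)
  exact_mod_cast (by omega : 2 ≤ Ideal.absNorm P)

/-- the coefficients of `bI` -/
noncomputable def aQ (P : Ideal (𝓞 K)) : ℝ :=
  if Prime P ∧ ((Q K : ℕ) : 𝓞 K) ∉ P then -(1 / (Ideal.absNorm P : ℝ)) else 0

theorem ww_aQ (A : Ideal (𝓞 K)) : ww aQ A = bI A := by
  rw [ww, bI, prod_filter]
  refine prod_congr rfl fun P hP => ?_
  have := prime_of_normalized_factor P (Multiset.mem_toFinset.1 hP)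
  by_cases h : ((Q K : ℕ) : 𝓞 K) ∉ P
  · rw [aQ, if_pos ⟨this, h⟩, if_pos h, sub_eq_add_neg]
  · rw [aQ, if_neg fun h1 => h h1.2, if_neg h, add_zero]

theorem norm_aQ (P : Ideal (𝓞 K)) :
    ‖aQ P / Ideal.absNorm P‖ ≤ 1 / (Ideal.absNorm P : ℝ) ^ 2 := by
  unfold aQ
  split_ifs
  · rw [neg_div, norm_neg, Real.norm_of_nonneg (by positivity), div_div, sq]
  · simp

theorem summable_aQ : Summable fun P : Ideal (𝓞 K) => ‖aQ P / Ideal.absNorm P‖ :=
  (summable_norm K).of_nonneg_of_le (fun _ => norm_nonneg _) norm_aQ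

theorem one_add_pos (P : Ideal (𝓞 K)) : 0 < 1 + aQ P / Ideal.absNorm P := by
  by_cases h : Prime P
  · have h1 := two_le_norm h
    have h2 : 1 / (Ideal.absNorm P : ℝ) ^ 2 ≤ 1 / 2 ^ 2 := by gcongr
    linarith [(abs_le.1 ((norm_aQ P).trans h2)).1]
  · rw [aQ, if_neg fun h1 => h h1.1, zero_div]
    norm_num

theorem bI_nonneg (A : Ideal (𝓞 K)) : 0 ≤ bI A ∧ bI A ≤ 1 := by
  have h : ∀ P ∈ (normalizedFactors A).toFinset.filter (fun P => ((Q K : ℕ) : 𝓞 K) ∉ P),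
      0 ≤ 1 - 1 / (Ideal.absNorm P : ℝ) := fun P hP => by
    have h1 := two_le_norm (prime_of_normalized_factor P
      (Multiset.mem_toFinset.1 (mem_filter.1 hP).1))
    have h2 : 1 / (Ideal.absNorm P : ℝ) ≤ 1 / 2 := by gcongr
    linarith
  exact ⟨prod_nonneg h, prod_le_one h fun P _ => sub_le_self _ (by positivity)⟩

theorem count_ne {A P : Ideal (𝓞 K)} (hA : A ≠ 0) :
    (normalizedFactors A).count P ≠ 0 ↔ Prime P ∧ P ∣ A := by
  rw [Multiset.count_ne_zero, mem_normalizedFactors_iff hA]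

theorem count_mul {s A : Ideal (𝓞 K)} (hs : s ≠ 0) (hA : A ≠ 0) (P : Ideal (𝓞 K)) :
    (normalizedFactors (s * A ^ 3)).count P =
      (normalizedFactors s).count P + 3 * (normalizedFactors A).count P := by
  rw [normalizedFactors_mul hs (pow_ne_zero 3 hA), normalizedFactors_pow, Multiset.count_add,
    Multiset.count_nsmul]

theorem eq_of_count {A B : Ideal (𝓞 K)} (hA : A ≠ 0) (hB : B ≠ 0)
    (h : ∀ P, (normalizedFactors A).count P = (normalizedFactors B).count P) : A = B := by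
  rw [← Ideal.prod_normalizedFactors_eq_self hA, ← Ideal.prod_normalizedFactors_eq_self hB,
    Multiset.ext.2 h]

theorem exists_count {A : Ideal (𝓞 K)} (g : ℕ → ℕ) (hg : g 0 = 0) :
    ∃ B : Ideal (𝓞 K), B ≠ 0 ∧
      ∀ P, (normalizedFactors B).count P = g ((normalizedFactors A).count P) := by
  have h1 : ∀ P, (Finsupp.toMultiset ((Multiset.toFinsupp (normalizedFactors A)).mapRange g
      hg)).count P = g ((normalizedFactors A).count P) := fun P => by
    rw [Finsupp.count_toMultiset, Finsupp.mapRange_apply, Multiset.toFinsupp_apply]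
  generalize Finsupp.toMultiset _ = m at h1
  have h2 : ∀ P ∈ m, Prime P := fun P hP => by
    refine prime_of_normalized_factor (a := A) P (Multiset.count_ne_zero.1 fun h => ?_)
    exact Multiset.count_ne_zero.2 hP (by rw [h1, h, hg])
  exact ⟨m.prod, Multiset.prod_ne_zero fun h => (h2 0 h).ne_zero rfl,
    fun P => by rw [normalizedFactors_prod_of_prime h2, h1]⟩

/-- cube free and supported on the primes containing `Q` -/
def Good (s : Ideal (𝓞 K)) : Prop := s ≠ 0 ∧ ∀ P, (normalizedFactors s).count P < 3 ∧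
  (((Q K : ℕ) : 𝓞 K) ∉ P → (normalizedFactors s).count P = 0)

theorem exists_Sq (K : Type) [Field K] [NumberField K] [Dat K] :
    ∃ S : Finset (Ideal (𝓞 K)), ∀ s, s ∈ S ↔ Good s := by
  have hQ : Ideal.span {((Q K : ℕ) : 𝓞 K)} ≠ 0 := by
    rw [Ne, Ideal.zero_eq_bot, Ideal.span_singleton_eq_bot]
    exact_mod_cast Q_ne K
  refine ⟨(Fa K (Ideal.absNorm (Ideal.span {((Q K : ℕ) : 𝓞 K)} ^ 2))).filter Good, fun s => ?_⟩
  rw [mem_filter, and_iff_right_iff_imp, mem_Fa]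
  refine fun h => ⟨h.1, ?_⟩
  have h1 : s ∣ Ideal.span {((Q K : ℕ) : 𝓞 K)} ^ 2 := by
    rw [dvd_iff_normalizedFactors_le_normalizedFactors h.1 (pow_ne_zero 2 hQ),
      Multiset.le_iff_count]
    intro P
    rw [normalizedFactors_pow, Multiset.count_nsmul]
    by_cases h0 : (normalizedFactors s).count P = 0
    · omega
    have h2 : ((Q K : ℕ) : 𝓞 K) ∈ P := by_contra fun h2 => h0 ((h.2 P).2 h2)
    have h3 := (count_ne hQ).2 ⟨((count_ne h.1).1 h0).1, Ideal.dvd_span_singleton.2 h2⟩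
    have h4 := (h.2 P).1
    omega
  exact_mod_cast Nat.le_of_dvd (Nat.pos_of_ne_zero fun h2 => pow_ne_zero 2 hQ
    (Ideal.absNorm_eq_zero_iff.1 h2)) (map_dvd Ideal.absNorm h1)

theorem bI_mul {s A : Ideal (𝓞 K)} (hs : Good s) (hA : A ≠ 0) : bI (s * A ^ 3) = bI A := by
  unfold bI
  refine prod_congr ?_ fun _ _ => rfl
  ext P
  simp only [mem_filter, Multiset.mem_toFinset, ← Multiset.count_ne_zero]
  refine and_congr_left fun h => ?_
  rw [count_mul hs.1 hA, (hs.2 P).2 h]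
  omega

theorem AI_eq {S : Finset (Ideal (𝓞 K))} (hS : ∀ s, s ∈ S ↔ Good s) (J : Ideal (𝓞 K)) {x : ℝ}
    (hx : 0 ≤ x) : AI J x =
      ∑ z ∈ (S ×ˢ (univ : Finset (ClassGroup (𝓞 K)))).filter (fun z => cls z.1 * z.2 ^ 3 = 1),
        (Ideal.absNorm z.1 : ℝ) * ∑ A ∈ Fc z.2 ((x / Ideal.absNorm z.1) ^ (3 : ℝ)⁻¹),
          (Ideal.absNorm A : ℝ) ^ 3 * (if J ∣ z.1 * A ^ 3 then bI A else 0) := by
  have hle : ∀ s A : Ideal (𝓞 K), s ≠ 0 → ((Ideal.absNorm A : ℝ) ≤
      (x / Ideal.absNorm s) ^ (3 : ℝ)⁻¹ ↔ (Ideal.absNorm (s * A ^ 3) : ℝ) ≤ x) := fun s A hs => by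
    have h1 := one_le_norm hs
    rw [Real.le_rpow_inv_iff_of_pos (by positivity) (by positivity) (by norm_num),
      le_div_iff₀ (by linarith), map_mul, map_pow, Real.rpow_ofNat, mul_comm]
    push_cast
    rfl
  have hcls : ∀ s A : Ideal (𝓞 K), s ≠ 0 → A ≠ 0 → cls (s * A ^ 3) = cls s * cls A ^ 3 :=
    fun s A hs hA => by
      rw [cls_mul hs (pow_ne_zero 3 hA), pow_three, pow_three, cls_mul hA (mul_ne_zero hA hA),
        cls_mul hA hA]
  rw [AI, tsum_eq_sum (s := (Fa K x).filter fun I => I.IsPrincipal ∧ Cub I) fun I hI =>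
    if_neg fun h => hI (mem_filter.2 ⟨mem_Fa.2 ⟨h.1, h.2.2.1⟩, h.2.1, h.2.2.2.1⟩)]
  simp only [mul_sum]
  rw [sum_sigma']
  symm
  refine sum_bij (fun w _ => w.1.1 * w.2 ^ 3) (fun w hw => ?_) (fun w hw w' hw' h => ?_)
    (fun I hI => ?_) (fun w hw => ?_)
  · simp only [mem_sigma, mem_filter, mem_product, hS, mem_Fc] at hw
    obtain ⟨⟨⟨h1, -⟩, h2⟩, h3, h4, h5⟩ := hw
    have h6 := mul_ne_zero h1.1 (pow_ne_zero 3 h3)
    refine mem_filter.2 ⟨mem_Fa.2 ⟨h6, (hle _ _ h1.1).1 h4⟩, (cls_eq_one h6).1 ?_, fun P _ hP => ?_⟩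
    · rw [hcls _ _ h1.1 h3, h5, h2]
    · rw [count_mul h1.1 h3, (h1.2 P).2 hP, zero_add]
      exact dvd_mul_right _ _
  · simp only [mem_sigma, mem_filter, mem_product, hS, mem_Fc] at hw hw'
    obtain ⟨⟨s, C⟩, A⟩ := w
    obtain ⟨⟨s', C'⟩, A'⟩ := w'
    obtain ⟨⟨⟨h1, -⟩, -⟩, h3, -, h5⟩ := hw
    obtain ⟨⟨⟨h1', -⟩, -⟩, h3', -, h5'⟩ := hw'
    simp only at h h1 h3 h5 h1' h3' h5'
    have h6 : ∀ P, (normalizedFactors s).count P = (normalizedFactors s').count P ∧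
        (normalizedFactors A).count P = (normalizedFactors A').count P := fun P => by
      have e1 := count_mul h1.1 h3 P
      have e2 := count_mul h1'.1 h3' P
      have e3 := (h1.2 P).1
      have e4 := (h1'.2 P).1
      rw [h] at e1
      omega
    obtain rfl := eq_of_count h1.1 h1'.1 fun P => (h6 P).1
    obtain rfl := eq_of_count h3 h3' fun P => (h6 P).2
    obtain rfl := h5.symm.trans h5'
    rfl
  · rw [mem_filter, mem_Fa] at hI
    obtain ⟨⟨h1, h2⟩, h3, h4⟩ := hI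
    obtain ⟨s, hs, hs'⟩ := exists_count (A := I) (· % 3) rfl
    obtain ⟨A, hA, hA'⟩ := exists_count (A := I) (· / 3) rfl
    have e : s * A ^ 3 = I := eq_of_count (mul_ne_zero hs (pow_ne_zero 3 hA)) h1 fun P => by
      rw [count_mul hs hA, hs', hA']
      exact Nat.mod_add_div _ _
    have hg : Good s := ⟨hs, fun P => ⟨by rw [hs']; exact Nat.mod_lt _ (by norm_num), fun hP => by
      rw [hs']
      by_cases h0 : (normalizedFactors I).count P = 0
      · rw [h0]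
      · exact Nat.mod_eq_zero_of_dvd (h4 P (Ideal.isPrime_of_prime ((count_ne h1).1 h0).1) hP)⟩⟩
    refine ⟨⟨(s, cls A), A⟩, ?_, e⟩
    simp only [mem_sigma, mem_filter, mem_product, hS, mem_Fc]
    exact ⟨⟨⟨hg, mem_univ _⟩, by rw [← hcls _ _ hs hA, e, cls_eq_one h1]; exact h3⟩, hA,
      (hle _ _ hs).2 (by rw [e]; exact h2), trivial⟩
  · simp only [mem_sigma, mem_filter, mem_product, hS, mem_Fc] at hw
    obtain ⟨⟨⟨h1, -⟩, h2⟩, h3, h4, h5⟩ := hw
    have h6 := mul_ne_zero h1.1 (pow_ne_zero 3 h3)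
    by_cases hJ : J ∣ w.1.1 * w.2 ^ 3
    · rw [if_pos hJ, if_pos ⟨h6, (cls_eq_one h6).1 (by rw [hcls _ _ h1.1 h3, h5, h2]),
        (hle _ _ h1.1).1 h4, fun P _ hP => by
          rw [count_mul h1.1 h3, (h1.2 P).2 hP, zero_add]
          exact dvd_mul_right _ _, hJ⟩, bI_mul h1 h3, map_mul, map_pow]
      push_cast
      ring
    · rw [if_neg hJ, if_neg fun h => hJ h.2.2.2.2, mul_zero, mul_zero]

theorem rpow_four {x n : ℝ} (hx : 0 < x) (hn : 0 < n) :
    ((x / n) ^ (3 : ℝ)⁻¹) ^ 4 = x ^ (4 / 3 : ℝ) * n ^ (-(4 / 3) : ℝ) := by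
  rw [← Real.rpow_mul_natCast (by positivity), Real.div_rpow hx.le hn.le, Real.rpow_neg hn.le,
    div_eq_mul_inv]
  norm_num

theorem tendsto_gen (Z : Finset (Ideal (𝓞 K) × ClassGroup (𝓞 K))) (hZ : ∀ z ∈ Z, z.1 ≠ 0)
    {W : Ideal (𝓞 K) → ℝ} {L : ℝ} (h : ∀ C : ClassGroup (𝓞 K), Tendsto (fun y : ℝ =>
      (∑ A ∈ Fc C y, (Ideal.absNorm A : ℝ) ^ 3 * W A) / y ^ 4) atTop (𝓝 L)) :
    Tendsto (fun x : ℝ => x ^ (-(4 / 3) : ℝ) * ∑ z ∈ Z, (Ideal.absNorm z.1 : ℝ) *
      ∑ A ∈ Fc z.2 ((x / Ideal.absNorm z.1) ^ (3 : ℝ)⁻¹), (Ideal.absNorm A : ℝ) ^ 3 * W A) atTop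
      (𝓝 ((∑ z ∈ Z, (Ideal.absNorm z.1 : ℝ) * (Ideal.absNorm z.1 : ℝ) ^ (-(4 / 3) : ℝ)) * L)) := by
  simp only [sum_mul, mul_sum (s := Z)]
  refine tendsto_finsetSum _ fun z hz => ?_
  have h1 : (0 : ℝ) < Ideal.absNorm z.1 := lt_of_lt_of_le one_pos (one_le_norm (hZ z hz))
  refine (((h z.2).comp ((tendsto_rpow_atTop (y := (3 : ℝ)⁻¹) (by norm_num)).comp
    (tendsto_id.atTop_div_const h1))).const_mul _).congr' ?_
  filter_upwards [eventually_gt_atTop 0] with x hx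
  simp only [Function.comp, id]
  rw [rpow_four hx h1, Real.rpow_neg hx.le]
  have h2 : 0 < x ^ (4 / 3 : ℝ) := by positivity
  have h3 : 0 < (Ideal.absNorm z.1 : ℝ) ^ (-(4 / 3) : ℝ) := by positivity
  field_simp

theorem tprod_split (a : Ideal (𝓞 K) → ℝ) (P0 : Ideal (𝓞 K)) (ha : ∀ P, P ≠ P0 → a P = aQ P) :
    ∏' P, (1 + a P / Ideal.absNorm P) = (1 + a P0 / Ideal.absNorm P0) *
      ∏' P, if P = P0 then 1 else (1 + aQ P / Ideal.absNorm P) := by
  have h1 : Function.update (fun P => 1 + a P / Ideal.absNorm P) P0 1 =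
      fun P => 1 + if P = P0 then 0 else aQ P / Ideal.absNorm P := by
    funext P
    rw [Function.update_apply]
    split_ifs with h
    · simp
    · rw [ha P h]
  rw [Multipliable.tprod_eq_mul_tprod_ite' P0]
  · congr 2
    funext P
    split_ifs with h
    · rfl
    · rw [ha P h]
  · rw [h1]
    refine multipliable_one_add_of_summable (summable_aQ.of_nonneg_of_le (fun _ => norm_nonneg _)
      fun P => ?_)
    split_ifs
    · rw [norm_zero]; exact norm_nonneg _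
    · exact le_rfl

end Mn

open Mn

theorem meanI : MEANI K := by
  obtain ⟨S, hS⟩ := exists_Sq K
  obtain ⟨k0, hk0, hk⟩ := exists_k0 K
  obtain ⟨M, hM, hb⟩ := exists_bound K
  set Z := (S ×ˢ (univ : Finset (ClassGroup (𝓞 K)))).filter (fun z => cls z.1 * z.2 ^ 3 = 1)
    with hZdef
  have hZ : ∀ z ∈ Z, z.1 ≠ 0 := fun z hz => ((hS _).1 (mem_product.1 (mem_filter.1 hz).1).1).1
  have hH : 0 < ∏' P : Ideal (𝓞 K), (1 + aQ P / Ideal.absNorm P) :=
    lt_of_le_of_ne (tprod_nonneg fun P => (one_add_pos P).le)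
      (tprod_one_add_ne_zero_of_summable (fun P => (one_add_pos P).ne') summable_aQ).symm
  have hc : 0 < ∑ z ∈ Z, (Ideal.absNorm z.1 : ℝ) * (Ideal.absNorm z.1 : ℝ) ^ (-(4 / 3) : ℝ) := by
    refine sum_pos (fun z hz => ?_) ⟨(1, 1), mem_filter.2 ⟨mem_product.2 ⟨(hS _).2 ⟨one_ne_zero,
      fun P => by rw [normalizedFactors_one]; simp⟩, mem_univ _⟩, ?_⟩⟩
    · have := one_le_norm (hZ z hz)
      positivity
    · rw [one_pow, mul_one, cls_eq_one one_ne_zero, Ideal.one_eq_top]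
      infer_instance
  have ha0 : ∀ P : Ideal (𝓞 K), ¬ Prime P → aQ P = 0 := fun P h => if_neg fun h1 => h h1.1
  have h1 := tendsto_ww3 hk ha0 summable_aQ
  have htop : ∀ x : ℝ, 0 ≤ x → AI (⊤ : Ideal (𝓞 K)) x = ∑ z ∈ Z, (Ideal.absNorm z.1 : ℝ) *
      ∑ A ∈ Fc z.2 ((x / Ideal.absNorm z.1) ^ (3 : ℝ)⁻¹), (Ideal.absNorm A : ℝ) ^ 3 * ww aQ A :=
    fun x hx => by
      rw [AI_eq hS _ hx]
      simp only [ww_aQ, Ideal.dvd_iff_le, le_top, if_true, hZdef]
  refine ⟨_, mul_pos hc (div_pos (mul_pos hk0 hH) four_pos),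
    (∑ z ∈ Z, (Ideal.absNorm z.1 : ℝ) * (Ideal.absNorm z.1 : ℝ) ^ (-(4 / 3) : ℝ)) * M,
    fun x hx => ?_, (tendsto_gen Z hZ h1).congr' ?_, fun P0 hP hP0 hQ => ?_⟩
  · rw [htop x hx.le, sum_mul, sum_mul]
    refine sum_le_sum fun z hz => ?_
    have h2 : (0 : ℝ) < Ideal.absNorm z.1 := lt_of_lt_of_le one_pos (one_le_norm (hZ z hz))
    have h3 := rpow_four hx h2
    have h4 : 0 ≤ (x / Ideal.absNorm z.1) ^ (3 : ℝ)⁻¹ := by positivity
    generalize (x / Ideal.absNorm z.1) ^ (3 : ℝ)⁻¹ = y at h3 h4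
    have h5 : ∑ A ∈ Fc z.2 y, (Ideal.absNorm A : ℝ) ^ 3 * ww aQ A ≤ M * y * y ^ 3 := by
      refine (sum_le_card_nsmul _ _ (y ^ 3) fun A hA => ?_).trans ?_
      · rw [ww_aQ]
        have := (mem_Fc.1 hA).2.1
        exact (mul_le_of_le_one_right (by positivity) (bI_nonneg A).2).trans (by gcongr)
      · rw [nsmul_eq_mul]
        exact mul_le_mul_of_nonneg_right
          (le_trans (by exact_mod_cast card_filter_le _ _) (hb y h4)) (by positivity)
    calc _ ≤ (Ideal.absNorm z.1 : ℝ) * (M * y * y ^ 3) := by gcongr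
      _ = (Ideal.absNorm z.1 : ℝ) * M * y ^ 4 := by ring
      _ = _ := by rw [h3]; ring
  · filter_upwards [eventually_ge_atTop 0] with x hx
    rw [htop x hx]
  · have hP1 : Prime P0 := Ideal.prime_of_isPrime hP0 hP
    have hq := two_le_norm hP1
    have h2 := tendsto_ww3 hk (a := fun P => if P = P0 then -1 else aQ P)
      (fun P h => by rw [if_neg fun e : P = P0 => h (e ▸ hP1), ha0 P h])
      (summable_aQ.congr_cofinite (by
        filter_upwards [eventually_cofinite_ne P0] with P h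
        rw [if_neg h]))
    have h3 := tendsto_gen Z hZ (W := fun A => ww aQ A - ww (fun P => if P = P0 then -1 else aQ P) A)
      fun C => ((h1 C).sub (h2 C)).congr fun y => by
        simp only [mul_sub, sum_sub_distrib, sub_div]
    have e1 := tprod_split aQ P0 fun _ _ => rfl
    have e2 := tprod_split (fun P => if P = P0 then -1 else aQ P) P0 fun P h => if_neg h
    have e3 : aQ P0 = -(1 / (Ideal.absNorm P0 : ℝ)) := if_pos ⟨hP1, hQ⟩
    rw [e2, if_pos rfl] at h3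
    refine (h3.congr' ?_).trans (le_of_eq ?_)
    · filter_upwards [eventually_ge_atTop 0] with x hx
      rw [AI_eq hS _ hx]
      congr 1
      refine sum_congr rfl fun z hz => ?_
      congr 1
      refine sum_congr rfl fun A hA => ?_
      congr 1
      have g1 := (hS _).1 (mem_product.1 (mem_filter.1 hz).1).1
      have g2 := (mem_Fc.1 hA).1
      have g3 : P0 ∣ z.1 * A ^ 3 ↔ P0 ∈ (normalizedFactors A).toFinset := by
        rw [Multiset.mem_toFinset, ← Multiset.count_ne_zero, ← and_iff_right (b := P0 ∣ z.1 * A ^ 3) hP1,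
          ← count_ne (mul_ne_zero g1.1 (pow_ne_zero 3 g2)), count_mul g1.1 g2, (g1.2 P0).2 hQ]
        omega
      by_cases g4 : P0 ∈ (normalizedFactors A).toFinset
      · rw [if_pos (g3.2 g4), ww_aQ, ww, prod_eq_zero g4 (by simp), sub_zero]
      · rw [if_neg fun h => g4 (g3.1 h), sub_eq_zero]
        exact prod_congr rfl fun P hP => by simp only [if_neg fun e : P = P0 => g4 (e ▸ hP)]
    · congr 1
      rw [e1, e3]
      field_simp
      ring

end Vale.Agent.P016Z.TH
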