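import Vale.Agent.P016Z.TH.Qs

/-!
P016, block THETA: residues of the summatory functions of Gauss sums, and the statements of the
relations between them.
-/

namespace Vale.Agent.P016Z.TH

open NumberField MeasureTheory Filter Topology Complex
open Vale.Agent.P006
open scoped ENNReal ComplexConjugate

set_option linter.unusedSectionVars false

variable {K : Type} [Field K] [NumberField K] [Dat K]

/-- admissible and periodic at all deep levels -/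
def Nice (a : K → K → ℂ) : Prop := ∀ᶠ k in atTop, Adm k a ∧ Per (Lat (lv K k)) a

/-- `ρ` is the residue of the normalised summatory function of `a` at the frequency `ν` -/
def Res (a : K → K → ℂ) (ν : K) (ρ : ℂ) : Prop := ∀ᶠ k in atTop, HasRes (Sn k a ν) ρ

/-- `θ` is the limit function attached to `a` -/
def IsTh (a : K → K → ℂ) (θ : HK K → ℂ) : Prop :=
  Continuous θ ∧ ∀ᶠ k in atTop, LZ fun X w => F k a X w - θ w

/-- the scalar operator -/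
def Zs (y : K) (φ : K → K → ℂ) : K → K → ℂ := fun c d => φ (y * c) (y * d)

/-- the part of the norm at the primes dividing `Q` -/
noncomputable def NS (x : R K) : ℝ := nm (x : K) / (Nr x : ℝ)

open Classical in
/-- the rows with `p ∣ c` -/
noncomputable def pin (p : K) (a : K → K → ℂ) : K → K → ℂ :=
  fun c d => if c / p ∈ R K then a c d else 0

open Classical in
/-- the rows with `p ∤ c` -/
noncomputable def pout (p : K) (a : K → K → ℂ) : K → K → ℂ :=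
  fun c d => if c / p ∈ R K then 0 else a c d

theorem Res.unique {a : K → K → ℂ} {ν : K} {ρ σ : ℂ} (h : Res a ν ρ) (h' : Res a ν σ) : ρ = σ := by
  obtain ⟨k, h1, h2⟩ := (h.and h').exists
  exact h1.unique h2

theorem gn_congr {k : ℕ} {a b : K → K → ℂ} {c : K} (ν : K) (h : ∀ d, a c d = b c d) :
    gn k a ν c = gn k b ν c := by
  unfold gn gs; simp only [h]

theorem gn_eq_zero {k : ℕ} {a : K → K → ℂ} {c : K} (ν : K) (h : ∀ d, a c d = 0) :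
    gn k a ν c = 0 := by
  unfold gn gs; rw [qs_eq_zero fun t => by rw [h, zero_mul], zero_div]

theorem gn_pin_pos {p c : K} (h : c / p ∈ R K) (k : ℕ) (a : K → K → ℂ) (ν : K) :
    gn k (pin p a) ν c = gn k a ν c := gn_congr ν fun _ => if_pos h

theorem gn_pin_neg {p c : K} (h : c / p ∉ R K) (k : ℕ) (a : K → K → ℂ) (ν : K) :
    gn k (pin p a) ν c = 0 := gn_eq_zero ν fun _ => if_neg h

theorem gn_pout_pos {p c : K} (h : c / p ∈ R K) (k : ℕ) (a : K → K → ℂ) (ν : K) :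
    gn k (pout p a) ν c = 0 := gn_eq_zero ν fun _ => if_pos h

theorem gn_pout_neg {p c : K} (h : c / p ∉ R K) (k : ℕ) (a : K → K → ℂ) (ν : K) :
    gn k (pout p a) ν c = gn k a ν c := gn_congr ν fun _ => if_neg h

theorem gn_ap_of_notMem (S : Sy K) (φ : K → K → ℂ) {c : K} (h : c ∉ R K) (k : ℕ) (ν : K) :
    gn k (S.ap φ) ν c = 0 :=
  gn_eq_zero ν fun d => by
    unfold Sy.ap; rw [S.s_zero _ _ fun h' => h h'.1, zero_mul]

theorem NS_pos {x : R K} (hx : x ≠ 0) : 0 < NS x :=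
  div_pos ((cmK K).nm_pos (coe_ne_zero hx)) (Nat.cast_pos.2 (Nr_pos hx))

section blocks

variable (K)

/-- RESA: the calculus of residues: level, sums, scalars, translations, reindexing -/
def RESA : Prop :=
  (∀ (a : K → K → ℂ) (j : ℕ) (ν : K) (ρ : ℂ), Adm j a → Per (Lat (lv K j)) a →
      ν ∈ Dual (lv K j) → HasRes (Sg j (Lat (lv K j)) a ν) ρ →
      Res a ν (ρ / (nm (lv K j) : ℂ))) ∧
    (∀ (a b : K → K → ℂ) (ν : K) (ρ σ : ℂ), Nice a → Nice b → Res a ν ρ → Res b ν σ →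
      Res (a + b) ν (ρ + σ)) ∧
    (∀ (a : K → K → ℂ) (ν : K) (ρ z : ℂ), Res a ν ρ → Res (z • a) ν (z * ρ)) ∧
    (∀ (a : K → K → ℂ) (ν t : K) (ρ : ℂ), Nice a → ν ∈ R K → Res a ν ρ →
      Res (act a (KU.tr t)) ν (eT (-(ν * t)) * ρ)) ∧
    (∀ (a b : K → K → ℂ) (ν μ x : K) (z ρ : ℂ), Nice b → x ≠ 0 →
      (∀ᶠ k in atTop, ∀ c, c ≠ 0 → gn k a ν (x * c) = z * gn k b μ c) → Res b μ ρ →
      Res a ν (z * ((nm x ^ (-(4 / 3) : ℝ) : ℝ) : ℂ) * ρ)) ∧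
    (∀ a b : K → K → ℂ, Nice a → Nice b → Nice (a + b)) ∧
    (∀ (a : K → K → ℂ) (z : ℂ), Nice a → Nice (z • a)) ∧
    (∀ (a : K → K → ℂ) (p : K), Nice a → Nice (pin p a) ∧ Nice (pout p a)) ∧
    Nice (0 : K → K → ℂ) ∧ ∀ ν : K, Res (0 : K → K → ℂ) ν 0

/-- THU: uniqueness and transport of the limit functions -/
def THU : Prop :=
  (∀ (a : K → K → ℂ) (θ θ' : HK K → ℂ), Nice a → IsTh a θ → IsTh a θ' → θ = θ') ∧
    (∀ (a : K → K → ℂ) (θ : HK K → ℂ) (g : SL2 K), IsTh a θ →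
      IsTh (act a g⁻¹) fun w => θ (g • w)) ∧
    ∀ (a : K → K → ℂ) (θ : HK K → ℂ) (z : ℂ), IsTh a θ → IsTh (z • a) fun w => z * θ w

variable {K}

/-- THX: existence of the limit functions -/
def THX (S : Sy K) : Prop :=
  ∀ a, S.Eqv a → Nice a ∧ ∀ᶠ k in atTop, ∃ (cv : ℝ) (τ : K → ℂ) (θ : HK K → ℂ), 0 < cv ∧
    IsTh a θ ∧ IsExp τ θ ∧ RS τ ∧ (∀ ν, τ ν ≠ 0 → ν ∈ Dual (lv K k)) ∧
    ∀ ν ∈ Dual (lv K k), Res a ν (cv * τ ν)

/-- RESB: existence of residues, equidistribution, and the vanishing at `ν p²` -/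
def RESB (S : Sy K) : Prop :=
  (∀ a, S.Eqv a → Nice a) ∧
    (∀ a, S.Eqv a → ∀ ν ∈ R K, ∃ ρ, Res a ν ρ) ∧
    (∀ a, S.Eqv a → ∀ ν ∈ R K, ∀ ρ, Res a ν ρ → ∀ p : R K, Prime p →
      Res (pin (p : K) a) ν (ρ / ((Nr p : ℂ) + 1)) ∧
        Res (pout (p : K) a) ν ((Nr p : ℂ) * ρ / ((Nr p : ℂ) + 1))) ∧
    ∀ j φ, Fam j φ → ∀ p ν : R K, Prime p → ¬ p ∣ ν → Res (S.ap φ) (ν * p ^ 2) 0

/-- CUBE: multiplication of the frequency by a cube -/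
def CUBE (S : Sy K) : Prop :=
  ∀ j φ, Fam j φ → ∀ (ν x : R K) (ρ : ℂ), x ≠ 0 → Res (S.ap (Cb x φ)) ν ρ →
    Res (S.ap φ) (ν * x ^ 3) ((NS x : ℂ) ^ 3 * ρ)

/-- SQF: squarefree frequencies -/
def SQF (S : Sy K) : Prop :=
  ∀ j φ, Fam j φ → ∀ (n : R K) (ρ : ℂ), Squarefree n → Res (S.ap φ) 1 ρ →
    Res (S.ap (S.T n φ)) n (conj (S.G 1 n) * (((Nr n : ℝ) ^ (-(2 / 3) : ℝ) : ℝ) : ℂ) *
      ((NS n ^ (7 / 3 : ℝ) : ℝ) : ℂ) * ρ)

/-- SCAL: the scalar operators -/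
def SCAL (S : Sy K) : Prop :=
  ∀ j φ, Fam j φ → ∀ (b : R K) (ρ : ℂ), b ≠ 0 → Res (S.ap φ) 1 ρ →
    Res (S.ap (Zs ((b : K) ^ 3) φ)) 1 ((NS b : ℂ) ^ 4 * ρ)

/-- NZ0: some residue at a non-zero frequency does not vanish -/
def NZ0 (S : Sy K) : Prop :=
  ∃ (j : ℕ) (φ : K → K → ℂ) (ν : R K) (ρ : ℂ), Fam j φ ∧ ν ≠ 0 ∧ ρ ≠ 0 ∧ Res (S.ap φ) ν ρ

/-- MAINR: the residues on a class -/
def MAINR (S : Sy K) : Prop :=
  ∃ M₀ : ℕ, ∀ k₀ : K, k₀ ≠ 0 → ∃ (j : ℕ) (ψ : K → K → ℂ) (T : ℂ), Fam j ψ ∧ T ≠ 0 ∧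
    ∀ n b : R K, Squarefree n → b ≠ 0 → ((n : K) * (b : K) ^ 3 / k₀ - 1) / lv K M₀ ∈ Si K →
      Res (S.ap ψ) ((n : K) * (b : K) ^ 3)
        (T * conj (S.G 1 n) * (((Nr n : ℝ) ^ (-(2 / 3) : ℝ) : ℝ) : ℂ))

/-- CUSP: invariance and vanishing of the residues of all equivariant row functions -/
def CUSP (S : Sy K) : Prop :=
  ∀ a, S.Eqv a →
    (∀ j₀ : ℕ, ∃ j : ℕ, ∀ l ∈ P K j, ∀ ν ∈ R K, (l : K) ^ 3 * ν ∈ R K → lv K j₀ * ν ∈ Si K →
      ∀ ρ, Res a ν ρ → Res a ((l : K) ^ 3 * ν) ρ) ∧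
    ∀ (p ν : R K) (i : ℕ), Prime p → ¬ p ∣ ν → Res a ((p : K) ^ (3 * i + 2) * ν) 0

end blocks

end Vale.Agent.P016Z.TH
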