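import Vale.Agent.P016Z.Base.Cls
import Vale.Agent.P016Z.TH.RelDefs

/-!
P016, block THETA: the part of the norm at the primes dividing `Q`.
-/

namespace Vale.Agent.P016Z.TH

open NumberField

set_option linter.unusedSectionVars false

variable {K : Type} [Field K] [NumberField K] [Dat K]

theorem NS_mul (x y : R K) : NS (x * y) = NS x * NS y := by
  rw [NS, NS, NS, Nr_mul, MulMemClass.coe_mul, nm, (cmK K).nm_mul, Nat.cast_mul, div_mul_div_comm]

theorem NS_one : NS (1 : R K) = 1 := by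
  rw [NS, Nr_one, OneMemClass.coe_one, nm, (cmK K).nm_one, Nat.cast_one, div_one]

theorem NS_pow (x : R K) (n : ℕ) : NS (x ^ n) = NS x ^ n := by
  induction n with
  | zero => rw [pow_zero, pow_zero, NS_one]
  | succ n ih => rw [pow_succ, NS_mul, ih, pow_succ]

theorem NS_ne {x : R K} (hx : x ≠ 0) : NS x ≠ 0 := (NS_pos hx).ne'

theorem NSC_ne {x : R K} (hx : x ≠ 0) : (NS x : ℂ) ≠ 0 := Complex.ofReal_ne_zero.2 (NS_ne hx)

theorem NS_coe (x : R K) : (NS x : ℂ) = (nm (x : K) : ℂ) / (Nr x : ℂ) := by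
  rw [NS]; push_cast; rfl

theorem NS_unit {u : R K} (hu : IsUnit u) : NS u = nm (u : K) := by
  rw [NS, show Nr u = 1 from Nq_eq_one_iff.2 hu, Nat.cast_one, div_one]

theorem NS_eq_one {x : R K} (hx : x ≠ 0) (h1 : (x : K) ∈ Si K) (h2 : (x : K)⁻¹ ∈ Si K) :
    NS x = 1 := by
  rw [NS, nm, nm_eq_Nr hx h1 h2, div_self (Nat.cast_pos.2 (Nr_pos hx)).ne']

/-- `NS` only depends on the class modulo the units of `Si` -/
theorem NS_congr' {x y : R K} (hx : x ≠ 0) (hy : y ≠ 0) (h1 : (x : K) / y ∈ Si K)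
    (h2 : (y : K) / x ∈ Si K) : NS x = NS y := by
  have hx' := coe_ne_zero hx
  have hy' := coe_ne_zero hy
  obtain ⟨w, hw, h⟩ := exists_R_mem_P (Units.mk0 (y : K) hy')⁻¹ 0
  obtain ⟨a1, a2⟩ := P_le_Su 0 h
  have hw' := w.ne_zero
  have hw0 : (⟨w, hw⟩ : R K) ≠ 0 := fun h0 => hw' (congrArg (fun t : R K => (t : K)) h0)
  simp only [div_inv_eq_mul, Units.val_mul, Units.val_mk0] at a1 a2
  have e1 := NS_eq_one (mul_ne_zero hw0 hy) a1 a2
  have e2 : NS (⟨w, hw⟩ * x) = 1 := by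
    refine NS_eq_one (mul_ne_zero hw0 hx) ?_ ?_
    · rw [show ((⟨w, hw⟩ * x : R K) : K) = w * y * (x / y) by push_cast; field_simp]
      exact mul_mem a1 h1
    · rw [show ((⟨w, hw⟩ * x : R K) : K)⁻¹ = ((w : K) * y)⁻¹ * (y / x) by push_cast; field_simp]
      exact mul_mem a2 h2
  rw [NS_mul] at e1 e2
  exact mul_left_cancel₀ (NS_ne hw0) (e2.trans e1.symm)

theorem NS_congr {x y : R K} (hy : y ≠ 0) {k : ℕ} (h : ((x : K) / y - 1) / lv K k ∈ Si K) :
    NS x = NS y := by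
  have h1 : ((x : K) / y - 1) / (Q K : K) ∈ Si K := by
    simpa using div_pow_mem_Si_mono (k := 1) h (by omega)
  obtain ⟨h2, h3⟩ := inv_mem_Si_of_sub_one h1
  rw [inv_div] at h2
  exact NS_congr' (fun h0 => h3 (by rw [h0]; simp)) hy (mem_Si_of_sub_one h) h2

end Vale.Agent.P016Z.TH
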