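import Vale.Agent.P016Z.TH.Defs
import Vale.Agent.P016Z.Pois.Units
import Mathlib.LinearAlgebra.FreeModule.IdealQuotient

/-!
P016, block THETA: partitions of constants for the action of groups of units on the positive cone.
-/

namespace Vale.Agent.P016Z.TH

open NumberField NumberField.Units MeasureTheory Filter Topology Complex Finset

set_option linter.unusedSectionVars false

variable {K : Type} [Field K] [NumberField K] [Dat K]

namespace PartAux

theorem ab_mul (x y : K) : ab (x * y) = ab x * ab y := by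
  ext j
  simp only [ab, map_mul, Pi.mul_apply]

theorem ab_pos {x : K} (hx : x ≠ 0) (j : io K) : 0 < ab x j := Pois.normSq_pos' (cmK K) hx j

theorem mul_pos' (u : Kˣ) {t : io K → ℝ} (ht : ∀ j, 0 < t j) (j : io K) :
    0 < (ab (u : K) * t) j := mul_pos (ab_pos u.ne_zero j) (ht j)

/-- cosets times subgroup -/
noncomputable def cosE {G : Type*} [Group G] {V' V : Subgroup G} (h : V' ≤ V) :
    (V ⧸ V'.subgroupOf V) × V' ≃ V :=
  Equiv.ofBijective (fun x => x.1.out * Subgroup.inclusion h x.2) (by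
    constructor
    · rintro ⟨q, u⟩ ⟨q', u'⟩ e
      have h1 : ∀ (q : V ⧸ V'.subgroupOf V) (u : V'),
          (QuotientGroup.mk (q.out * Subgroup.inclusion h u) : V ⧸ V'.subgroupOf V) = q := by
        intro q u
        rw [QuotientGroup.mk_mul_of_mem _ (by exact u.2), QuotientGroup.out_eq']
      have h2 : q = q' := by
        rw [← h1 q u, ← h1 q' u']
        exact congrArg _ e
      subst h2
      exact Prod.ext rfl (Subgroup.inclusion_injective h (mul_left_cancel e))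
    · intro v
      have h1 : (QuotientGroup.mk v : V ⧸ V'.subgroupOf V).out⁻¹ * v ∈ V'.subgroupOf V := by
        rw [← QuotientGroup.eq, QuotientGroup.out_eq']
      refine ⟨(QuotientGroup.mk v, ⟨_, h1⟩), ?_⟩
      change (QuotientGroup.mk v : V ⧸ V'.subgroupOf V).out *
        ((QuotientGroup.mk v : V ⧸ V'.subgroupOf V).out⁻¹ * v) = v
      rw [mul_inv_cancel_left])

theorem ab_cosE {V' V : Subgroup Kˣ} (h : V' ≤ V) (x : (V ⧸ V'.subgroupOf V) × V')
    (t : io K → ℝ) : ab (((cosE h x : V) : Kˣ) : K) * t =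
      ab (((x.1.out : V) : Kˣ) : K) * (ab ((x.2 : Kˣ) : K) * t) := by
  rw [← mul_assoc, ← ab_mul]
  rfl

theorem mono {V' V : Subgroup Kˣ} (h : V' ≤ V) (hn : V'.relIndex V ≠ 0) {κ : ℝ}
    {β : (io K → ℝ) → ℝ} (hβ : Part V' κ β) : Part V (V'.relIndex V * κ) β := by
  refine ⟨hβ.meas, hβ.nonneg, hβ.le_one, hβ.hom, hβ.bal, fun t ht => ?_⟩
  have : Finite (V ⧸ V'.subgroupOf V) := Nat.finite_of_card_ne_zero hn
  have := Fintype.ofFinite (V ⧸ V'.subgroupOf V)
  rw [← (cosE h).hasSum_iff]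
  have h1 : ∀ q : V ⧸ V'.subgroupOf V, HasSum (fun u : V' =>
      ((fun u : V => β (ab ((u : Kˣ) : K) * t)) ∘ cosE h) (q, u)) κ := by
    intro q
    have h2 := hβ.sum _ (mul_pos' (q.out : V) ht)
    simp only [Function.comp_apply, ab_cosE]
    simpa only [mul_left_comm] using h2
  have h2 : Summable ((fun u : V => β (ab ((u : Kˣ) : K) * t)) ∘ cosE h) :=
    (summable_prod_of_nonneg fun x => hβ.nonneg _).2
      ⟨fun q => (h1 q).summable, Summable.of_finite⟩
  have h3 := (h2.hasSum.prod_fiberwise h1).unique (hasSum_fintype _)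
  rw [sum_const, card_univ, nsmul_eq_mul, ← Nat.card_eq_fintype_card] at h3
  exact h3 ▸ h2.hasSum

theorem avg {V' V : Subgroup Kˣ} (h : V' ≤ V) (hn : V'.relIndex V ≠ 0) {κ : ℝ}
    {β : (io K → ℝ) → ℝ} (hβ : Part V κ β) : ∃ β', Part V' ((V'.relIndex V : ℝ)⁻¹ * κ) β' := by
  have : Finite (V ⧸ V'.subgroupOf V) := Nat.finite_of_card_ne_zero hn
  have := Fintype.ofFinite (V ⧸ V'.subgroupOf V)
  have hc : (Fintype.card (V ⧸ V'.subgroupOf V) : ℝ) = V'.relIndex V := by
    rw [← Nat.card_eq_fintype_card]; rfl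
  have hn0 : (0 : ℝ) < V'.relIndex V := by exact_mod_cast Nat.pos_of_ne_zero hn
  refine ⟨fun t => (V'.relIndex V : ℝ)⁻¹ *
    ∑ q : V ⧸ V'.subgroupOf V, β (ab (((q.out : V) : Kˣ) : K) * t), ?_, fun t => ?_, fun t => ?_,
    fun l t hl => ?_, ?_, fun t ht => ?_⟩
  · refine measurable_const.mul (Finset.measurable_sum _ fun q _ => hβ.meas.comp ?_)
    exact measurable_const.mul measurable_id
  · exact mul_nonneg (by positivity) (sum_nonneg fun q _ => hβ.nonneg _)
  · rw [inv_mul_le_iff₀ hn0, mul_one, ← hc]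
    refine (sum_le_sum fun q _ => hβ.le_one _).trans ?_
    simp
  · simp only [mul_smul_comm, hβ.hom l _ hl]
  · obtain ⟨C, hC⟩ := hβ.bal
    set A : (V ⧸ V'.subgroupOf V) × io K × io K → ℝ := fun x =>
      C * ab (((x.1.out : V) : Kˣ) : K) x.2.2 / ab (((x.1.out : V) : Kˣ) : K) x.2.1 with hA
    obtain ⟨B, hB⟩ := (Set.finite_range A).bddAbove
    refine ⟨B, fun t ht h0 i j => ?_⟩
    obtain ⟨q, -, hq⟩ := exists_ne_zero_of_sum_ne_zero (right_ne_zero_of_mul h0)
    have h1 := hC _ (mul_pos' (q.out : V) ht) hq i j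
    have h2 : A (q, i, j) ≤ B := hB ⟨_, rfl⟩
    refine le_trans ?_ (mul_le_mul_of_nonneg_right h2 (ht j).le)
    simp only [hA, Pi.mul_apply] at h1 ⊢
    rw [div_mul_eq_mul_div, le_div_iff₀ (ab_pos (Units.ne_zero _) i)]
    linarith
  · refine HasSum.mul_left _ ?_
    have h1 := (cosE h).hasSum_iff.2 (hβ.sum t ht)
    have h2 := (Equiv.prodComm _ _).hasSum_iff.2 h1
    refine h2.prod_fiberwise fun u => ?_
    simp only [Function.comp_apply, Equiv.prodComm_apply, Prod.swap_prod_mk, ab_cosE]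
    exact hasSum_fintype _

/-- the units of the ring of integers inside the field -/
noncomputable def uH : (𝓞 K)ˣ →* Ou K :=
  (Units.map (algebraMap (𝓞 K) K : 𝓞 K →* K)).codRestrict (Ou K) fun u => by
    have h1 : IsIntegral ℤ ((Units.map (algebraMap (𝓞 K) K : 𝓞 K →* K) u : Kˣ) : K) :=
      (u : 𝓞 K).isIntegral_coe
    have h2 : IsIntegral ℤ ((Units.map (algebraMap (𝓞 K) K : 𝓞 K →* K) u : Kˣ) : K)⁻¹ := by
      rw [← Units.val_inv_eq_inv_val, ← map_inv]
      exact ((u⁻¹ : (𝓞 K)ˣ) : 𝓞 K).isIntegral_coe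
    exact ⟨⟨mem_R_of_isIntegral h1, mem_R_of_isIntegral h2⟩,
      ⟨mem_Si_of_isIntegral h1, mem_Si_of_isIntegral h2⟩⟩

theorem uH_val (u : (𝓞 K)ˣ) : (((uH u : Ou K) : Kˣ) : K) = Pois.uK u := rfl

theorem uH_bij : Function.Bijective (uH (K := K)) := by
  constructor
  · intro u v e
    have h1 : Pois.uK u = Pois.uK v := by rw [← uH_val, ← uH_val, e]
    exact Units.ext (RingOfIntegers.ext h1)
  · rintro ⟨x, h1, h2⟩
    refine ⟨⟨⟨x, isIntegral_of_mem h1.1 h2.1⟩, ⟨(x : K)⁻¹, isIntegral_of_mem h1.2 h2.2⟩, ?_, ?_⟩,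
      Subtype.ext (Units.ext rfl)⟩
    · exact RingOfIntegers.ext (mul_inv_cancel₀ x.ne_zero)
    · exact RingOfIntegers.ext (inv_mul_cancel₀ x.ne_zero)

theorem Uk_le (k : ℕ) : Uk K k ≤ Ou K := inf_le_inf le_rfl (P_le_Su k)

theorem Uk_mono {j k : ℕ} (h : j ≤ k) : Uk K k ≤ Uk K j := inf_le_inf le_rfl (P_mono h)

theorem idx_ne (k : ℕ) : idx K k ≠ 0 := by
  set I : Ideal (𝓞 K) := Ideal.span {(Q K : 𝓞 K) ^ (k + 1)} with hI
  have hI0 : I ≠ ⊥ := by
    rw [hI, Ne, Ideal.span_singleton_eq_bot]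
    exact pow_ne_zero _ (by exact_mod_cast Q_ne K)
  have : Finite (𝓞 K ⧸ I) := Ideal.finiteQuotientOfFreeOfNeBot I hI0
  let e : (𝓞 K)ˣ ≃* Ou K := MulEquiv.ofBijective uH uH_bij
  let φ : Ou K →* (𝓞 K ⧸ I)ˣ :=
    (Units.map (Ideal.Quotient.mk I : 𝓞 K →* 𝓞 K ⧸ I)).comp e.symm.toMonoidHom
  have h1 : φ.ker ≤ (Uk K k).subgroupOf (Ou K) := by
    intro x hx
    obtain ⟨u, rfl⟩ := e.surjective x
    have h2 : Ideal.Quotient.mk I (u : 𝓞 K) = 1 := by
      have h3 := congrArg Units.val (MonoidHom.mem_ker.1 hx)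
      simpa [φ] using h3
    rw [← map_one (Ideal.Quotient.mk I), Ideal.Quotient.eq, hI, Ideal.mem_span_singleton] at h2
    obtain ⟨y, hy⟩ := h2
    refine ⟨(e u).2.1, mem_Si_of_isIntegral ?_⟩
    have h4 : (((e u : Ou K) : Kˣ) : K) - 1 = (Q K : K) ^ (k + 1) * y := by
      have h5 := congrArg (algebraMap (𝓞 K) K) hy
      rw [map_sub, map_mul, map_pow, map_natCast, map_one] at h5
      exact h5
    change IsIntegral ℤ (((((e u : Ou K) : Kˣ) : K) - 1) / _)
    rw [h4, mul_div_cancel_left₀ _ (pow_ne_zero _ (QK_ne K))]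
    exact y.isIntegral_coe
  exact (Subgroup.finiteIndex_of_le h1).index_ne_zero

/-- roots of unity times the fundamental system -/
noncomputable def unE : torsion K × (Fin (rank K) → ℤ) ≃ Ou K :=
  (Equiv.ofBijective (fun x => (x.1 : (𝓞 K)ˣ) * Pois.un K x.2) ⟨fun x y e => by
    obtain ⟨z, -, hz⟩ := exist_unique_eq_mul_prod K ((x.1 : (𝓞 K)ˣ) * Pois.un K x.2)
    exact (hz x rfl).trans (hz y e).symm, fun u => by
    obtain ⟨z, hz, -⟩ := exist_unique_eq_mul_prod K u
    exact ⟨z, hz.symm⟩⟩).trans (Equiv.ofBijective uH uH_bij)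

theorem log_unE (x : torsion K × (Fin (rank K) → ℤ)) {t : io K → ℝ} (ht : ∀ j, 0 < t j) :
    (fun j => Real.log ((ab (((unE x : Ou K) : Kˣ) : K) * t) j)) =
      (fun j => Real.log (t j)) - Pois.lam (cmK K) (-x.2) := by
  have h1 : (((unE x : Ou K) : Kˣ) : K) = Pois.uK ((x.1 : (𝓞 K)ˣ) * Pois.un K x.2) := rfl
  have h2 : Pois.lg (cmK K) (((unE x : Ou K) : Kˣ) : K) = Pois.lam (cmK K) x.2 := by
    rw [h1, Pois.uK_mul, Pois.lg_mul _ (Pois.uK_ne _) (Pois.uK_ne _), Pois.lg_torsion _ x.1.2,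
      zero_add, Pois.lam]
  ext j
  rw [Pois.lam_neg, sub_neg_eq_add, Pi.add_apply, ← h2, Pi.mul_apply,
    Real.log_mul (ab_pos (Units.ne_zero _) j).ne' (ht j).ne', add_comm]
  rfl

theorem gen_none_smul (c : ℝ) :
    (fun _ : io K => c) = (c * Fintype.card (io K)) • Pois.ub (cmK K) none := by
  ext j
  have : (Fintype.card (io K) : ℝ) ≠ 0 := by exact_mod_cast Fintype.card_ne_zero
  rw [Pois.ub_apply, Pi.smul_apply, Pois.gen, smul_eq_mul, mul_inv_cancel_right₀ this]

theorem part0 : ∃ β, Part (Ou K) 1 β := by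
  classical
  set S : Set (io K → ℝ) := {t | (∀ j, 0 < t j) ∧
    (fun j => Real.log (t j)) ∈ Pois.F0 (cmK K)} with hS
  have hw : (1 : ℝ) ≤ torsionOrder K := by exact_mod_cast torsionOrder_pos K
  refine ⟨S.indicator fun _ => (torsionOrder K : ℝ)⁻¹, ?_, fun t => ?_, fun t => ?_,
    fun l t hl => ?_, ?_, fun t ht => ?_⟩
  · refine measurable_const.indicator (MeasurableSet.inter ?_ ?_)
    · change MeasurableSet {t : io K → ℝ | ∀ j, 0 < t j}
      rw [Set.ofPred_forall]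
      exact MeasurableSet.iInter fun j => measurableSet_lt measurable_const (measurable_pi_apply j)
    · exact (measurable_pi_lambda _ fun j => (measurable_pi_apply j).log) (Pois.fd_F0 (cmK K)).1
  · exact Set.indicator_nonneg (fun _ _ => by positivity) t
  · exact Set.indicator_le' (fun _ _ => inv_le_one_of_one_le₀ hw) (fun _ _ => zero_le_one) t
  · have h1 : l • t ∈ S ↔ t ∈ S := by
      refine and_congr (forall_congr' fun j => mul_pos_iff_of_pos_left hl) Iff.rfl |>.trans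
        (and_congr_right fun ht => ?_)
      have h2 : (fun j => Real.log ((l • t) j)) =
          (fun _ => Real.log l) + fun j => Real.log (t j) := by
        ext j
        exact Real.log_mul hl.ne' (ht j).ne'
      rw [h2, gen_none_smul]
      refine forall_congr' fun i => ?_
      rw [map_add, map_smul, Module.Basis.repr_self]
      simp
    by_cases h : t ∈ S
    · rw [Set.indicator_of_mem h, Set.indicator_of_mem (h1.2 h)]
    · rw [Set.indicator_of_notMem h, Set.indicator_of_notMem (mt h1.1 h)]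
  · refine ⟨Real.exp (∑ k, 2 * ‖Pois.ub (cmK K) (some k)‖), fun t ht h0 i j => ?_⟩
    have h1 : t ∈ S := Set.mem_of_indicator_ne_zero h0
    set y : io K → ℝ := fun j => Real.log (t j) with hy
    have h2 := (Pois.ub (cmK K)).sum_repr y
    rw [Fintype.sum_option] at h2
    have h3 : y i - y j = ∑ k, (Pois.ub (cmK K)).repr y (some k) *
        (Pois.ub (cmK K) (some k) i - Pois.ub (cmK K) (some k) j) := by
      have a1 := congrFun h2 i
      have a2 := congrFun h2 j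
      simp only [Pi.add_apply, Pi.smul_apply, Finset.sum_apply, smul_eq_mul] at a1 a2
      have a3 : Pois.ub (cmK K) none i = Pois.ub (cmK K) none j := by
        rw [Pois.ub_apply]; rfl
      simp only [mul_sub, sum_sub_distrib]
      rw [a3] at a1
      linarith
    have h4 : y i - y j ≤ ∑ k, 2 * ‖Pois.ub (cmK K) (some k)‖ := by
      rw [h3]
      refine sum_le_sum fun k _ => ?_
      have a1 := (h1.2 k).1
      have a2 := (h1.2 k).2
      have a3 := abs_le.1 ((Real.norm_eq_abs _).symm.trans_le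
        (norm_le_pi_norm (Pois.ub (cmK K) (some k)) i))
      have a4 := abs_le.1 ((Real.norm_eq_abs _).symm.trans_le
        (norm_le_pi_norm (Pois.ub (cmK K) (some k)) j))
      have a5 := norm_nonneg (Pois.ub (cmK K) (some k))
      nlinarith
    rw [← Real.exp_log (ht i), ← Real.exp_log (ht j), ← Real.exp_add]
    exact Real.exp_le_exp.2 (by linarith)
  · obtain ⟨n, hn, hu⟩ := (Pois.fd_F0 (cmK K)).2 fun j => Real.log (t j)
    have := Fintype.ofFinite (torsion K)
    rw [← unE.hasSum_iff]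
    have h1 : ∀ x : torsion K × (Fin (rank K) → ℤ),
        ab (((unE x : Ou K) : Kˣ) : K) * t ∈ S ↔ x.2 = -n := by
      intro x
      rw [hS, Set.mem_ofPred_eq, log_unE x ht, and_iff_right (mul_pos' _ ht)]
      exact ⟨fun h => neg_eq_iff_eq_neg.1 (hu _ h), fun h => by rw [h, neg_neg]; exact hn⟩
    have h2 : (1 : ℝ) = ∑ x ∈ (univ : Finset (torsion K)) ×ˢ ({-n} : Finset (Fin (rank K) → ℤ)),
        ((fun u : Ou K => S.indicator (fun _ => (torsionOrder K : ℝ)⁻¹)
          (ab ((u : Kˣ) : K) * t)) ∘ unE) x := by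
      simp only [Function.comp_apply]
      rw [sum_congr rfl fun x hx => Set.indicator_of_mem
        ((h1 x).2 (mem_singleton.1 (mem_product.1 hx).2)) _, sum_const, card_product,
        card_singleton, mul_one, card_univ, nsmul_eq_mul, ← Nat.card_eq_fintype_card]
      exact (mul_inv_cancel₀ (by linarith : (torsionOrder K : ℝ) ≠ 0)).symm
    rw [h2]
    refine hasSum_sum_of_ne_finset_zero fun x hx => ?_
    rw [Function.comp_apply]
    refine Set.indicator_of_notMem (fun h => hx ?_) _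
    exact mem_product.2 ⟨mem_univ _, mem_singleton.2 ((h1 x).1 h)⟩

theorem part_bet (k : ℕ) : Part (Uk K k) (idx K k : ℝ)⁻¹ (bet K k) := by
  have h : ∃ β, Part (Uk K k) (idx K k : ℝ)⁻¹ β := by
    obtain ⟨β, hβ⟩ := part0 (K := K)
    have h1 := avg (Uk_le k) (idx_ne k) hβ
    rwa [mul_one] at h1
  rw [bet, dif_pos h]
  exact h.choose_spec

end PartAux

open PartAux in
theorem part : PART K := by
  refine ⟨idx_ne, fun j k hjk => ?_, fun k => ?_⟩
  · have h1 := Subgroup.relIndex_mul_relIndex (Uk K k) (Uk K j) (Ou K) (Uk_mono hjk) (Uk_le j)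
    have h2 : (Uk K k).relIndex (Uk K j) ≠ 0 := left_ne_zero_of_mul (h1.trans_ne (idx_ne k))
    have h3 := mono (Uk_mono hjk) h2 (part_bet k)
    have h4 : ((Uk K k).relIndex (Uk K j) : ℝ) * (idx K k : ℝ)⁻¹ = (idx K j : ℝ)⁻¹ := by
      have a1 : (idx K k : ℝ) = (Uk K k).relIndex (Uk K j) * idx K j := by exact_mod_cast h1.symm
      have a2 : ((Uk K k).relIndex (Uk K j) : ℝ) ≠ 0 := by exact_mod_cast h2
      rw [a1, mul_inv, mul_inv_cancel_left₀ a2]
    rwa [h4] at h3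
  · have h1 := mono (Uk_le k) (idx_ne k) (part_bet (K := K) k)
    rwa [show ((Uk K k).relIndex (Ou K) : ℝ) * (idx K k : ℝ)⁻¹ = 1 from
      mul_inv_cancel₀ (by exact_mod_cast idx_ne k)] at h1

theorem resel : RESEL K := by
  intro V κ β₁ β₂ hκ h₁ h₂ Z _ p₁ p₂ f hf hp hpos hs
  have fib : ∀ (β : (io K → ℝ) → ℝ) (p : Z → io K → ℝ), Part V κ β →
      (∀ u ∈ V, ∀ x, p (u • x) = ab (u : K) * p x) → (∀ x, f x ≠ 0 → ∀ j, 0 < p x j) →
      ∀ x, HasSum (fun u : V => (β (p ((u : Kˣ) • x)) : ℂ) * f x) (κ * f x) ∧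
        HasSum (fun u : V => β (p ((u : Kˣ) • x)) * ‖f x‖) (κ * ‖f x‖) := by
    intro β p hβ h1 h2 x
    by_cases hx : f x = 0
    · simp [hx, hasSum_zero]
    · have h3 : HasSum (fun u : V => β (p ((u : Kˣ) • x))) κ := by
        simpa only [fun u : V => h1 u u.2 x] using hβ.sum _ (h2 x hx)
      exact ⟨(hasSum_ofReal.2 h3).mul_right _, h3.mul_right _⟩
  have f₁ := fib β₁ p₁ h₁ (fun u hu x => (hp u hu x).1) fun x hx => (hpos x hx).1
  have f₂ := fib β₂ p₂ h₂ (fun u hu x => (hp u hu x).2) fun x hx => (hpos x hx).2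
  let σ : Z × V ≃ Z × V :=
    ⟨fun x => ((x.2 : Kˣ) • x.1, x.2⁻¹), fun x => ((x.2 : Kˣ) • x.1, x.2⁻¹),
      fun x => by simp, fun x => by simp⟩
  set G : Z × V → ℂ := fun x => β₁ (p₁ x.1) * (β₂ (p₂ ((x.2 : Kˣ) • x.1)) * f x.1) with hG
  have hσ : ∀ x : Z × V,
      G (σ x) = β₂ (p₂ x.1) * (β₁ (p₁ ((x.2 : Kˣ) • x.1)) * f x.1) := by
    intro x
    change (β₁ (p₁ ((x.2 : Kˣ) • x.1)) : ℂ) *
      (β₂ (p₂ (((x.2⁻¹ : V) : Kˣ) • (x.2 : Kˣ) • x.1)) * f ((x.2 : Kˣ) • x.1)) = _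
    rw [Subgroup.coe_inv, inv_smul_smul, hf _ x.2.2, mul_left_comm]
  have nG : ∀ (a b : ℝ) (z : ℂ), 0 ≤ a → 0 ≤ b → ‖(a : ℂ) * (b * z)‖ = a * (b * ‖z‖) := by
    intro a b z ha hb
    rw [norm_mul, norm_mul, norm_real, norm_real, Real.norm_of_nonneg ha, Real.norm_of_nonneg hb]
  have s1 : Summable fun x => ‖G x‖ := by
    refine (summable_prod_of_nonneg fun x => norm_nonneg _).2 ⟨fun x => ?_, ?_⟩
    · simp only [hG, nG _ _ _ (h₁.nonneg _) (h₂.nonneg _)]
      exact (f₂ x).2.summable.mul_left _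
    · simp only [hG, nG _ _ _ (h₁.nonneg _) (h₂.nonneg _), tsum_mul_left, (f₂ _).2.tsum_eq]
      exact (hs.mul_left κ).congr fun x => mul_left_comm _ _ _
  have s2 : Summable fun x => ‖G (σ x)‖ := σ.summable_iff.2 s1
  have s3 : Summable fun x => κ * (β₂ (p₂ x) * ‖f x‖) := by
    have := ((summable_prod_of_nonneg fun x => norm_nonneg _).1 s2).2
    simp only [hσ, nG _ _ _ (h₂.nonneg _) (h₁.nonneg _), tsum_mul_left, (f₁ _).2.tsum_eq] at this
    exact this.congr fun x => mul_left_comm _ _ _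
  refine ⟨(summable_mul_left_iff hκ).1 s3, ?_⟩
  have e1 : ∑' x, G x = κ * ∑' x, (β₁ (p₁ x) : ℂ) * f x := by
    rw [s1.of_norm.tsum_prod, ← tsum_mul_left]
    refine tsum_congr fun x => ?_
    simp only [hG]
    rw [tsum_mul_left, (f₂ x).1.tsum_eq, mul_left_comm]
  have e2 : ∑' x, G (σ x) = κ * ∑' x, (β₂ (p₂ x) : ℂ) * f x := by
    rw [s2.of_norm.tsum_prod, ← tsum_mul_left]
    refine tsum_congr fun x => ?_
    simp only [hσ]
    rw [tsum_mul_left, (f₁ x).1.tsum_eq, mul_left_comm]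
  rw [σ.tsum_eq, e1] at e2
  exact (mul_left_cancel₀ (ofReal_ne_zero.2 hκ) e2).symm

end Vale.Agent.P016Z.TH
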