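import Vale.Agent.P016Z.TH.RelDefs
import Vale.Agent.P016Z.TH.FourE
import Vale.Agent.P016Z.TH.Gau1

/-!
P016, block THETA: the calculus of residues (`RESA`).
-/

namespace Vale.Agent.P016Z.TH

open NumberField MeasureTheory Filter Topology Complex Finset
open Vale.Agent.P006
open scoped ENNReal ComplexConjugate

set_option linter.unusedSectionVars false

/-- the trivial kernel -/
noncomputable def Ker.triv : Ker where
  Om := Unit
  ms := inferInstance
  mu := Measure.dirac ()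
  sf := inferInstance
  P _ := 1
  w _ := 1
  P_meas := measurable_const
  w_meas := measurable_const
  P_pos _ := one_pos
  int1 := integrable_const _
  int2 := integrable_const _

theorem Ker.hat_triv : Ker.triv.hat = 1 := by
  show ∫ _x : Unit, (((1 : ℝ) ^ (-(4 / 3) : ℝ) : ℝ) : ℂ) * 1 ∂(Measure.dirac ()) = 1
  simp

/-- a true asymptotic formula gives the residue -/
theorem hasRes_of_asymp {S : ℝ → ℂ} (hS : Tame S) {C : ℝ}
    (hC : ∀ X, 0 < X → ‖S X‖ ≤ C * X ^ (4 / 3 : ℝ)) {b : ℂ}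
    (hb : Tendsto (fun X : ℝ => ((X ^ (-(4 / 3) : ℝ) : ℝ) : ℂ) * S X) atTop (𝓝 b)) :
    HasRes S b :=
  ⟨hS, Ker.triv, by rw [Ker.hat_triv]; exact one_ne_zero, Ker.triv.lim_of_tendsto hS.1 hC hb⟩

theorem hasRes_zero : HasRes (fun _ => 0) 0 :=
  hasRes_of_asymp (C := 0) ⟨measurable_const, 0, fun _ _ => by simp⟩ (fun _ _ => by simp)
    (by simp)

variable {K : Type} [Field K] [NumberField K] [Dat K]

namespace ResAux

open Eis FourE

open Classical in
/-- the truncation of a function of `c` -/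
noncomputable def cut (x : ℝ) (g : K → ℂ) : K → ℂ := fun c => if c ≠ 0 ∧ nm c ≤ x then g c else 0

theorem Sn_eq (k : ℕ) (a : K → K → ℂ) (ν : K) (x : ℝ) : Sn k a ν x = us k (cut x (gn k a ν)) := rfl

theorem Sg_eq' (k : ℕ) (L : AddSubgroup K) (a : K → K → ℂ) (ν : K) (x : ℝ) :
    Sg k L a ν x = us k (cut x (gs L a ν)) := rfl

theorem us_const_mul (k : ℕ) (z : ℂ) (f : K → ℂ) : us k (fun c => z * f c) = z * us k f := by
  rw [us, us, ← tsum_mul_left]
  exact tsum_congr fun c => mul_left_comm _ _ _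

theorem cut_congr {g g' : K → ℂ} (z : ℂ) (h : ∀ c, c ≠ 0 → g c = z * g' c) (x : ℝ) :
    cut x g = fun c => z * cut x g' c := by
  funext c
  unfold cut
  split_ifs with h1
  · exact h c h1.1
  · rw [mul_zero]

theorem cut_ne {x : ℝ} {g : K → ℂ} {c : K} (h : cut x g c ≠ 0) : c ≠ 0 ∧ nm c ≤ x ∧ g c ≠ 0 := by
  unfold cut at h
  split_ifs at h with h1
  · exact ⟨h1.1, h1.2, h⟩
  · exact absurd rfl h

theorem cut_pos {x : ℝ} {g : K → ℂ} {c : K} (h : c ≠ 0 ∧ nm c ≤ x) : cut x g c = g c := if_pos h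

theorem cut_neg {x : ℝ} {g : K → ℂ} {c : K} (h : ¬ (c ≠ 0 ∧ nm c ≤ x)) : cut x g c = 0 := if_neg h

theorem us_cut_congr (k : ℕ) {g g' : K → ℂ} (z : ℂ) (h : ∀ c, c ≠ 0 → g c = z * g' c) (x : ℝ) :
    us k (cut x g) = z * us k (cut x g') := by
  rw [cut_congr z h, us_const_mul]

/-- only finitely many `c` contribute -/
theorem fin_cut (hP : PART K) (h1 : CNT1 K) (k : ℕ) {a : K → K → ℂ} (ha : Bnd a) {g : K → ℂ}
    (hg : ∀ c, (∀ d, a c d = 0) → g c = 0) (x : ℝ) :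
    ∃ s : Finset K, ∀ c ∉ s, bet K k (ab c) = 0 ∨ cut x g c = 0 := by
  obtain ⟨_, _, -, -, -, h⟩ := cvals hP h1 k ha
  obtain ⟨s, -, -, hs⟩ := h x
  refine ⟨s, fun c hc => ?_⟩
  by_contra h0
  push Not at h0
  obtain ⟨h2, h3, h4⟩ := cut_ne h0.2
  refine h4 (hg c fun d => ?_)
  by_contra h5
  exact hc (hs c d h2 h3 h0.1 h5)

theorem summable_cut (hP : PART K) (h1 : CNT1 K) (k : ℕ) {a : K → K → ℂ} (ha : Bnd a) {g : K → ℂ}
    (hg : ∀ c, (∀ d, a c d = 0) → g c = 0) (x : ℝ) :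
    Summable fun c => (bet K k (ab c) : ℂ) * cut x g c := by
  obtain ⟨s, hs⟩ := fin_cut hP h1 k ha hg x
  refine summable_of_ne_finset_zero (s := s) fun c hc => ?_
  rcases hs c hc with h | h
  · rw [h, ofReal_zero, zero_mul]
  · rw [h, mul_zero]

theorem summable_cut_norm (hP : PART K) (h1 : CNT1 K) (k : ℕ) {a : K → K → ℂ} (ha : Bnd a)
    {g : K → ℂ} (hg : ∀ c, (∀ d, a c d = 0) → g c = 0) (x : ℝ) :
    Summable fun c => bet K k (ab c) * ‖cut x g c‖ := by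
  obtain ⟨s, hs⟩ := fin_cut hP h1 k ha hg x
  refine summable_of_ne_finset_zero (s := s) fun c hc => ?_
  rcases hs c hc with h | h
  · rw [h, zero_mul]
  · rw [h, norm_zero, mul_zero]

theorem gn_unit {j : ℕ} {a : K → K → ℂ} (ha : Adm j a) (k : ℕ) (ν : K) {u : Kˣ} (hu : u ∈ Uk K j)
    (c : K) : gn k a ν (u * c) = gn k a ν c := by
  unfold gn gs
  simp only [mul_assoc, ha.unit u hu]

/-- change of the partition and of the base point -/
theorem us_resel (hP : PART K) (hR : RESEL K) (h1 : CNT1 K) {j k : ℕ} (hjk : j ≤ k)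
    {a : K → K → ℂ} (ha : Adm j a) (i : ℕ) (ν : K) {y : K} (hy : y ≠ 0) (x : ℝ) :
    ∑' c, (bet K k (ab (y * c)) : ℂ) * cut x (gn i a ν) c = us j (cut x (gn i a ν)) :=
  (hR (Uk K j) _ _ _ (idx_ne hP j) (hP.2.1 j j le_rfl) (hP.2.1 j k hjk) K
    (fun c => ab c) (fun c => ab (y * c)) (cut x (gn i a ν))
    (fun u hu c => by
      have h3 : (u : K) * c ≠ 0 ↔ c ≠ 0 := mul_ne_zero_iff_left u.ne_zero
      have h4 : nm ((u : K) * c) = nm c := by
        rw [nm, CM.nm_mul, show (cmK K).nm (u : K) = 1 from nm_unit (Uk_le_Ou j hu), one_mul]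
      show cut x (gn i a ν) ((u : K) * c) = _
      by_cases h5 : c ≠ 0 ∧ nm c ≤ x
      · rw [cut_pos h5, cut_pos ⟨h3.2 h5.1, h4.trans_le h5.2⟩, gn_unit ha i ν hu]
      · rw [cut_neg h5, cut_neg fun h6 => h5 ⟨h3.1 h6.1, h4.symm.trans_le h6.2⟩])
    (fun u _ c => ⟨ab_mul _ _, by
      show ab (y * ((u : K) * c)) = _
      rw [mul_left_comm, ab_mul]⟩)
    (fun c hc => ⟨ab_pos (cut_ne hc).1, ab_pos (mul_ne_zero hy (cut_ne hc).1)⟩)
    (summable_cut_norm hP h1 j ha.toBnd (fun _ h => gn_eq_zero ν h) x)).2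

theorem level (hP : PART K) (hR : RESEL K) (h1 : CNT1 K) {a : K → K → ℂ} {j : ℕ} {ν : K} {ρ : ℂ}
    (ha : Adm j a) (hper : Per (Lat (lv K j)) a) (hν : ν ∈ Dual (lv K j))
    (h : HasRes (Sg j (Lat (lv K j)) a ν) ρ) : Res a ν (ρ / (nm (lv K j) : ℂ)) := by
  filter_upwards [eventually_ge_atTop j] with k hjk
  have e : Sn k a ν = fun x => (nm (lv K j) : ℂ)⁻¹ * Sg j (Lat (lv K j)) a ν x := by
    funext x
    have h2 := us_resel hP hR h1 hjk ha j ν one_ne_zero x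
    simp only [one_mul] at h2
    rw [Sn_eq, show gn k a ν = gn j a ν from funext (gn_level hper hν hjk), us, h2, Sg_eq']
    exact us_cut_congr j _ (fun c _ => div_eq_inv_mul _ _) x
  rw [e, div_eq_inv_mul]
  exact h.const_mul _

theorem finL_gs (h1 : CNT1 K) {m : K} (hm : m ≠ 0) {a : K → K → ℂ} (ha : Bnd a)
    (hper : Per (Lat m) a) (ν : K) {c : K} (hc : c ≠ 0) :
    FinL (Lat m) fun t => a c (c * t) * eT (ν * t) := by
  obtain ⟨_, -, h⟩ := classes h1 hm ha hper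
  obtain ⟨T, -, hT⟩ := h c hc
  refine T.finite_toSet.subset fun q hq => ?_
  by_contra h0
  exact hq (by simp only [hT q h0, zero_mul])

theorem gn_add (h1 : CNT1 K) {k : ℕ} {a b : K → K → ℂ} (ha : Bnd a)
    (hpa : Per (Lat (lv K k)) a) (hb : Bnd b) (hpb : Per (Lat (lv K k)) b) (ν : K) {c : K}
    (hc : c ≠ 0) : gn k (a + b) ν c = gn k a ν c + gn k b ν c := by
  unfold gn gs
  rw [← add_div, ← qs_add (finL_gs h1 (lv_ne k) ha hpa ν hc) (finL_gs h1 (lv_ne k) hb hpb ν hc)]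
  simp only [Pi.add_apply, add_mul]

theorem Sn_add (hP : PART K) (h1 : CNT1 K) {k : ℕ} {a b : K → K → ℂ} (ha : Bnd a)
    (hpa : Per (Lat (lv K k)) a) (hb : Bnd b) (hpb : Per (Lat (lv K k)) b) (ν : K) (x : ℝ) :
    Sn k (a + b) ν x = Sn k a ν x + Sn k b ν x := by
  rw [Sn_eq, Sn_eq, Sn_eq, us, us, us,
    ← (summable_cut hP h1 k ha (fun _ h => gn_eq_zero ν h) x).tsum_add
      (summable_cut hP h1 k hb (fun _ h => gn_eq_zero ν h) x)]
  refine tsum_congr fun c => ?_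
  rw [← mul_add]
  congr 1
  unfold cut
  split_ifs with h
  · exact gn_add h1 ha hpa hb hpb ν h.1
  · rw [add_zero]

theorem gn_smul (k : ℕ) (z : ℂ) (a : K → K → ℂ) (ν c : K) :
    gn k (z • a) ν c = z * gn k a ν c := by
  unfold gn gs
  rw [← mul_div_assoc, ← qs_const_mul]
  simp only [Pi.smul_apply, smul_eq_mul, mul_assoc]

theorem act_tr (a : K → K → ℂ) (t c d : K) : act a (KU.tr t) c d = a c (d + c * t) := by
  show a (c * 1 + d * 0) (c * t + d * 1) = _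
  rw [mul_one, mul_zero, add_zero, mul_one, add_comm]

theorem gn_tr {k : ℕ} {a : K → K → ℂ} {ν : K} (hper : Per (Lat (lv K k)) a)
    (hν : ν ∈ Dual (lv K k)) (t c : K) :
    gn k (act a (KU.tr t)) ν c = eT (-(ν * t)) * gn k a ν c := by
  unfold gn gs
  rw [← mul_div_assoc, ← qs_shift (perL_gs hper hν c) t, ← qs_const_mul]
  congr 1
  refine qs_congr fun s => ?_
  have h : eT (-(ν * t)) * eT (ν * (s + t)) = eT (ν * s) := by
    rw [← eT_add]; congr 1; ring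
  rw [act_tr, mul_add c, mul_left_comm, h]

theorem dual_ev {ν : K} (hν : ν ∈ R K) : ∀ᶠ k in atTop, ν ∈ Dual (lv K k) := by
  obtain ⟨i, hi⟩ := mem_R.1 hν
  filter_upwards [eventually_ge_atTop i] with k hk
  refine mem_Dual_of_isIntegral (lv_ne k) ?_
  rw [lv, show k + 1 = (k + 1 - i) + i by omega, pow_add, mul_comm, mul_assoc]
  exact ((isIntegral_natCast _).pow _).mul hi

theorem Sn_reindex (hP : PART K) (hR : RESEL K) (h1 : CNT1 K) {k : ℕ} {a b : K → K → ℂ}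
    (hb : Adm k b) {ν μ y : K} {z : ℂ} (hy : y ≠ 0)
    (h : ∀ c, c ≠ 0 → gn k a ν (y * c) = z * gn k b μ c) (x : ℝ) :
    Sn k a ν x = z * Sn k b μ (x / nm y) := by
  rw [Sn_eq, Sn_eq, ← us_resel hP hR h1 le_rfl hb k μ hy, ← tsum_mul_left, us,
    ← (Equiv.mulLeft₀ y hy).tsum_eq]
  refine tsum_congr fun c => ?_
  have h3 : y * c ≠ 0 ↔ c ≠ 0 := mul_ne_zero_iff_left hy
  have h4 : nm (y * c) ≤ x ↔ nm c ≤ x / nm y := by
    rw [le_div_iff₀' ((cmK K).nm_pos hy), nm, CM.nm_mul]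
  show (bet K k (ab (y * c)) : ℂ) * cut x (gn k a ν) (y * c) = _
  rw [mul_left_comm]
  congr 1
  by_cases h5 : c ≠ 0 ∧ nm c ≤ x / nm y
  · rw [cut_pos h5, cut_pos ((and_congr h3 h4).2 h5), h c h5.1]
  · rw [cut_neg h5, cut_neg fun h6 => h5 ((and_congr h3 h4).1 h6), mul_zero]

theorem row_mono {j k : ℕ} (hjk : j ≤ k) {c d : K} (h : Row (lv K j) c d) : Row (lv K k) c d := by
  obtain ⟨g, hg, h⟩ := h
  refine ⟨g, fun s t => ?_, h⟩
  rw [lv_eq_mul hjk, mul_right_comm]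
  exact (hg s t).mul ((isIntegral_natCast _).pow _)

theorem bnd_add {a b : K → K → ℂ} (ha : Bnd a) (hb : Bnd b) : Bnd (a + b) := by
  obtain ⟨⟨B, hB⟩, i, hi⟩ := ha
  obtain ⟨⟨B', hB'⟩, i', hi'⟩ := hb
  refine ⟨⟨B + B', fun c d => (norm_add_le _ _).trans (add_le_add (hB c d) (hB' c d))⟩,
    max i i', fun c d h => ?_⟩
  by_cases h0 : a c d = 0
  · refine row_mono (le_max_right _ _) (hi' c d fun h2 => h ?_)
    show a c d + b c d = 0
    rw [h0, h2, add_zero]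
  · exact row_mono (le_max_left _ _) (hi c d h0)

theorem bnd_of_le {a b : K → K → ℂ} (ha : Bnd a) (C : ℝ) (hC : 0 ≤ C)
    (h : ∀ c d, ‖b c d‖ ≤ C * ‖a c d‖) : Bnd b := by
  obtain ⟨⟨B, hB⟩, i, hi⟩ := ha
  refine ⟨⟨C * B, fun c d => (h c d).trans (mul_le_mul_of_nonneg_left (hB c d) hC)⟩,
    i, fun c d h0 => hi c d fun h2 => h0 ?_⟩
  have h3 := h c d
  rwa [h2, norm_zero, mul_zero, norm_le_zero_iff] at h3

theorem unit_div {k : ℕ} {u : Kˣ} (hu : u ∈ Uk K k) (c p : K) :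
    (u : K) * c / p ∈ R K ↔ c / p ∈ R K := by
  rw [mul_div_assoc]
  refine ⟨fun h => ?_, mul_mem hu.1.1⟩
  have h2 := mul_mem hu.1.2 h
  rwa [inv_mul_cancel_left₀ u.ne_zero] at h2

end ResAux

open ResAux

theorem resa (hP : PART K) (hR : RESEL K) (h1 : CNT1 K) : RESA K := by
  refine ⟨fun a j ν ρ => level hP hR h1, fun a b ν ρ σ ha hb hρ hσ => ?_, fun a ν ρ z hρ => ?_,
    fun a ν t ρ ha hν hρ => ?_, fun a b ν μ x z ρ hb hx h hρ => ?_, fun a b ha hb => ?_,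
    fun a z ha => ?_, fun a p ha => ⟨?_, ?_⟩, ?_, fun ν => ?_⟩
  · filter_upwards [ha, hb, hρ, hσ] with k ha hb hρ hσ
    rw [show Sn k (a + b) ν = _ from funext (Sn_add hP h1 ha.1.toBnd ha.2 hb.1.toBnd hb.2 ν)]
    exact hρ.add hσ
  · filter_upwards [hρ] with k hρ
    rw [show Sn k (z • a) ν = fun x => z * Sn k a ν x from
      funext (us_cut_congr k z fun c _ => gn_smul k z a ν c)]
    exact hρ.const_mul z
  · filter_upwards [ha, hρ, dual_ev hν] with k ha hρ hν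
    rw [show Sn k (act a (KU.tr t)) ν = fun x => eT (-(ν * t)) * Sn k a ν x from
      funext (us_cut_congr k _ fun c _ => gn_tr ha.2 hν t c)]
    exact hρ.const_mul _
  · filter_upwards [hb, h, hρ] with k hb h hρ
    rw [show Sn k a ν = _ from funext (Sn_reindex hP hR h1 hb.1 hx h), mul_assoc]
    exact (hρ.scale ((cmK K).nm_pos hx)).const_mul z
  · filter_upwards [ha, hb] with k ha hb
    refine ⟨⟨bnd_add ha.1.toBnd hb.1.toBnd, fun u hu c d => ?_⟩, fun c d t ht => ?_⟩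
    · simp only [Pi.add_apply, ha.1.unit u hu, hb.1.unit u hu]
    · simp only [Pi.add_apply, ha.2 c d t ht, hb.2 c d t ht]
  · filter_upwards [ha] with k ha
    refine ⟨⟨bnd_of_le ha.1.toBnd ‖z‖ (norm_nonneg _) fun c d => (norm_mul_le _ _),
      fun u hu c d => ?_⟩, fun c d t ht => ?_⟩
    · simp only [Pi.smul_apply, ha.1.unit u hu]
    · simp only [Pi.smul_apply, ha.2 c d t ht]
  · filter_upwards [ha] with k ha
    refine ⟨⟨bnd_of_le ha.1.toBnd 1 zero_le_one fun c d => ?_, fun u hu c d => ?_⟩,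
      fun c d t ht => ?_⟩
    · unfold pin
      split_ifs <;> simp
    · classical
      exact if_congr (unit_div hu c p) (ha.1.unit u hu c d) rfl
    · simp only [pin, ha.2 c d t ht]
  · filter_upwards [ha] with k ha
    refine ⟨⟨bnd_of_le ha.1.toBnd 1 zero_le_one fun c d => ?_, fun u hu c d => ?_⟩,
      fun c d t ht => ?_⟩
    · unfold pout
      split_ifs <;> simp
    · classical
      exact if_congr (unit_div hu c p) rfl (ha.1.unit u hu c d)
    · simp only [pout, ha.2 c d t ht]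
  · exact Eventually.of_forall fun k =>
      ⟨⟨⟨⟨0, fun _ _ => norm_zero.le⟩, 0, fun _ _ h => absurd rfl h⟩, fun _ _ _ _ => rfl⟩,
        fun _ _ _ _ => rfl⟩
  · refine Eventually.of_forall fun k => ?_
    rw [show Sn k (0 : K → K → ℂ) ν = fun _ => 0 from funext fun x => by
      rw [Sn_eq, us_cut_congr k (g' := fun _ => 0) 0
        (fun c _ => (gn_eq_zero ν fun _ => rfl).trans (zero_mul _).symm), zero_mul]]
    exact hasRes_zero

end Vale.Agent.P016Z.TH
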