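import Vale.Agent.P016Z.TH.Row1
import Mathlib.LinearAlgebra.FreeModule.IdealQuotient

/-!
P016, block THETA: equivariant row functions and their decompositions.
-/

namespace Vale.Agent.P016Z.TH

open NumberField Filter
open Vale.Agent.P006

set_option linter.unusedSectionVars false

variable {K : Type} [Field K] [NumberField K] [Dat K]

namespace Rw

/-! ### the action on rows -/

/-- the row `x g` -/
def rm (x : K × K) (g : SL2 K) : K × K := (x.1 * g 0 0 + x.2 * g 1 0, x.1 * g 0 1 + x.2 * g 1 1)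

/-- the bottom row -/
def bt (g : SL2 K) : K × K := (g 1 0, g 1 1)

theorem rm_mul (x : K × K) (g h : SL2 K) : rm x (g * h) = rm (rm x g) h := by
  simp only [rm, KU.mul_00, KU.mul_01, KU.mul_10, KU.mul_11]
  congr 1 <;> ring

theorem rm_one (x : K × K) : rm x 1 = x := by simp [rm]

theorem bt_mul (g h : SL2 K) : bt (g * h) = rm (bt g) h := by
  simp only [rm, bt, KU.mul_10, KU.mul_11]

theorem act_eq (a : K → K → ℂ) (g : SL2 K) (x : K × K) :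
    act a g x.1 x.2 = a (rm x g).1 (rm x g).2 := rfl

theorem act_act (a : K → K → ℂ) (g g' : SL2 K) : act (act a g) g' = act a (g' * g) := by
  funext c d
  rw [act_eq _ _ (c, d), act_eq, act_eq _ _ (c, d), rm_mul]

theorem act_one (a : K → K → ℂ) : act a 1 = a := by
  funext c d
  rw [act_eq _ _ (c, d), rm_one]

/-- the action as a linear map -/
def actL (g : SL2 K) : (K → K → ℂ) →ₗ[ℂ] (K → K → ℂ) where
  toFun a := act a g
  map_add' _ _ := rfl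
  map_smul' _ _ := rfl

theorem actL_apply (g : SL2 K) (a : K → K → ℂ) : actL g a = act a g := rfl

/-! ### bounded denominators -/

theorem bd_iff {D : K} {g : SL2 K} : Bd D g ↔ IsIntegral ℤ (D * g 0 0) ∧ IsIntegral ℤ (D * g 0 1) ∧
    IsIntegral ℤ (D * g 1 0) ∧ IsIntegral ℤ (D * g 1 1) := by
  simp only [Bd, Fin.forall_fin_two, and_assoc]

theorem bd_inv {D : K} {g : SL2 K} (h : Bd D g) : Bd D g⁻¹ := by
  rw [bd_iff, KU.inv_00, KU.inv_01, KU.inv_10, KU.inv_11, mul_neg, mul_neg]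
  exact ⟨h 1 1, (h 0 1).neg, (h 1 0).neg, h 0 0⟩

theorem bd_mul {D D' : K} {g g' : SL2 K} (h : Bd D g) (h' : Bd D' g') : Bd (D * D') (g * g') := by
  have e : ∀ x y z w : K, D * D' * (x * y + z * w) = D * x * (D' * y) + D * z * (D' * w) :=
    fun _ _ _ _ => by ring
  rw [bd_iff, KU.mul_00, KU.mul_01, KU.mul_10, KU.mul_11, e, e, e, e]
  exact ⟨((h 0 0).mul (h' 0 0)).add ((h 0 1).mul (h' 1 0)),
    ((h 0 0).mul (h' 0 1)).add ((h 0 1).mul (h' 1 1)),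
    ((h 1 0).mul (h' 0 0)).add ((h 1 1).mul (h' 1 0)),
    ((h 1 0).mul (h' 0 1)).add ((h 1 1).mul (h' 1 1))⟩

theorem exists_bd {g : SL2 K} (hg : g ∈ SLr K) : ∃ i, Bd (lv K i) g := by
  obtain ⟨i, hi⟩ := ((ev_int hg.1).and ((ev_int hg.2.1).and ((ev_int hg.2.2.1).and
    (ev_int hg.2.2.2)))).exists
  exact ⟨i, bd_iff.2 hi⟩

theorem bd_SLR {i : ℕ} {g : SL2 K} (h : Bd (lv K i) g) : g ∈ SLr K :=
  ⟨mem_R.2 ⟨_, h 0 0⟩, mem_R.2 ⟨_, h 0 1⟩, mem_R.2 ⟨_, h 1 0⟩, mem_R.2 ⟨_, h 1 1⟩⟩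

theorem conj_mem {D : K} {M j : ℕ} (hM : lv K M = D * D * lv K j) {ρ γ : SL2 K} (hρ : Bd D ρ)
    (hγ : γ ∈ Gam K M) : ρ⁻¹ * γ * ρ ∈ Gam K j := by
  have hD : D ≠ 0 := fun h => lv_ne M (by rw [hM, h, zero_mul, zero_mul])
  have hl := lv_ne (K := K) j
  have T : ∀ (a b c d : Fin 2) {z : K}, z ∈ Lat (lv K M) → ρ a b * z * ρ c d ∈ Lat (lv K j) := by
    intro a b c d z hz
    rw [mem_Lat, hM] at hz
    have e : ρ a b * z * ρ c d / lv K j = D * ρ a b * (z / (D * D * lv K j)) * (D * ρ c d) := by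
      field_simp
    rw [mem_Lat, e]
    exact ((hρ a b).mul hz).mul (hρ c d)
  obtain ⟨h1, h2, h3, h4⟩ := hγ
  have hd := KU.det_eq ρ
  refine ⟨?_, ?_, ?_, ?_⟩ <;>
    simp only [KU.mul_00, KU.mul_01, KU.mul_10, KU.mul_11, KU.inv_00, KU.inv_01, KU.inv_10,
      KU.inv_11]
  · convert sub_mem (add_mem (T 1 1 0 0 h1) (T 1 1 1 0 h2)) (add_mem (T 0 1 0 0 h3) (T 0 1 1 0 h4))
      using 1
    linear_combination hd
  · convert sub_mem (add_mem (T 1 1 0 1 h1) (T 1 1 1 1 h2)) (add_mem (T 0 1 0 1 h3) (T 0 1 1 1 h4))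
      using 1
    ring
  · convert sub_mem (add_mem (T 0 0 0 0 h3) (T 0 0 1 0 h4)) (add_mem (T 1 0 0 0 h1) (T 1 0 1 0 h2))
      using 1
    ring
  · convert sub_mem (add_mem (T 0 0 0 1 h3) (T 0 0 1 1 h4)) (add_mem (T 1 0 0 1 h1) (T 1 0 1 1 h2))
      using 1
    linear_combination hd

theorem conj_lv {i j : ℕ} {ρ γ : SL2 K} (hρ : Bd (lv K i) ρ) (hγ : γ ∈ Gam K (i + i + 1 + j + 1)) :
    ρ⁻¹ * γ * ρ ∈ Gam K j := conj_mem (by rw [lv_add, lv_add]) hρ hγ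

theorem conj_int {j : ℕ} {ρ γ : SL2 K} (hρ : ρ ∈ SLO K) (hγ : γ ∈ Gam K j) :
    ρ⁻¹ * γ * ρ ∈ Gam K j :=
  conj_mem (D := 1) (by ring) (by simpa only [bd_iff, one_mul] using mem_SLO.1 hρ) hγ

theorem fin_bd (i j : ℕ) : ∃ T : Finset (SL2 K), (∀ ρ ∈ T, Bd (lv K i) ρ) ∧
    ∀ ρ', Bd (lv K i) ρ' → ∃ ρ ∈ T, ρ⁻¹ * ρ' ∈ Gam K j := by
  classical
  let n : 𝓞 K := ⟨lv K (i + i + 1 + j + 1), isIntegral_lv _⟩
  have hn : Ideal.span {n} ≠ ⊥ := by
    rw [Ne, Ideal.span_singleton_eq_bot]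
    exact fun h => lv_ne _ (congrArg Subtype.val h)
  have := Ideal.finiteQuotientOfFreeOfNeBot _ hn
  let f : {ρ : SL2 K // Bd (lv K i) ρ} → Fin 2 → Fin 2 → 𝓞 K ⧸ Ideal.span {n} :=
    fun ρ a b => Ideal.Quotient.mk _ ⟨_, ρ.2 a b⟩
  have := Fintype.ofFinite (Set.range f)
  refine ⟨Finset.univ.image fun y : Set.range f => (Set.rangeSplitting f y).1, fun ρ hρ => ?_,
    fun ρ' hρ' => ?_⟩
  · obtain ⟨y, -, rfl⟩ := Finset.mem_image.1 hρ
    exact (Set.rangeSplitting f y).2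
  have hf := Set.apply_rangeSplitting f ⟨f ⟨ρ', hρ'⟩, Set.mem_range_self _⟩
  refine ⟨_, Finset.mem_image_of_mem _ (Finset.mem_univ ⟨f ⟨ρ', hρ'⟩, Set.mem_range_self _⟩), ?_⟩
  generalize Set.rangeSplitting f ⟨f ⟨ρ', hρ'⟩, Set.mem_range_self _⟩ = r at hf
  obtain ⟨ρ, hρ⟩ := r
  have hi := lv_ne (K := K) i
  have hj := lv_ne (K := K) j
  have T : ∀ a b c d : Fin 2, ρ a b * (ρ' c d - ρ c d) ∈ Lat (lv K j) := by
    intro a b c d
    obtain ⟨z, hz⟩ := Ideal.mem_span_singleton'.1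
      (Ideal.Quotient.eq.1 (congrFun (congrFun hf c) d).symm)
    have hz' : (z : K) * lv K (i + i + 1 + j + 1) = lv K i * ρ' c d - lv K i * ρ c d :=
      congrArg Subtype.val hz
    rw [lv_add, lv_add] at hz'
    have : ρ' c d - ρ c d = z * lv K i * lv K j :=
      mul_left_cancel₀ hi (by linear_combination -hz')
    have e : ρ a b * (z * lv K i * lv K j) / lv K j = lv K i * ρ a b * (z : K) := by field_simp
    rw [mem_Lat, this, e]
    exact (hρ a b).mul z.2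
  have hd := KU.det_eq ρ
  refine ⟨?_, ?_, ?_, ?_⟩ <;>
    simp only [KU.mul_00, KU.mul_01, KU.mul_10, KU.mul_11, KU.inv_00, KU.inv_01, KU.inv_10,
      KU.inv_11]
  · convert sub_mem (T 1 1 0 0) (T 0 1 1 0) using 1
    linear_combination hd
  · convert sub_mem (T 1 1 0 1) (T 0 1 1 1) using 1
    ring
  · convert sub_mem (T 0 0 1 0) (T 1 0 0 0) using 1
    ring
  · convert sub_mem (T 0 0 1 1) (T 1 0 0 1) using 1
    linear_combination hd

/-! ### conjugation -/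

variable (S : Sy K)

/-- invariance of the character under conjugation at deep levels -/
def Cj (g : SL2 K) : Prop :=
  ∀ j, ∃ M, ∀ γ ∈ Gam K M, g⁻¹ * γ * g ∈ Gam K j ∧ S.kub (g⁻¹ * γ * g) = S.kub γ

theorem cj_mul {g g' : SL2 K} (h : Cj S g) (h' : Cj S g') : Cj S (g * g') := by
  intro j
  obtain ⟨M', hM'⟩ := h' j
  obtain ⟨M, hM⟩ := h M'
  refine ⟨M, fun γ hγ => ?_⟩
  have e : (g * g')⁻¹ * γ * (g * g') = g'⁻¹ * (g⁻¹ * γ * g) * g' := by group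
  rw [e]
  exact ⟨(hM' _ (hM γ hγ).1).1, (hM' _ (hM γ hγ).1).2.trans (hM γ hγ).2⟩

theorem s_zero_one : S.s 0 1 = 1 := s_unit S (zero_mem _) (one_mem _) (by simp) one_ne_zero

theorem cj_gen {g : SL2 K} (hg : g ∈ SLr K) (hβ : g 0 1 ≠ 0) (hδ : g 1 1 ≠ 0) : Cj S g := by
  intro j
  obtain ⟨i, hi⟩ := exists_bd hg
  obtain ⟨M, hM, hM'⟩ := ((eventually_ge_atTop (i + i + 1 + (j + 1) + 1)).and
    (ev_Si (g 0 1 / g 1 1 / lv K 1))).exists
  refine ⟨M, fun γ hγ => ?_⟩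
  have h1 := conj_lv hi (Gam_mono hM hγ)
  refine ⟨Gam_mono (Nat.le_succ j) h1, ?_⟩
  have c1 : Cg (γ 1 1) := Cg.lat (by omega) hγ.2.2.2
  have c2 : Cg ((γ 1 0 * g 0 1 + γ 1 1 * g 1 1) / g 1 1) := by
    have hl := lv_ne (K := K) M
    have hl1 := lv_ne (K := K) 1
    unfold Cg
    convert add_mem (mul_mem hM' (Lat_Si hγ.2.2.1)) c1 using 1
    field_simp
    ring
  have e := congrArg bt (show g * (g⁻¹ * γ * g) = γ * g by group)
  rw [bt_mul, bt_mul] at e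
  have e0 := congrArg Prod.fst e
  have e1 := congrArg Prod.snd e
  simp only [rm, bt] at e0 e1
  have r := rl S (Gam_SLR h1) (Cg.lat (by omega) h1.2.2.2) (cop_row hg hδ) (by rwa [e1])
  rw [e0, e1] at r
  have H1 := grl S hg (cop_row (Gam_SLR hγ) c1.ne) hβ hδ c2.ne_of_div.1
  have H2 := grl S hg (c := 0) (d := 1) ⟨zero_mem _, one_mem _, one_ne_zero, 0, zero_mem _, 1,
    one_mem _, by ring⟩ hβ hδ (by simpa using hδ)
  simp only [zero_mul, zero_add, one_mul] at H2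
  rw [h_one' S hδ Cg.one, S.h_one _ _ hβ Cg.one, s_zero_one] at H2
  rw [r, h_cg S hβ c2, h_one' S c2.ne_of_div.1 c1, S.h_one _ _ hβ c1] at H1
  rw [Sy.kub.eq_1 S γ]
  linear_combination H1 - S.kub (g⁻¹ * γ * g) * H2

theorem cj {g : SL2 K} (hg : g ∈ SLr K) : Cj S g := by
  have key : ∀ W ∈ SLr K, W 0 1 ≠ 0 → W 1 1 ≠ 0 → (W⁻¹ * g) 0 1 ≠ 0 → (W⁻¹ * g) 1 1 ≠ 0 → Cj S g :=
    fun W hW h1 h2 h3 h4 => by
      have := cj_mul S (cj_gen S hW h1 h2) (cj_gen S (mul_mem (inv_mem hW) hg) h3 h4)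
      rwa [mul_inv_cancel_left] at this
  have hd := KU.det_eq g
  by_cases hδ : g 1 1 = 0
  · have hβ : g 0 1 ≠ 0 := fun h => by simp [h, hδ] at hd
    refine key (KU.mk2 1 1 1 2 (by norm_num)) ⟨one_mem _, one_mem _, one_mem _, ofNat_mem _ 2⟩
      (by simp) (by simp) ?_ ?_
    · rw [KU.mul_01, KU.inv_00, KU.inv_01]
      simp [hδ, hβ]
    · rw [KU.mul_11, KU.inv_10, KU.inv_11]
      simp [hδ, hβ]
  by_cases hβ : g 0 1 = 0
  · refine key (KU.tr 1) (tr_SLR (one_mem _)) (by simp [KU.tr]) (by simp [KU.tr]) ?_ ?_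
    · rw [KU.mul_01, KU.inv_00, KU.inv_01]
      simp [KU.tr, hδ, hβ]
    · rw [KU.mul_11, KU.inv_10, KU.inv_11]
      simp [KU.tr, hδ]
  exact cj_gen S hg hβ hδ

theorem act_conj (a : K → K → ℂ) (g γ : SL2 K) (c d : K) :
    act (act a g) γ c d = act a (g⁻¹ * γ * g) (rm (c, d) g).1 (rm (c, d) g).2 := by
  rw [act_act, act_eq _ _ (c, d), act_eq, ← rm_mul]
  congr 2 <;> group

theorem eqv_act {a : K → K → ℂ} (ha : S.Eqv a) {g : SL2 K} (hg : g ∈ SLr K) : S.Eqv (act a g) := by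
  obtain ⟨⟨⟨B, hB⟩, i, hi⟩, j, hj⟩ := ha
  obtain ⟨i', hi'⟩ := exists_bd hg
  obtain ⟨M, hM⟩ := cj S hg j
  refine ⟨⟨⟨B, fun c d => hB _ _⟩, i + i' + 1, fun c d h => ?_⟩, M, fun γ hγ c d => ?_⟩
  · obtain ⟨ρ, hρ, h1, h2⟩ := hi _ _ h
    refine ⟨ρ * g⁻¹, lv_add (K := K) i i' ▸ bd_mul hρ (bd_inv hi'), ?_, ?_⟩
    · rw [KU.mul_10, h1, h2, back_fst]
    · rw [KU.mul_11, h1, h2, back_snd]
  · rw [act_conj, hj _ (hM γ hγ).1, (hM γ hγ).2]
    rfl

/-! ### the explicit family -/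

theorem fam_step {j : ℕ} {φ : K → K → ℂ} (h : Fam j φ) {g : SL2 K} (hg : g ∈ Gam K (j + j + 1 + 1 + 1))
    {c d : K} (h0 : φ c d ≠ 0) : φ (c * g 0 0 + d * g 1 0) (c * g 0 1 + d * g 1 1) = φ c d ∧
      Cg ((c * g 0 1 + d * g 1 1) / d) := by
  obtain ⟨h1, h2, h3, h4⟩ := h.supp c d h0
  have hj := lv_ne (K := K) j
  have hl := lv_ne (K := K) 1
  have T : ∀ {x z : K}, lv K j * x ∈ Si K → z ∈ Lat (lv K (j + j + 1 + 1 + 1)) →
      x * z / lv K j / lv K 1 ∈ Si K := fun {x z} hx hz => by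
    have := Lat_Si hz
    rw [lv_add (j + j + 1) 1, lv_add] at this
    convert mul_mem hx this using 1
    field_simp
  have a := mul_mem (lv_Si 1) (add_mem (T h1 hg.1) (T h2 hg.2.2.1))
  have b := add_mem (T h1 hg.2.1) (T h2 hg.2.2.2)
  constructor
  · rw [← h.per c d (c * (g 0 0 - 1) + d * g 1 0) (c * g 0 1 + d * (g 1 1 - 1))
      (by convert a using 1; field_simp) (by convert mul_mem (lv_Si 1) b using 1; field_simp)]
    congr 1 <;> ring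
  · unfold Cg
    convert mul_mem b h4 using 1
    field_simp
    ring

theorem eqv_ap {j : ℕ} {φ : K → K → ℂ} (h : Fam j φ) : S.Eqv (S.ap φ) := by
  obtain ⟨B, hB⟩ := h.bdd
  refine ⟨⟨⟨B, fun c d => ?_⟩, j + j + 1 + j + 1, fun c d h0 => ?_⟩, j + j + 1 + 1 + 1,
    fun g hg c d => ?_⟩
  · rw [Sy.ap, norm_mul]
    exact (mul_le_of_le_one_left (norm_nonneg _) (norm_s_le S c d)).trans (hB c d)
  · obtain ⟨h1, h2, hd, a, ha, b, hb, e⟩ := cop_of_ne S (left_ne_zero_of_mul h0)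
    obtain ⟨k1, k2, -, k4⟩ := h.supp c d (right_ne_zero_of_mul h0)
    obtain ⟨t, ht, ht'⟩ := exists_R_near (a / d) one_ne_zero
    have hβ : lv K j * (-a + d * t) ∈ Si K := by
      convert mul_mem k2 ht' using 1
      field_simp
      ring
    have l2 := mul_mem (lv_Si (K := K) j) (lv_Si j)
    refine ⟨KU.mk2 (b + c * t) (-a + d * t) c d (by linear_combination e), bd_iff.2 ⟨?_, ?_, ?_, ?_⟩,
      rfl, rfl⟩
    · refine isIntegral_of_mem (mul_mem (lv_R _) (add_mem hb (mul_mem h1 ht))) ?_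
      convert mul_mem k4 (add_mem l2 (mul_mem hβ k1)) using 1
      rw [lv_add, lv_add, KU.mk2_00]
      field_simp
      linear_combination (lv K j) ^ 3 * e
    · refine isIntegral_of_mem (mul_mem (lv_R _) (add_mem (neg_mem ha) (mul_mem h2 ht))) ?_
      rw [lv_add, lv_add, mul_assoc]
      exact mul_mem l2 hβ
    · refine isIntegral_of_mem (mul_mem (lv_R _) h1) ?_
      rw [lv_add, lv_add, mul_assoc]
      exact mul_mem l2 k1
    · refine isIntegral_of_mem (mul_mem (lv_R _) h2) ?_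
      rw [lv_add, lv_add, mul_assoc]
      exact mul_mem l2 k2
  · unfold act Sy.ap
    by_cases h0 : φ c d = 0
    · have : φ (c * g 0 0 + d * g 1 0) (c * g 0 1 + d * g 1 1) = 0 := by
        by_contra h1
        have := (fam_step h (inv_mem hg) h1).1
        rw [back_fst, back_snd, h0] at this
        exact h1 this.symm
      rw [this, h0, mul_zero, mul_zero, mul_zero]
    obtain ⟨h1, h2⟩ := fam_step h hg h0
    rw [h1]
    by_cases hc : Cop c d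
    · rw [rl S (Gam_SLR hg) (Cg.lat (by omega) hg.2.2.2) hc h2, mul_assoc]
    · rw [S.s_zero _ _ hc, S.s_zero _ _ fun hc' => hc (cop_back (Gam_SLR hg) hc' h2.ne_of_div.2)]
      ring

/-! ### decomposition into orbits -/

/-- the orbit of a row -/
def orb (Γ : Subgroup (SL2 K)) (x : K × K) : Set (K × K) := {y | ∃ γ ∈ Γ, y = rm x γ}

open Classical in
/-- restriction of a row function to a set -/
noncomputable def cut (a : K → K → ℂ) (O : Set (K × K)) : K → K → ℂ :=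
  fun c d => if (c, d) ∈ O then a c d else 0

theorem orb_rm {Γ : Subgroup (SL2 K)} {x y : K × K} {γ : SL2 K} (hγ : γ ∈ Γ) :
    rm y γ ∈ orb Γ x ↔ y ∈ orb Γ x := by
  constructor
  · rintro ⟨δ, hδ, e⟩
    exact ⟨δ * γ⁻¹, mul_mem hδ (inv_mem hγ), by rw [rm_mul, ← e, ← rm_mul, mul_inv_cancel, rm_one]⟩
  · rintro ⟨δ, hδ, rfl⟩
    exact ⟨δ * γ, mul_mem hδ hγ, (rm_mul _ _ _).symm⟩

theorem orb_eq {Γ : Subgroup (SL2 K)} {x y : K × K} (h : y ∈ orb Γ x) : orb Γ x = orb Γ y := by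
  obtain ⟨γ, hγ, rfl⟩ := h
  ext z
  constructor
  · rintro ⟨δ, hδ, rfl⟩
    exact ⟨γ⁻¹ * δ, mul_mem (inv_mem hγ) hδ, by rw [← rm_mul, mul_inv_cancel_left]⟩
  · rintro ⟨δ, hδ, rfl⟩
    exact ⟨γ * δ, mul_mem hγ hδ, (rm_mul _ _ _).symm⟩

theorem decomp (Γ : Subgroup (SL2 K)) (T : Finset (SL2 K)) {W : Submodule ℂ (K → K → ℂ)}
    {a : K → K → ℂ} (hs : ∀ c d, a c d ≠ 0 → ∃ ρ ∈ T, (c, d) ∈ orb Γ (bt ρ))
    (h : ∀ ρ ∈ T, cut a (orb Γ (bt ρ)) ∈ W) : a ∈ W := by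
  classical
  have e : a = ∑ O ∈ T.image (fun ρ => orb Γ (bt ρ)), cut a O := by
    funext c d
    rw [Finset.sum_apply, Finset.sum_apply]
    by_cases h0 : a c d = 0
    · simp [cut, h0]
    obtain ⟨ρ, hρ, hx⟩ := hs c d h0
    rw [Finset.sum_eq_single_of_mem _ (Finset.mem_image_of_mem _ hρ), cut, if_pos hx]
    intro O hO hne
    obtain ⟨ρ', -, rfl⟩ := Finset.mem_image.1 hO
    exact if_neg fun hx' => hne ((orb_eq hx').trans (orb_eq hx).symm)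
  rw [e]
  refine Submodule.sum_mem _ fun O hO => ?_
  obtain ⟨ρ, hρ, rfl⟩ := Finset.mem_image.1 hO
  exact h ρ hρ

theorem cut_eqv {Γ : Subgroup (SL2 K)} {a : K → K → ℂ} {γ : SL2 K} (hγ : γ ∈ Γ) {z : ℂ}
    (h : ∀ c d, act a γ c d = z * a c d) (x : K × K) (c d : K) :
    act (cut a (orb Γ x)) γ c d = z * cut a (orb Γ x) c d := by
  rw [act_eq _ _ (c, d), cut, cut, Prod.mk.eta, orb_rm hγ]
  split_ifs
  · exact h c d
  · rw [mul_zero]

theorem a0_bt {k : ℕ} {g : SL2 K} (hg : g ∈ Gam K k) : S.a0 k (bt g).1 (bt g).2 = S.kub g :=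
  if_pos ⟨hg.2.2.1, hg.2.2.2⟩

theorem kub_conj {γ δ : SL2 K} (hγ : γ ∈ Gam K 1) (hδ : δ ∈ Gam K 1) :
    S.kub (δ * γ * δ⁻¹) = S.kub γ := by
  have h := kub_mul S (mul_mem (mul_mem hδ hγ) (inv_mem hδ)) hδ
  rw [inv_mul_cancel_right, kub_mul S hδ hγ, mul_comm] at h
  exact (mul_right_cancel₀ (ne_of_cube (kub_cube S hδ)) h).symm

theorem dec2 {k : ℕ} (hk : 1 ≤ k) {b : K → K → ℂ}
    (hb : ∀ γ ∈ Gam K k, ∀ c d, act b γ c d = S.kub γ * b c d)
    (hs : ∀ c d, b c d ≠ 0 → ∃ δ ∈ Gam K 1, bt δ = (c, d)) :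
    b ∈ Submodule.span ℂ {b | ∃ g ∈ SLr K, b = act (S.a0 k) g} := by
  classical
  obtain ⟨T, -, hT⟩ := fin_bd (K := K) 0 k
  refine decomp (Gam K k) (T.filter (· ∈ Gam K 1)) (fun c d h => ?_) fun δ hδ => ?_
  · obtain ⟨δ, hδ, e⟩ := hs c d h
    obtain ⟨ρ, hρ, h1⟩ := hT δ (bd_SLO (Gam_le_SLO 1 hδ) 0)
    refine ⟨ρ, Finset.mem_filter.2 ⟨hρ, ?_⟩, _, h1, by rw [← bt_mul, mul_inv_cancel_left, e]⟩
    simpa using mul_mem hδ (inv_mem (Gam_mono hk h1))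
  have hδ1 := (Finset.mem_filter.1 hδ).2
  have e : cut b (orb (Gam K k) (bt δ)) = b (bt δ).1 (bt δ).2 • act (S.a0 k) δ⁻¹ := by
    funext c d
    rw [Pi.smul_apply, Pi.smul_apply, smul_eq_mul, act_eq _ _ (c, d), cut]
    split_ifs with h
    · obtain ⟨γ, hγ, e⟩ := h
      have h1 : δ * γ * δ⁻¹ ∈ Gam K k := by
        simpa using conj_int (inv_mem (Gam_le_SLO 1 hδ1)) hγ
      have h2 := hb γ hγ (bt δ).1 (bt δ).2
      rw [act_eq, ← e] at h2
      rw [e, ← bt_mul, ← bt_mul, a0_bt S h1, kub_conj S (Gam_mono hk hγ) hδ1, mul_comm]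
      exact h2
    · refine (mul_eq_zero_of_right _ ?_).symm
      by_contra h0
      obtain ⟨g, hg, h1, h2⟩ := (a0_ne S).1 h0
      refine h ⟨δ⁻¹ * g * δ, conj_int (Gam_le_SLO 1 hδ1) hg, ?_⟩
      rw [← bt_mul, ← mul_assoc, mul_inv_cancel_left, bt_mul, show bt g = rm (c, d) δ⁻¹ from
        Prod.ext h1 h2, ← rm_mul, inv_mul_cancel, rm_one]
  rw [e]
  exact Submodule.smul_mem _ _ (Submodule.subset_span ⟨_, inv_mem (Gam_SLR hδ1), rfl⟩)

theorem dec {a : K → K → ℂ} (ha : S.Eqv a) : ∀ᶠ k in atTop,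
    a ∈ Submodule.span ℂ {b | ∃ g ∈ SLr K, b = act (S.a0 k) g} := by
  obtain ⟨⟨-, i, hi⟩, j, hj⟩ := ha
  obtain ⟨T, hT1, hT⟩ := fin_bd (K := K) i (i + i + 1 + 1 + 1 + j)
  have H : ∀ᶠ k in atTop, ∀ ρ ∈ T, ∀ γ ∈ Gam K k, ρ⁻¹ * γ * ρ ∈ Gam K (i + i + 1 + 1 + 1 + j) ∧
      S.kub (ρ⁻¹ * γ * ρ) = S.kub γ := by
    refine (eventually_all_finset T).2 fun ρ hρ => ?_
    obtain ⟨M, hM⟩ := cj S (bd_SLR (hT1 ρ hρ)) (i + i + 1 + 1 + 1 + j)
    filter_upwards [eventually_ge_atTop M] with k hk γ hγ using hM γ (Gam_mono hk hγ)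
  filter_upwards [H, eventually_ge_atTop 1] with k hk hk1
  refine decomp (Gam K (i + i + 1 + 1 + 1 + j)) T (fun c d h => ?_) fun ρ hρ => ?_
  · obtain ⟨g, hg, h1, h2⟩ := hi c d h
    obtain ⟨ρ, hρ, h3⟩ := hT g hg
    exact ⟨ρ, hρ, _, h3, by rw [← bt_mul, mul_inv_cancel_left, bt, h1, h2]⟩
  have hb := dec2 S hk1 (b := act (cut a (orb (Gam K (i + i + 1 + 1 + 1 + j)) (bt ρ))) ρ)
    (fun γ hγ c d => by
      rw [act_conj, cut_eqv (hk ρ hρ γ hγ).1 (hj _ (Gam_mono (by omega) (hk ρ hρ γ hγ).1)),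
        (hk ρ hρ γ hγ).2]
      rfl)
    (fun c d h => by
      rw [act_eq _ _ (c, d), cut] at h
      split_ifs at h with h1
      · obtain ⟨γ, hγ, e⟩ := h1
        refine ⟨ρ⁻¹⁻¹ * γ * ρ⁻¹, conj_lv (bd_inv (hT1 ρ hρ)) (Gam_mono (by omega) hγ), ?_⟩
        rw [inv_inv, bt_mul, bt_mul, ← e, Prod.mk.eta, ← rm_mul, mul_inv_cancel, rm_one]
      · exact absurd rfl h)
  have hle : Submodule.span ℂ {b | ∃ g ∈ SLr K, b = act (S.a0 k) g} ≤
      (Submodule.span ℂ {b | ∃ g ∈ SLr K, b = act (S.a0 k) g}).comap (actL ρ⁻¹) := by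
    refine Submodule.span_le.2 ?_
    rintro _ ⟨g, hg, rfl⟩
    exact Submodule.subset_span ⟨ρ⁻¹ * g, mul_mem (inv_mem (bd_SLR (hT1 ρ hρ))) hg,
      (actL_apply _ _).trans (act_act _ _ _)⟩
  have := hle hb
  rwa [Submodule.mem_comap, actL_apply, act_act, inv_mul_cancel, act_one] at this

/-! ### reduction to the explicit family -/

theorem a0_fam {k : ℕ} (hk : 1 ≤ k) {g : SL2 K} (hg : g ∈ SLr K) (hβ : g 0 1 ≠ 0) (hδ : g 1 1 ≠ 0)
    (h1 : g 0 1 * g 1 0 / lv K 0 ∈ Si K) (h2 : g 0 1 * g 1 1 / lv K 0 ∈ Si K) :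
    ∃ j φ, Fam j φ ∧ act (S.a0 k) g = S.ap φ := by
  classical
  obtain ⟨J, j1, j2, j3, j4⟩ := ((ev_Si (g 0 0 / lv K k)).and ((ev_Si (g 0 1 / lv K k)).and
    ((ev_Si (g 1 0 / lv K k)).and (ev_Si (g 1 1 / lv K k))))).exists
  have hl := lv_ne (K := K) k
  have hJ := lv_ne (K := K) J
  have hdet := KU.det_eq g
  have up : ∀ {x : K}, lv K J * (x / lv K k) ∈ Si K → lv K J * x ∈ Si K := fun {x} hx => by
    convert mul_mem (lv_Si k) hx using 1
    field_simp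
  let C : K → K → Prop := fun c d =>
    (c * g 0 0 + d * g 1 0) / lv K k ∈ Si K ∧ (c * g 0 1 + d * g 1 1 - 1) / lv K k ∈ Si K
  have F : ∀ c d, C c d → lv K J * c ∈ Si K ∧ lv K J * d ∈ Si K ∧ (d * g 1 1)⁻¹ ∈ Si K ∧ d ≠ 0 := by
    intro c d h
    have a1 : c * g 0 0 + d * g 1 0 ∈ Si K := by
      convert mul_mem (lv_Si k) h.1 using 1
      field_simp
    have a2 : c * g 0 1 + d * g 1 1 ∈ Si K := mem_Si_of_sub_one h.2
    have a3 : (d * g 1 1 - 1) / lv K 0 ∈ Si K := by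
      convert sub_mem (div_lv_mono h.2 (Nat.zero_le k)) (sub_mem (mul_mem a1 h2) (mul_mem a2 h1))
        using 1
      linear_combination (c * g 0 1 / lv K 0) * hdet
    refine ⟨?_, ?_, (inv_Si a3).1, left_ne_zero_of_mul (inv_Si a3).2⟩
    · convert sub_mem (mul_mem a1 (up j4)) (mul_mem a2 (up j3)) using 1
      linear_combination (-lv K J * c) * hdet
    · convert sub_mem (mul_mem a2 (up j1)) (mul_mem a1 (up j2)) using 1
      linear_combination (-lv K J * d) * hdet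
  have P : ∀ c d s t, s / lv K J ∈ Si K → t / lv K J ∈ Si K → C c d → C (c + s) (d + t) := by
    intro c d s t hs ht h
    constructor
    · convert add_mem h.1 (add_mem (mul_mem hs j1) (mul_mem ht j3)) using 1
      field_simp
      ring
    · convert add_mem h.2 (add_mem (mul_mem hs j2) (mul_mem ht j4)) using 1
      field_simp
      ring
  have κ0 : S.h (g 1 1) (g 0 1) * S.s (g 0 1) (g 1 1) ≠ 0 :=
    mul_ne_zero (h_ne S hδ hβ) (s_ne S (cop_col hg hδ))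
  refine ⟨J, fun c d => if C c d then
    S.h (g 0 1) d * (S.h (g 1 1) (g 0 1) * S.s (g 0 1) (g 1 1))⁻¹ else 0,
    ⟨⟨‖(S.h (g 1 1) (g 0 1) * S.s (g 0 1) (g 1 1))⁻¹‖, fun c d => ?_⟩, fun c d h => ?_,
      fun c d s t hs ht => ?_⟩, ?_⟩
  · split_ifs with h
    · rw [norm_mul, norm_of_cube (S.h_cube _ _ hβ (F c d h).2.2.2), one_mul]
    · rw [norm_zero]
      exact norm_nonneg _
  · have hC : C c d := by
      by_contra hC
      exact h (if_neg hC)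
    obtain ⟨f1, f2, f3, f4⟩ := F c d hC
    refine ⟨f1, f2, f4, ?_⟩
    convert mul_mem (up j4) f3 using 1
    field_simp
  · by_cases h : C c d
    · obtain ⟨-, -, f3, f4⟩ := F c d h
      rw [if_pos h, if_pos (P c d s t hs ht h), h_cg S hβ]
      refine Cg.of hk ?_
      convert mul_mem (mul_mem ht j4) f3 using 1
      field_simp
      ring
    · rw [if_neg h, if_neg]
      intro h'
      have := P _ _ (-s) (-t) (by rw [neg_div]; exact neg_mem hs) (by rw [neg_div]; exact neg_mem ht) h'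
      rw [add_neg_cancel_right, add_neg_cancel_right] at this
      exact h this
  · funext c d
    unfold act Sy.a0 Sy.ap
    beta_reduce
    by_cases hc : Cop c d
    · obtain ⟨g1, g2, g3, g4⟩ := mem_SLr.1 hg
      by_cases h : C c d
      · have hd' := Cg.of hk h.2
        rw [if_pos h, if_pos ⟨Lat_of (add_mem (mul_mem hc.1 g1) (mul_mem hc.2.1 g3)) h.1,
          Lat_of (sub_mem (add_mem (mul_mem hc.1 g2) (mul_mem hc.2.1 g4)) (one_mem _)) h.2⟩]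
        have H := grl S hg hc hβ hδ hd'.ne
        rw [S.h_one _ _ hβ hd', S.h_one _ _ hc.2.2.1 hd'] at H
        rw [← mul_assoc, eq_mul_inv_iff_mul_eq₀ κ0]
        linear_combination H
      · rw [if_neg h, if_neg fun h' => h ⟨Lat_Si h'.1, Lat_Si h'.2⟩, mul_zero]
    · rw [S.s_zero _ _ hc, zero_mul]
      split_ifs with h
      · exact S.s_zero _ _ fun hc' => hc (cop_back hg hc' (F c d ⟨Lat_Si h.1, Lat_Si h.2⟩).2.2.2)
      · rfl

theorem a0_cusp {k : ℕ} (hk : 1 ≤ k) {g : SL2 K} (hg : g ∈ SLr K) (hδ : g 1 1 ≠ 0) :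
    ∃ j φ, Fam j φ ∧ ∃ t ∈ R K, act (S.a0 k) g = act (S.ap φ) (KU.tr t) := by
  obtain ⟨i, i1, i2⟩ := ((ev_Si (g 1 0 / lv K 0)).and (ev_Si (g 1 1 / lv K 0))).exists
  have hi := lv_ne (K := K) i
  have hl := lv_ne (K := K) 1
  obtain ⟨t, ht, ht'⟩ := exists_R_near ((g 0 1 - lv K i) / g 1 1) (c := lv K i * lv K 1 / g 1 1)
    (div_ne_zero (mul_ne_zero hi hl) hδ)
  have c1 : Cg ((g 0 1 - t * g 1 1) / lv K i) := by
    unfold Cg
    convert neg_mem ht' using 1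
    field_simp
    ring
  have c2 : (g 0 1 - t * g 1 1) / lv K i ∈ Si K := mem_Si_of_sub_one c1
  have a1 : (KU.tr (-t) * g) 0 1 = g 0 1 - t * g 1 1 := by rw [KU.mul_01]; simp [KU.tr]; ring
  have a2 : (KU.tr (-t) * g) 1 0 = g 1 0 := by rw [KU.mul_10]; simp [KU.tr]
  have a3 : (KU.tr (-t) * g) 1 1 = g 1 1 := by rw [KU.mul_11]; simp [KU.tr]
  obtain ⟨j, φ, hφ, e⟩ := a0_fam S hk (mul_mem (tr_SLR (neg_mem ht)) hg)
    (by rw [a1]; exact c1.ne_of_div.1) (by rwa [a3])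
    (by rw [a1, a2]; convert mul_mem c2 i1 using 1; field_simp)
    (by rw [a1, a3]; convert mul_mem c2 i2 using 1; field_simp)
  exact ⟨j, φ, hφ, t, ht, by rw [← e, act_act, KU.tr_neg, mul_inv_cancel_left]⟩

theorem cusp {a : K → K → ℂ} (ha : S.Eqv a) :
    a ∈ Submodule.span ℂ {b | ∃ j φ, Fam j φ ∧ ∃ t ∈ R K, b = act (S.ap φ) (KU.tr t)} := by
  obtain ⟨k, h, hk⟩ := ((dec S ha).and (eventually_ge_atTop 1)).exists
  refine Submodule.span_mono ?_ h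
  rintro _ ⟨g, hg, rfl⟩
  by_cases hδ : g 1 1 = 0
  swap
  · exact a0_cusp S hk hg hδ
  have hγ : KU.tr (lv K k) ∈ Gam K k := by
    refine ⟨?_, ?_, ?_, ?_⟩ <;> simp [KU.tr, mem_Lat, lv_ne, isIntegral_one]
  have e : act (S.a0 k) (KU.tr (lv K k)) = S.a0 k := by
    funext c d
    rw [act_a0 S hk hγ, Sy.kub]
    simp [KU.tr, s_zero_one]
  rw [← e, act_act]
  refine a0_cusp S hk (mul_mem hg (Gam_SLR hγ)) ?_
  have hd := KU.det_eq g
  have : g 1 0 ≠ 0 := fun h => by simp [h, hδ] at hd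
  rw [KU.mul_11]
  simp [KU.tr, hδ, this, lv_ne]

end Rw

open Rw in
theorem row2 (S : Sy K) : ROW2 S :=
  ⟨fun _ _ h => eqv_ap S h, fun _ ha _ hg => eqv_act S ha hg, fun _ ha => dec S ha,
    fun _ ha => cusp S ha⟩

end Vale.Agent.P016Z.TH
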