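import Vale.Agent.P016Z.Vor.Defs
import Vale.Agent.P016Z.TH.Qs
import Vale.Agent.P016Z.Sym.Gauss

/-!
P016: the cubic symbol `Sy K` built from the sextic symbol, and the data `Vor.SymV`.
-/

namespace Vale.Agent.P016Z.TH

open NumberField Vale.Agent.P016Z.Sym
open scoped ComplexConjugate

variable {K : Type} [Field K] [NumberField K] [Dat K]

open Classical in
/-- the square of the sextic symbol, extended by zero -/
noncomputable def sqS (x y : K) : ℂ :=
  if h : x ∈ R K ∧ y ∈ R K then x6 (⟨y, h.2⟩ : R K) ⟨x, h.1⟩ ^ 2 else 0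

theorem sqS_coe (x y : R K) : sqS (x : K) y = x6 y x ^ 2 := dif_pos ⟨x.2, y.2⟩

theorem sqS_of_not {x y : K} (h : ¬ (x ∈ R K ∧ y ∈ R K)) : sqS x y = 0 := dif_neg h

theorem sqS_cases (x y : K) : (¬ (x ∈ R K ∧ y ∈ R K)) ∨ ∃ a b : R K, x = a ∧ y = b := by
  by_cases h : x ∈ R K ∧ y ∈ R K
  · exact Or.inr ⟨⟨x, h.1⟩, ⟨y, h.2⟩, rfl, rfl⟩
  · exact Or.inl h

theorem cl_eq_one_of_lv {y : K} (hy : (y - 1) / lv K 1 ∈ Si K) : cl y = 1 := by
  have h0 : y ≠ 0 := (inv_mem_Si_of_sub_one (div_pow_mem_Si_mono (k := 1) (l := 2)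
    hy (by norm_num) |> fun h => by simpa using h)).2
  exact (cl_eq_one (x := Units.mk0 y h0)).2 (P_le_H le_rfl hy)

variable {r : J K → J K → ℂ}

/-- the cubic symbol -/
noncomputable def sy (hr : IsRec r) : Sy K where
  s := sqS
  h := fun x y => r (cl x) (cl y) ^ 2
  s_zero := fun x y h => by
    rcases sqS_cases x y with h1 | ⟨a, b, rfl, rfl⟩
    · exact sqS_of_not h1
    · by_cases hb : b = 0
      · rw [sqS_coe, hb, x6_zero_left]
        norm_num
      rw [sqS_coe, x6_of_not_coprime fun h2 => h (cop_iff.2 ⟨hb, h2⟩)]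
      norm_num
  s_cube := fun x y h => by
    lift x to R K using h.1
    lift y to R K using h.2.1
    obtain ⟨h1, h2⟩ := cop_iff.1 h
    rw [sqS_coe]
    exact x6_sq_cube h1 h2
  s_mul_left := fun x x' y hx hx' => by
    lift x to R K using hx
    lift x' to R K using hx'
    rcases sqS_cases (x : K) y with h1 | ⟨a, b, -, rfl⟩
    · rw [sqS_of_not h1, zero_mul, sqS_of_not fun h2 => h1 ⟨x.2, h2.2⟩]
    · rw [← Subalgebra.coe_mul, sqS_coe, sqS_coe, sqS_coe, x6_mul, mul_pow]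
  s_mul_right := fun x y y' hy hy' => by
    lift y to R K using hy
    lift y' to R K using hy'
    by_cases hx : x ∈ R K
    · lift x to R K using hx
      rw [← Subalgebra.coe_mul, sqS_coe, sqS_coe, sqS_coe, x6_mul_left, mul_pow]
    · rw [sqS_of_not fun h => hx h.1, sqS_of_not fun h => hx h.1, zero_mul]
  s_add := fun x y t ht => by
    lift t to R K using ht
    rcases sqS_cases x y with h1 | ⟨a, b, rfl, rfl⟩
    · rw [sqS_of_not h1, sqS_of_not fun h2 => h1 ⟨?_, h2.2⟩]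
      simpa using sub_mem h2.1 (mul_mem h2.2 t.2)
    · rw [← Subalgebra.coe_mul, ← Subalgebra.coe_add, sqS_coe, sqS_coe,
        x6_congr (c := b) (a := a + b * t) (b := a) (by simp)]
  h_mul_left := fun x x' y hx hx' _ => by rw [cl_mul hx hx', hr.mul_left, mul_pow]
  h_mul_right := fun x y y' _ hy hy' => by rw [cl_mul hy hy', hr.mul_right, mul_pow]
  h_cube := fun x y _ _ => by rw [← pow_mul]; exact hr.pow_six _ _
  h_self := fun x _ => by rw [hr.self, one_pow]
  h_one := fun x y _ hy => by rw [cl_eq_one_of_lv hy, hr.one_right, one_pow]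
  recip := fun x y h hx => by
    lift x to R K using h.1
    lift y to R K using h.2.1
    obtain ⟨h1, h2⟩ := cop_iff.1 h
    have h3 : x ≠ 0 := fun h4 => hx (by rw [h4]; rfl)
    rw [sqS_coe, sqS_coe, hr.recip _ _ h3 h1 h2, mul_pow]
  nontriv := fun p hp => by
    obtain ⟨x, h1, h2⟩ := exists_x6_pow_ne_one hp (j := 2) (by norm_num) (by norm_num)
    exact ⟨x, cop_iff.2 ⟨hp.ne_zero, (hp.coprime_iff_not_dvd.2 h1).symm⟩, by rwa [sqS_coe]⟩

theorem sy_s (hr : IsRec r) (x y : R K) : (sy hr).s x y = x6 y x ^ 2 := sqS_coe x y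

theorem sy_h (hr : IsRec r) (x y : K) : (sy hr).h x y = r (cl x) (cl y) ^ 2 := rfl

/-- the Gauss sum of the structure is the cubic Gauss sum of the block SYM -/
theorem sy_G (hr : IsRec r) (ν : R K) {c : R K} (hc : c ≠ 0) : (sy hr).G ν c = Sym.gs 2 ν c := by
  rw [Sy.G_eq_rsum_E _ ν hc]
  exact rsum_congr fun d => by rw [sy_s]

theorem sy_G_one (hr : IsRec r) {c : R K} (hc : c ≠ 0) :
    (sy hr).G 1 c = (√(Nr c : ℝ) : ℝ) * lam c * gg c := by
  rw [← gs_two_eq hc, ← sy_G hr 1 hc]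
  rfl

theorem symV (hr : IsRec r) : Vor.SymV (sy hr) sym6 where
  mul_left := fun x y n _ => x6_mul n x y
  per := fun n _ => x6_per n
  pow_six := fun _ _ hn h => x6_pow_six hn h
  sq := fun x n _ => (sy_s hr x n).symm
  gauss := fun h hh j hj => ⟨_, primG h j hh (by omega) (by omega)⟩

end Vale.Agent.P016Z.TH
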