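import Vale.Agent.P016Z.TH.Part
import Vale.Agent.P016Z.TH.Cnt
import Vale.Agent.P016Z.TH.FourE
import Vale.Agent.P016Z.TH.Gau1
import Vale.Agent.P016Z.TH.Gau2
import Vale.Agent.P016Z.TH.Gram
import Vale.Agent.P016Z.TH.Limit
import Vale.Agent.P016Z.TH.MeanG
import Vale.Agent.P016Z.TH.MeanI
import Vale.Agent.P016Z.TH.Row2

/-!
P016, block THETA: the blocks proved so far, without hypotheses.
-/

namespace Vale.Agent.P016Z.TH

variable {K : Type} [Field K] [NumberField K] [Dat K]

theorem eisU : EIS K := eis part resel cnt1 cnt2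

theorem fourU : FOUR K := four part resel cnt1 cnt2

theorem limU : LIM K := lim eisU fourU cnt4

theorem lim0U : LIM0 K := lim0 eisU fourU cnt4

theorem gau2U (S : Sy K) : GAU2 S := gau2 S (gau1 S)

theorem meanU (S : Sy K) : MEAN S := mean_of S part resel meanI

theorem gramU (S : Sy K) : GRAM S :=
  gram part eisU fourU cnt3 cnt4 (fun _ hm => ⟨_, isCell_cel hm⟩) (row1 S) (meanU S)

end Vale.Agent.P016Z.TH
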